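import Vale.Agent.P366.T1.Boost.Lin

/-! Boosted slices: the pointwise algebra of the energy and momentum densities. -/

set_option linter.all false

open Finset

noncomputable section
namespace Vale.Agent.P366.T1.Boost

variable {n : ℕ}

/-- the values of the functions and derivatives at a point -/
structure Jet (n : ℕ) where
  w : Fin n → ℝ
  r : Fin n → ℝ
  φ : Fin n → Fin n → ℝ
  ρ : ℝ
  τ : ℝ
  γ : ℝ
  a0 : ℝ
  aT : ℝ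
  aX : ℝ
  b0 : ℝ
  bT : ℝ
  bX : ℝ
  bTT : ℝ
  bTX : ℝ
  bXX : ℝ

namespace Jet

variable (J : Jet n)

def Q (i j : Fin n) : ℝ := (if i = j then 1 else 0) + J.w i * J.w j - J.r i * J.r j

/-- the derivatives of `F` and of the ratio -/
def dF (k : Fin n) : ℝ := J.aT * J.w k + J.aX * J.r k

def ds (k : Fin n) : ℝ := J.bT * J.w k + J.bX * J.r k

/-- the derivatives of the metric -/
def D (k i j : Fin n) : ℝ := J.dF k * (J.r i * J.r j - J.w i * J.w j) + 2 * J.ds k * J.Q i j +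
  (J.a0 - 2 * J.b0) / J.ρ * (J.Q k i * J.r j + J.r i * J.Q k j) -
  (J.φ k i * J.w j + J.w i * J.φ k j)

/-- `γ` times the second fundamental form -/
def kh (i j : Fin n) : ℝ := J.φ i j +
  (J.aT * (J.r i * J.r j - J.w i * J.w j) + 2 * J.bT * J.Q i j) / 2 +
  (J.dF i * J.w j + J.dF j * J.w i) / 2 -
  (∑ k, J.w k * (J.D i j k + J.D j i k - J.D k i j)) / 2

def mu : ℝ := (J.a0 - 2 * J.b0 - 2 * J.ρ * J.bX) / 2

def muT : ℝ := (J.aT - 2 * J.bT - 2 * J.ρ * J.bTX) / 2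

def ha : ℝ := J.aX / 2 - J.ρ * J.bTT

def nu : ℝ := J.γ * J.τ / J.ρ

def U (i : Fin n) : ℝ := J.γ * J.r i - J.nu * J.w i

def eb (i : Fin n) : ℝ := J.muT * (J.nu * J.U i - J.w i) +
  J.mu / J.ρ * (J.γ * J.U i + ((n : ℝ) - 2) * J.r i) + J.ha * (J.γ * J.U i - J.r i)

def pb (i j : Fin n) : ℝ := J.muT * (J.r i * J.U j - J.γ * (if i = j then 1 else 0)) +
  J.mu / J.ρ * (J.w i * J.U j + ((n : ℝ) - 2) * J.nu * (if i = j then 1 else 0)) +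
  J.ha * (J.w i * J.U j - J.nu * (if i = j then 1 else 0))

/-- the derivative in direction `k` of the potential of the energy vector -/
def dP (k i j : Fin n) : ℝ :=
  J.r k * (J.bT * (J.w j * J.r i - J.w i * J.r j)) +
  J.ρ * ((J.bTT * J.w k + J.bTX * J.r k) * (J.w j * J.r i - J.w i * J.r j)) +
  J.bT * (J.w j * J.Q k i - J.w i * J.Q k j) - (J.φ k j * J.w i - J.φ k i * J.w j) / 2

/-- the derivatives of `μ` -/
def dmu (k : Fin n) : ℝ := (J.dF k - 2 * J.ds k - 2 * (J.r k * J.bX) -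
  2 * (J.ρ * (J.bTX * J.w k + J.bXX * J.r k))) / 2

/-- the derivative in direction `i` of the potential of the momentum -/
def dY (i j : Fin n) : ℝ := J.γ / 2 * J.dF i * J.w j +
  J.γ * (J.r i * J.bT * J.r j + J.ρ * (J.bTT * J.w i + J.bTX * J.r i) * J.r j +
    J.bT * J.Q i j) -
  J.γ * ((J.w i / J.ρ - J.τ * J.r i / J.ρ ^ 2) * J.mu * J.r j + J.τ / J.ρ * J.dmu i * J.r j +
    J.τ / J.ρ ^ 2 * J.mu * J.Q i j) +
  J.γ * J.φ i j - J.γ * (J.w i * J.ds j + J.τ * ((J.bTT * J.w i + J.bTX * J.r i) * J.w j +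
    (J.bTX * J.w i + J.bXX * J.r i) * J.r j + J.bX * J.Q i j / J.ρ)) - J.γ * J.ds i * J.w j

structure Ok : Prop where
  ρ0 : J.ρ ≠ 0
  γ0 : J.γ ≠ 0
  sww : ∑ k, J.w k * J.w k = J.γ ^ 2 - 1
  swr : ∑ k, J.w k * J.r k = J.γ ^ 2 * J.τ / J.ρ
  srr : ∑ k, J.r k * J.r k = 1 + J.γ ^ 2 * J.τ ^ 2 / J.ρ ^ 2
  symm : ∀ i j, J.φ i j = J.φ j i

variable {J}

theorem sum_Qw (h : J.Ok) (i : Fin n) : ∑ k, J.Q i k * J.w k =
    J.γ ^ 2 * J.w i - J.γ ^ 2 * J.τ / J.ρ * J.r i := by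
  have e : ∀ k, J.Q i k * J.w k = (if i = k then J.w k else 0) + J.w i * (J.w k * J.w k) -
      J.r i * (J.w k * J.r k) := by intro k; unfold Q; split_ifs <;> ring
  simp only [e, Finset.sum_add_distrib, Finset.sum_sub_distrib, ← Finset.mul_sum,
    Finset.sum_ite_eq, Finset.mem_univ, if_true, h.sww, h.swr]
  ring

theorem sum_Qr (h : J.Ok) (i : Fin n) : ∑ k, J.Q i k * J.r k =
    J.γ ^ 2 * J.τ / J.ρ * J.w i - J.γ ^ 2 * J.τ ^ 2 / J.ρ ^ 2 * J.r i := by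
  have e : ∀ k, J.Q i k * J.r k = (if i = k then J.r k else 0) + J.w i * (J.w k * J.r k) -
      J.r i * (J.r k * J.r k) := by intro k; unfold Q; split_ifs <;> ring
  simp only [e, Finset.sum_add_distrib, Finset.sum_sub_distrib, ← Finset.mul_sum,
    Finset.sum_ite_eq, Finset.mem_univ, if_true, h.srr, h.swr]
  ring

theorem sum_QQ (h : J.Ok) : ∑ k, J.Q k k =
    (n : ℝ) - 2 + J.γ ^ 2 - J.γ ^ 2 * J.τ ^ 2 / J.ρ ^ 2 := by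
  have e : ∀ k, J.Q k k = 1 + J.w k * J.w k - J.r k * J.r k := by
    intro k; unfold Q; rw [if_pos rfl]
  simp only [e, Finset.sum_add_distrib, Finset.sum_sub_distrib, h.sww, h.srr, Finset.sum_const,
    Finset.card_univ, Fintype.card_fin, nsmul_eq_mul]
  ring

theorem Q_symm (i j : Fin n) : J.Q i j = J.Q j i := by
  unfold Q
  by_cases hij : i = j
  · subst hij; ring
  · have hji : ¬ j = i := fun h => hij h.symm
    simp only [hij, hji, if_false]; ring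

/-- the energy vector -/
theorem alg_e (h : J.Ok) (i : Fin n) :
    (∑ j, (J.D j i j - J.D i j j)) / 2 = J.eb i + ∑ j, J.dP j i j := by
  have hρ := h.ρ0
  have e1 : ∀ j, J.D j i j - J.D i j j =
      J.aT * J.r i * (J.w j * J.r j) - J.aT * J.w i * (J.w j * J.w j) +
      J.aX * J.r i * (J.r j * J.r j) - J.aX * J.w i * (J.w j * J.r j) +
      2 * J.bT * (J.Q i j * J.w j) + 2 * J.bX * (J.Q i j * J.r j) +
      (J.a0 - 2 * J.b0) / J.ρ * (J.r i * J.Q j j - J.Q i j * J.r j) -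
      (J.w i * J.φ j j - J.φ i j * J.w j) -
      J.dF i * (J.r j * J.r j - J.w j * J.w j) - 2 * J.ds i * J.Q j j := by
    intro j
    unfold D
    rw [Q_symm j i, h.symm j i]
    unfold dF ds
    ring
  have e2 : ∀ j, J.dP j i j =
      J.bT * J.r i * (J.w j * J.r j) - J.bT * J.w i * (J.r j * J.r j) +
      J.ρ * J.bTT * J.r i * (J.w j * J.w j) - J.ρ * J.bTT * J.w i * (J.w j * J.r j) +
      J.ρ * J.bTX * J.r i * (J.w j * J.r j) - J.ρ * J.bTX * J.w i * (J.r j * J.r j) +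
      J.bT * (J.Q i j * J.w j) - J.bT * J.w i * J.Q j j -
      (J.w i * J.φ j j - J.φ i j * J.w j) / 2 := by
    intro j
    unfold dP
    rw [Q_symm j i, h.symm j i]
    ring
  simp only [e1, e2, Finset.sum_add_distrib, Finset.sum_sub_distrib, ← Finset.mul_sum,
    ← Finset.sum_div, sum_Qw h, sum_Qr h, sum_QQ h, h.sww, h.swr, h.srr]
  unfold eb muT mu ha U nu dF ds
  field_simp
  ring

/-- contraction of the derivatives of the metric with `w` -/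
theorem sum_wD1 (h : J.Ok) (i j : Fin n) : ∑ k, J.w k * J.D i j k =
    J.dF i * (J.γ ^ 2 * J.τ / J.ρ * J.r j - (J.γ ^ 2 - 1) * J.w j) +
    2 * J.ds i * (J.γ ^ 2 * J.w j - J.γ ^ 2 * J.τ / J.ρ * J.r j) +
    (J.a0 - 2 * J.b0) / J.ρ * (J.Q i j * (J.γ ^ 2 * J.τ / J.ρ) +
      J.r j * (J.γ ^ 2 * J.w i - J.γ ^ 2 * J.τ / J.ρ * J.r i)) -
    (J.φ i j * (J.γ ^ 2 - 1) + J.w j * ∑ k, J.φ i k * J.w k) := by
  have e1 : ∀ k, J.w k * J.D i j k =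
      J.dF i * J.r j * (J.w k * J.r k) - J.dF i * J.w j * (J.w k * J.w k) +
      2 * J.ds i * (J.Q j k * J.w k) +
      (J.a0 - 2 * J.b0) / J.ρ * (J.Q i j * (J.w k * J.r k)) +
      (J.a0 - 2 * J.b0) / J.ρ * (J.r j * (J.Q i k * J.w k)) -
      J.φ i j * (J.w k * J.w k) - J.w j * (J.φ i k * J.w k) := by
    intro k; unfold D; ring
  simp only [e1, Finset.sum_add_distrib, Finset.sum_sub_distrib, ← Finset.mul_sum, sum_Qw h,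
    h.sww, h.swr]
  ring

theorem sum_wD2 (h : J.Ok) (i j : Fin n) : ∑ k, J.w k * J.D k i j =
    (J.aT * (J.γ ^ 2 - 1) + J.aX * (J.γ ^ 2 * J.τ / J.ρ)) * (J.r i * J.r j - J.w i * J.w j) +
    2 * (J.bT * (J.γ ^ 2 - 1) + J.bX * (J.γ ^ 2 * J.τ / J.ρ)) * J.Q i j +
    (J.a0 - 2 * J.b0) / J.ρ * ((J.γ ^ 2 * J.w i - J.γ ^ 2 * J.τ / J.ρ * J.r i) * J.r j +
      J.r i * (J.γ ^ 2 * J.w j - J.γ ^ 2 * J.τ / J.ρ * J.r j)) -
    ((∑ k, J.φ i k * J.w k) * J.w j + J.w i * ∑ k, J.φ j k * J.w k) := by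
  have e1 : ∀ k, J.w k * J.D k i j =
      J.aT * (J.r i * J.r j - J.w i * J.w j) * (J.w k * J.w k) +
      J.aX * (J.r i * J.r j - J.w i * J.w j) * (J.w k * J.r k) +
      2 * J.bT * J.Q i j * (J.w k * J.w k) + 2 * J.bX * J.Q i j * (J.w k * J.r k) +
      (J.a0 - 2 * J.b0) / J.ρ * J.r j * (J.Q i k * J.w k) +
      (J.a0 - 2 * J.b0) / J.ρ * J.r i * (J.Q j k * J.w k) -
      J.w j * (J.φ i k * J.w k) - J.w i * (J.φ j k * J.w k) := by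
    intro k; unfold D dF ds
    rw [Q_symm k i, Q_symm k j, h.symm k i, h.symm k j]; ring
  simp only [e1, Finset.sum_add_distrib, Finset.sum_sub_distrib, ← Finset.mul_sum, sum_Qw h,
    h.sww, h.swr]
  ring

/-- `γ K` in closed form -/
theorem kh_eq (h : J.Ok) (i j : Fin n) : J.kh i j = J.γ ^ 2 * J.φ i j +
    J.aT / 2 * (J.r i * J.r j - J.w i * J.w j) + J.bT * J.Q i j +
    (J.dF i * J.w j + J.dF j * J.w i) / 2 -
    (J.dF i * (J.γ ^ 2 * J.τ / J.ρ * J.r j - (J.γ ^ 2 - 1) * J.w j) +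
     J.dF j * (J.γ ^ 2 * J.τ / J.ρ * J.r i - (J.γ ^ 2 - 1) * J.w i)) / 2 -
    (J.ds i * (J.γ ^ 2 * J.w j - J.γ ^ 2 * J.τ / J.ρ * J.r j) +
     J.ds j * (J.γ ^ 2 * J.w i - J.γ ^ 2 * J.τ / J.ρ * J.r i)) -
    (J.a0 - 2 * J.b0) / J.ρ * (J.γ ^ 2 * J.τ / J.ρ) * J.Q i j +
    (J.aT * (J.γ ^ 2 - 1) + J.aX * (J.γ ^ 2 * J.τ / J.ρ)) / 2 *
      (J.r i * J.r j - J.w i * J.w j) +
    (J.bT * (J.γ ^ 2 - 1) + J.bX * (J.γ ^ 2 * J.τ / J.ρ)) * J.Q i j := by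
  unfold kh
  simp only [mul_add, mul_sub, Finset.sum_add_distrib, Finset.sum_sub_distrib]
  rw [sum_wD1 h i j, sum_wD1 h j i, sum_wD2 h i j, Q_symm j i, h.symm j i]
  ring

/-- the trace of `γ K` -/
theorem sum_kh (h : J.Ok) : ∑ k, J.kh k k = J.γ ^ 2 * ∑ k, J.φ k k +
    J.aT / 2 * (1 + J.γ ^ 2 * J.τ ^ 2 / J.ρ ^ 2 - (J.γ ^ 2 - 1)) +
    J.bT * ((n : ℝ) - 2 + J.γ ^ 2 - J.γ ^ 2 * J.τ ^ 2 / J.ρ ^ 2) +
    (J.aT * (J.γ ^ 2 - 1) + J.aX * (J.γ ^ 2 * J.τ / J.ρ)) -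
    (J.aT * (J.γ ^ 2 * J.τ / J.ρ * (J.γ ^ 2 * J.τ / J.ρ) - (J.γ ^ 2 - 1) * (J.γ ^ 2 - 1)) +
     J.aX * (J.γ ^ 2 * J.τ / J.ρ * (1 + J.γ ^ 2 * J.τ ^ 2 / J.ρ ^ 2) -
      (J.γ ^ 2 - 1) * (J.γ ^ 2 * J.τ / J.ρ))) -
    2 * (J.bT * (J.γ ^ 2 * (J.γ ^ 2 - 1) - J.γ ^ 2 * J.τ / J.ρ * (J.γ ^ 2 * J.τ / J.ρ)) +
     J.bX * (J.γ ^ 2 * (J.γ ^ 2 * J.τ / J.ρ) -
      J.γ ^ 2 * J.τ / J.ρ * (1 + J.γ ^ 2 * J.τ ^ 2 / J.ρ ^ 2))) -
    (J.a0 - 2 * J.b0) / J.ρ * (J.γ ^ 2 * J.τ / J.ρ) *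
      ((n : ℝ) - 2 + J.γ ^ 2 - J.γ ^ 2 * J.τ ^ 2 / J.ρ ^ 2) +
    (J.aT * (J.γ ^ 2 - 1) + J.aX * (J.γ ^ 2 * J.τ / J.ρ)) / 2 *
      (1 + J.γ ^ 2 * J.τ ^ 2 / J.ρ ^ 2 - (J.γ ^ 2 - 1)) +
    (J.bT * (J.γ ^ 2 - 1) + J.bX * (J.γ ^ 2 * J.τ / J.ρ)) *
      ((n : ℝ) - 2 + J.γ ^ 2 - J.γ ^ 2 * J.τ ^ 2 / J.ρ ^ 2) := by
  have e1 : ∀ k, J.kh k k = J.γ ^ 2 * J.φ k k +
    J.aT / 2 * (J.r k * J.r k) - J.aT / 2 * (J.w k * J.w k) + J.bT * J.Q k k +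
    (J.aT * (J.w k * J.w k) + J.aX * (J.w k * J.r k)) -
    (J.aT * (J.γ ^ 2 * J.τ / J.ρ) * (J.w k * J.r k) - J.aT * (J.γ ^ 2 - 1) * (J.w k * J.w k) +
      J.aX * (J.γ ^ 2 * J.τ / J.ρ) * (J.r k * J.r k) - J.aX * (J.γ ^ 2 - 1) * (J.w k * J.r k)) -
    2 * (J.bT * J.γ ^ 2 * (J.w k * J.w k) - J.bT * (J.γ ^ 2 * J.τ / J.ρ) * (J.w k * J.r k) +
      J.bX * J.γ ^ 2 * (J.w k * J.r k) - J.bX * (J.γ ^ 2 * J.τ / J.ρ) * (J.r k * J.r k)) -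
    (J.a0 - 2 * J.b0) / J.ρ * (J.γ ^ 2 * J.τ / J.ρ) * J.Q k k +
    (J.aT * (J.γ ^ 2 - 1) + J.aX * (J.γ ^ 2 * J.τ / J.ρ)) / 2 * (J.r k * J.r k) -
    (J.aT * (J.γ ^ 2 - 1) + J.aX * (J.γ ^ 2 * J.τ / J.ρ)) / 2 * (J.w k * J.w k) +
    (J.bT * (J.γ ^ 2 - 1) + J.bX * (J.γ ^ 2 * J.τ / J.ρ)) * J.Q k k := by
    intro k
    rw [kh_eq h]
    unfold dF ds
    ring
  simp only [e1, Finset.sum_add_distrib, Finset.sum_sub_distrib, ← Finset.mul_sum,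
    sum_QQ h, h.sww, h.swr, h.srr]
  ring

/-- the trace of the derivatives of the potential of the momentum -/
theorem sum_dY (h : J.Ok) : ∑ k, J.dY k k =
    J.γ / 2 * (J.aT * (J.γ ^ 2 - 1) + J.aX * (J.γ ^ 2 * J.τ / J.ρ)) +
    J.γ * (J.bT * (1 + J.γ ^ 2 * J.τ ^ 2 / J.ρ ^ 2) + J.ρ * (J.bTT * (J.γ ^ 2 * J.τ / J.ρ) +
      J.bTX * (1 + J.γ ^ 2 * J.τ ^ 2 / J.ρ ^ 2)) +
      J.bT * ((n : ℝ) - 2 + J.γ ^ 2 - J.γ ^ 2 * J.τ ^ 2 / J.ρ ^ 2)) -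
    J.γ * (((J.γ ^ 2 * J.τ / J.ρ) / J.ρ - J.τ * (1 + J.γ ^ 2 * J.τ ^ 2 / J.ρ ^ 2) / J.ρ ^ 2) *
      J.mu + J.τ / J.ρ * ((J.aT - 2 * J.bT - 2 * J.ρ * J.bTX) / 2 * (J.γ ^ 2 * J.τ / J.ρ) +
        (J.aX - 2 * J.bX - 2 * J.bX - 2 * J.ρ * J.bXX) / 2 *
          (1 + J.γ ^ 2 * J.τ ^ 2 / J.ρ ^ 2)) +
      J.τ / J.ρ ^ 2 * J.mu * ((n : ℝ) - 2 + J.γ ^ 2 - J.γ ^ 2 * J.τ ^ 2 / J.ρ ^ 2)) +
    J.γ * ∑ k, J.φ k k - J.γ * (J.bT * (J.γ ^ 2 - 1) + J.bX * (J.γ ^ 2 * J.τ / J.ρ) +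
      J.τ * (J.bTT * (J.γ ^ 2 - 1) + J.bTX * (J.γ ^ 2 * J.τ / J.ρ) +
      J.bTX * (J.γ ^ 2 * J.τ / J.ρ) + J.bXX * (1 + J.γ ^ 2 * J.τ ^ 2 / J.ρ ^ 2) +
      J.bX / J.ρ * ((n : ℝ) - 2 + J.γ ^ 2 - J.γ ^ 2 * J.τ ^ 2 / J.ρ ^ 2))) -
    J.γ * (J.bT * (J.γ ^ 2 - 1) + J.bX * (J.γ ^ 2 * J.τ / J.ρ)) := by
  have e1 : ∀ k, J.dY k k =
    J.γ / 2 * J.aT * (J.w k * J.w k) + J.γ / 2 * J.aX * (J.w k * J.r k) +
    (J.γ * J.bT * (J.r k * J.r k) + J.γ * J.ρ * J.bTT * (J.w k * J.r k) +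
      J.γ * J.ρ * J.bTX * (J.r k * J.r k) + J.γ * J.bT * J.Q k k) -
    (J.γ / J.ρ * J.mu * (J.w k * J.r k) - J.γ * J.τ / J.ρ ^ 2 * J.mu * (J.r k * J.r k) +
      J.γ * (J.τ / J.ρ) * ((J.aT - 2 * J.bT - 2 * J.ρ * J.bTX) / 2) * (J.w k * J.r k) +
      J.γ * (J.τ / J.ρ) * ((J.aX - 2 * J.bX - 2 * J.bX - 2 * J.ρ * J.bXX) / 2) *
        (J.r k * J.r k) +
      J.γ * (J.τ / J.ρ ^ 2) * J.mu * J.Q k k) +
    J.γ * J.φ k k - (J.γ * J.bT * (J.w k * J.w k) + J.γ * J.bX * (J.w k * J.r k) +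
      J.γ * J.τ * J.bTT * (J.w k * J.w k) + J.γ * J.τ * J.bTX * (J.w k * J.r k) +
      J.γ * J.τ * J.bTX * (J.w k * J.r k) + J.γ * J.τ * J.bXX * (J.r k * J.r k) +
      J.γ * J.τ * J.bX / J.ρ * J.Q k k) -
    (J.γ * J.bT * (J.w k * J.w k) + J.γ * J.bX * (J.w k * J.r k)) := by
    intro k
    unfold dY dmu dF ds
    ring
  simp only [e1, Finset.sum_add_distrib, Finset.sum_sub_distrib, ← Finset.mul_sum,
    sum_QQ h, h.sww, h.swr, h.srr]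
  ring

/-- the momentum -/
theorem alg_p (h : J.Ok) (i j : Fin n) :
    (J.kh i j - (if i = j then 1 else 0) * ∑ k, J.kh k k) / J.γ =
      J.pb i j + (J.dY i j - (if i = j then 1 else 0) * ∑ k, J.dY k k) := by
  have hρ := h.ρ0
  have hγ := h.γ0
  rw [sum_kh h, sum_dY h, kh_eq h]
  unfold pb dY dmu dF ds muT mu ha U nu Q
  split_ifs with hij
  · field_simp
    ring
  · field_simp
    ring

/-- the combination (a) -/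
theorem alg_a (h : J.Ok) (j : Fin n) : J.γ * J.eb j - ∑ i, J.w i * J.pb i j =
    ((n : ℝ) - 1) * (J.mu / J.ρ) * J.U j := by
  have hρ := h.ρ0
  have e1 : ∀ i, J.w i * J.pb i j =
      J.muT * J.U j * (J.w i * J.r i) - J.muT * J.γ * (if i = j then J.w i else 0) +
      (J.mu / J.ρ * J.U j * (J.w i * J.w i) +
        J.mu / J.ρ * ((n : ℝ) - 2) * J.nu * (if i = j then J.w i else 0)) +
      (J.ha * J.U j * (J.w i * J.w i) - J.ha * J.nu * (if i = j then J.w i else 0)) := by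
    intro i; unfold pb; split_ifs <;> ring
  simp only [e1, Finset.sum_add_distrib, Finset.sum_sub_distrib, ← Finset.mul_sum,
    Finset.sum_ite_eq', Finset.mem_univ, if_true, h.sww, h.swr]
  unfold eb U nu
  field_simp
  ring

/-- the combination (b) -/
theorem alg_b (h : J.Ok) (i j : Fin n) : J.w i * J.eb j - J.γ * J.pb i j =
    J.muT * (J.γ ^ 2 * (if i = j then 1 else 0) - J.w i * J.w j - J.U i * J.U j) -
    (J.ha - ((n : ℝ) - 2) * J.mu / J.ρ) * (J.w i * J.r j - J.γ * J.nu * (if i = j then 1 else 0)) := by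
  have hρ := h.ρ0
  unfold eb pb U nu
  field_simp
  ring

end Jet

end Vale.Agent.P366.T1.Boost
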