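import Vale.Agent.P366.T1.A919g

/-! Boosted slices: exact terms have no flux. -/

open MeasureTheory Metric Filter Topology Set Asymptotics
open scoped ContDiff ENNReal

noncomputable section
namespace Vale.Agent.P366.T1.Boost

variable {n : ℕ}

/-- A radial cutoff. -/
def rcut (a b : ℝ) (x : E n) : ℝ := Real.smoothTransition ((‖x‖ - a) / (b - a))

lemma rcut_zero {a b : ℝ} (hab : a < b) {x : E n} (hx : ‖x‖ ≤ a) : rcut a b x = 0 :=
  Real.smoothTransition.zero_of_nonpos
    (div_nonpos_of_nonpos_of_nonneg (by linarith) (by linarith))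

lemma rcut_one {a b : ℝ} (hab : a < b) {x : E n} (hx : b ≤ ‖x‖) : rcut a b x = 1 := by
  refine Real.smoothTransition.one_of_one_le ?_
  rw [le_div_iff₀ (by linarith)]
  linarith

lemma rcut_smooth {a b : ℝ} {x : E n} (hx : x ≠ 0) : ContDiffAt ℝ ∞ (rcut a b : E n → ℝ) x := by
  unfold rcut
  exact Real.smoothTransition.contDiffAt.comp x
    (((contDiffAt_norm ℝ hx).sub contDiffAt_const).div_const _)

/-- The product with the cutoff is globally smooth. -/
lemma cut_smooth {R0 a b : ℝ} (hR0 : 0 ≤ R0) (ha : R0 < a) (hab : a < b) {A : E n → ℝ}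
    (hA : ContDiffOn ℝ ∞ A {x : E n | R0 < ‖x‖}) : ContDiff ℝ ∞ (fun x => rcut a b x * A x) := by
  rw [contDiff_iff_contDiffAt]
  intro x
  rcases lt_or_ge R0 ‖x‖ with h | h
  · have hx : x ≠ 0 := by
      rintro rfl
      rw [norm_zero] at h
      exact absurd h (not_lt.2 hR0)
    exact (rcut_smooth hx).mul (hA.contDiffAt ((isOpen_outside R0).mem_nhds h))
  · have h1 : (fun x => rcut a b x * A x) =ᶠ[𝓝 x] fun _ => (0 : ℝ) := by
      have h2 : {y : E n | ‖y‖ < a} ∈ 𝓝 x :=
        (isOpen_lt continuous_norm continuous_const).mem_nhds (lt_of_le_of_lt h ha)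
      filter_upwards [h2] with y hy
      rw [rcut_zero hab (le_of_lt hy), zero_mul]
    exact contDiffAt_const.congr_of_eventuallyEq h1

theorem curl_zero (hn : 2 ≤ n) {R0 R : ℝ} (hR0 : 0 ≤ R0) (hR : R0 < R)
    {A : Fin n → Fin n → E n → ℝ} (hA : ∀ i j, ContDiffOn ℝ ∞ (A i j) {x : E n | R0 < ‖x‖})
    (has : ∀ i j, ∀ x, A i j x = - A j i x) :
    sphI (fun y : E n => ∑ i, (∑ j, pd j (A i j) y) * (y i / ‖y‖)) R = 0 := by
  have hnt : Nontrivial (E n) := by
    have : Nonempty (Fin n) := ⟨⟨0, by omega⟩⟩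
    infer_instance
  obtain ⟨b, hb1, hb2⟩ := exists_between hR
  obtain ⟨a, ha1, ha2⟩ := exists_between hb1
  have hRpos : 0 < R := lt_of_le_of_lt hR0 hR
  set B : Fin n → Fin n → E n → ℝ := fun i j x => rcut a b x * A i j x with hB
  have hBs : ∀ i j, ContDiff ℝ ∞ (B i j) := fun i j => cut_smooth hR0 ha1 ha2 (hA i j)
  have hBas : ∀ i j, B i j = fun x => - B j i x := by
    intro i j
    funext x
    simp only [hB, has i j x]
    ring
  set W : Fin n → E n → ℝ := fun i x => ∑ j, pd j (B i j) x with hW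
  have hWs : ∀ i, ContDiff ℝ ∞ (W i) := fun i =>
    ContDiff.sum fun j _ => A919.smooth_pd (hBs i j) j
  have hdiff : ∀ {F : E n → ℝ}, ContDiff ℝ ∞ F → ∀ x, DifferentiableAt ℝ F x := fun hF x =>
    (hF.differentiable (by simp)) x
  have hneg : ∀ {F : E n → ℝ} (i : Fin n) (x : E n), pd i (fun y => - F y) x = - pd i F x := by
    intro F i x
    unfold pd
    rw [fderiv_fun_neg]
    rfl
  have hdiv : ∀ x, dvg W x = 0 := by
    intro x
    have h1 : ∀ i, pd i (W i) x = ∑ j, pd i (pd j (B i j)) x := fun i =>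
      pd_sum _ (fun j _ => hdiff (A919.smooth_pd (hBs i j) j) x) i
    have h2 : dvg W x = ∑ i, ∑ j, pd i (pd j (B i j)) x :=
      Finset.sum_congr rfl fun i _ => h1 i
    have h3 : ∑ i, ∑ j, pd i (pd j (B i j)) x = - ∑ i, ∑ j, pd i (pd j (B i j)) x := by
      conv_lhs => rw [Finset.sum_comm]
      rw [← Finset.sum_neg_distrib]
      refine Finset.sum_congr rfl fun j _ => ?_
      rw [← Finset.sum_neg_distrib]
      refine Finset.sum_congr rfl fun i _ => ?_
      rw [A919.symm_pd (hBs i j) i j, hBas i j]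
      have h4 : pd i (fun x => - B j i x) = fun x => - pd i (B j i) x := by
        funext y
        exact hneg i y
      rw [h4, hneg]
    rw [h2]
    linarith
  have h0 := A919.flux_zero hn (fun i => (hWs i).of_le (by simp)) hdiv hRpos
  have h1 : flux W R = R ^ (n - 1) * sphI (fun x => ∑ i, W i x * (x i / ‖x‖)) R := rfl
  rw [h1] at h0
  have h2 := (mul_eq_zero.1 h0).resolve_left (pow_pos hRpos _).ne'
  refine Eq.trans ?_ h2
  unfold sphI
  congr 1
  funext θ
  have hnorm : ‖R • (θ : E n)‖ = R := norm_smul_sph hRpos.le θ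
  refine Finset.sum_congr rfl fun i _ => ?_
  congr 1
  refine Finset.sum_congr rfl fun j _ => ?_
  refine pd_congr ?_ j
  have h3 : {y : E n | b < ‖y‖} ∈ 𝓝 (R • (θ : E n)) :=
    (isOpen_outside b).mem_nhds (by show b < ‖R • (θ : E n)‖; rw [hnorm]; exact hb2)
  filter_upwards [h3] with y hy
  simp only [hB]
  rw [rcut_one ha2 (le_of_lt hy), one_mul]

theorem curl_zero' (hn : 2 ≤ n) {R0 R : ℝ} (hR0 : 0 ≤ R0) (hR : R0 < R)
    {X : Fin n → E n → ℝ} (hX : ∀ j, ContDiffOn ℝ ∞ (X j) {x : E n | R0 < ‖x‖}) (i : Fin n) :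
    sphI (fun y : E n => ∑ j, (pd i (X j) y - (if i = j then 1 else 0) * ∑ k, pd k (X k) y) *
      (y j / ‖y‖)) R = 0 := by
  have hRpos : 0 < R := lt_of_le_of_lt hR0 hR
  set A : Fin n → Fin n → E n → ℝ := fun j k x =>
    (if i = k then 1 else 0) * X j x - (if i = j then 1 else 0) * X k x with hAdef
  have hA : ∀ j k, ContDiffOn ℝ ∞ (A j k) {x : E n | R0 < ‖x‖} := fun j k =>
    (contDiffOn_const.mul (hX j)).sub (contDiffOn_const.mul (hX k))
  have has : ∀ j k x, A j k x = - A k j x := fun j k x => by simp only [hAdef]; ring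
  refine Eq.trans ?_ (curl_zero hn hR0 hR hA has)
  unfold sphI
  congr 1
  funext θ
  have hnorm : ‖R • (θ : E n)‖ = R := norm_smul_sph hRpos.le θ
  set y := R • (θ : E n)
  have hy : y ∈ {x : E n | R0 < ‖x‖} := by show R0 < ‖y‖; rw [hnorm]; exact hR
  have hd : ∀ j, DifferentiableAt ℝ (X j) y := fun j =>
    ((hX j).contDiffAt ((isOpen_outside R0).mem_nhds hy)).differentiableAt (by simp)
  refine Finset.sum_congr rfl fun j _ => ?_
  congr 1
  have h1 : ∀ k, pd k (A j k) y = (if i = k then 1 else 0) * pd k (X j) y -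
      (if i = j then 1 else 0) * pd k (X k) y := by
    intro k
    simp only [hAdef]
    rw [pd_sub ((hd j).const_mul _) ((hd k).const_mul _)]
    have h2 : ∀ (c : ℝ) (l : Fin n), pd k (fun x => c * X l x) y = c * pd k (X l) y := by
      intro c l
      unfold pd
      rw [fderiv_const_mul (hd l)]
      rfl
    rw [h2, h2]
  simp only [h1, Finset.sum_sub_distrib, ← Finset.mul_sum]
  simp

end Vale.Agent.P366.T1.Boost
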