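import Vale.Agent.P366.T1.Boost.Grad
import Vale.Agent.P366.T1.Core
import Vale.Agent.P366.T1.BStmt

/-! Boosted slices: the decay facts in the asymptotically flat coordinates. -/

set_option linter.all false

open MeasureTheory Metric Filter Topology Set Asymptotics
open scoped ContDiff ENNReal RealInnerProductSpace Matrix

noncomputable section
namespace Vale.Agent.P366.T1.Boost

open Vale.Agent.P366.T1.A919

variable {n : ℕ}

/-! ### `|y|` and `|L y|` -/

theorem norm_bounds (L : E n ≃L[ℝ] E n) : ∃ a b : ℝ, 0 < a ∧ 0 < b ∧ ∀ y : E n,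
    ‖L y‖ ≤ b * ‖y‖ ∧ ‖y‖ ≤ a * ‖L y‖ := by
  refine ⟨‖(L.symm : E n →L[ℝ] E n)‖ + 1, ‖(L : E n →L[ℝ] E n)‖ + 1, by positivity, by positivity,
    fun y => ⟨?_, ?_⟩⟩
  · have := (L : E n →L[ℝ] E n).le_opNorm y
    have h2 := norm_nonneg y
    calc ‖L y‖ ≤ ‖(L : E n →L[ℝ] E n)‖ * ‖y‖ := this
      _ ≤ _ := by nlinarith
  · have := (L.symm : E n →L[ℝ] E n).le_opNorm (L y)
    have h2 := norm_nonneg (L y)
    have e : (L.symm : E n →L[ℝ] E n) (L y) = y := L.symm_apply_apply y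
    rw [e] at this
    calc ‖y‖ ≤ ‖(L.symm : E n →L[ℝ] E n)‖ * ‖L y‖ := this
      _ ≤ _ := by nlinarith

theorem far_L (L : E n ≃L[ℝ] E n) : Tendsto (fun y => L y) (far n) (far n) := by
  obtain ⟨a, b, ha, hb, hab⟩ := norm_bounds L
  unfold far
  rw [tendsto_comap_iff]
  have h1 : Tendsto (fun y : E n => a⁻¹ * ‖y‖) (comap (fun x : E n => ‖x‖) atTop) atTop :=
    tendsto_comap.const_mul_atTop (by positivity)
  refine tendsto_atTop_mono (fun y => ?_) h1
  simp only [Function.comp]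
  rw [inv_mul_le_iff₀ ha]
  exact (hab y).2

/-- decay orders do not change under `L` -/
theorem O_rpow_L (L : E n ≃L[ℝ] E n) (q : ℝ) : O q (fun y => ‖L y‖ ^ (-q)) := by
  obtain ⟨a, b, ha, hb, hab⟩ := norm_bounds L
  rcases le_or_gt 0 q with h | h
  · refine O.of_bound (C := a ^ q) (far_of 0 fun y hy => ?_)
    have h1 : 0 < ‖L y‖ := by
      have := (hab y).2
      by_contra hc
      have h2 : ‖L y‖ = 0 := le_antisymm (not_lt.mp hc) (norm_nonneg _)
      rw [h2, mul_zero] at this; linarith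
    rw [abs_of_nonneg (Real.rpow_nonneg (norm_nonneg _) _), Real.rpow_neg h1.le, Real.rpow_neg hy.le]
    have h3 : ‖y‖ ^ q ≤ (a * ‖L y‖) ^ q := Real.rpow_le_rpow hy.le (hab y).2 h
    rw [Real.mul_rpow ha.le h1.le] at h3
    have h4 : 0 < ‖y‖ ^ q := Real.rpow_pos_of_pos hy _
    have h5 : 0 < ‖L y‖ ^ q := Real.rpow_pos_of_pos h1 _
    rw [← div_eq_mul_inv, inv_le_iff_one_le_mul₀ h5, div_mul_eq_mul_div, le_div_iff₀ h4, one_mul]
    exact h3
  · refine O.of_bound (C := b ^ (-q)) (far_of 0 fun y hy => ?_)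
    rw [abs_of_nonneg (Real.rpow_nonneg (norm_nonneg _) _)]
    rw [← Real.mul_rpow hb.le hy.le]
    exact Real.rpow_le_rpow (norm_nonneg _) (hab y).1 (by linarith)

theorem O_L {L : E n ≃L[ℝ] E n} {q C : ℝ} {u : E n → ℝ}
    (hu : ∀ᶠ y in far n, |u y| ≤ C * ‖L y‖ ^ (-q)) : O q u := by
  refine O.of_abs ((O_rpow_L L q).const_mul C) (hu.mono fun y hy => ?_)
  exact hy.trans (le_abs_self _)

theorem O_rL (L : E n ≃L[ℝ] E n) : O (-1) (rL L) := by
  have := O_rpow_L L (-1)
  refine this.congr (Eventually.of_forall fun y => ?_)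
  unfold rL; rw [neg_neg, Real.rpow_one]

theorem O_rL_inv (L : E n ≃L[ℝ] E n) : O 1 (fun y => (rL L y)⁻¹) := by
  have := O_rpow_L L 1
  refine this.congr (Eventually.of_forall fun y => ?_)
  unfold rL; rw [Real.rpow_neg_one]

theorem O_pd_rL (L : E n ≃L[ℝ] E n) (i : Fin n) : O 0 (pd i (rL L)) := by
  have h1 : O 0 (fun y => ∑ k, Lc L k i * Nc k (L y)) := by
    refine O.sum fun k _ => O.const_mul _ ?_
    refine O_of_le (C := 1) (Eventually.of_forall fun y => ?_)
    unfold Nc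
    rw [abs_div, abs_norm]
    refine div_le_one_of_le₀ ?_ (norm_nonneg _)
    rw [← Real.norm_eq_abs]
    exact PiLp.norm_apply_le _ k
  refine h1.congr ?_
  filter_upwards [far_gt 0] with y hy
  exact (pd_rL L (norm_pos_iff.mp hy) i).symm

/-- the decay facts -/
structure AnB (M : Spacetime) (f : E n → ℝ) (L : E n ≃L[ℝ] E n) (D : Stmt.Exterior n) (q : ℝ)
    (U : Set (ℝ × ℝ)) : Prop where
  q0 : 0 < q
  openU : IsOpen U
  subU : U ⊆ M.Q
  mem : ∀ᶠ y in far n, pL f L y ∈ U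
  smF : ContDiffOn ℝ ∞ M.F U
  sms : ContDiffOn ℝ ∞ M.ratio U
  smf : ContDiff ℝ ∞ f
  F1 : O q (fun y : E n => M.F (pL f L y) - 1)
  FT : O (q + 1) (fun y : E n => dT M.F (pL f L y))
  FX : O (q + 1) (fun y : E n => dX M.F (pL f L y))
  s1 : O q (fun y : E n => M.ratio (pL f L y) - 1)
  sT : O (q + 1) (fun y : E n => dT M.ratio (pL f L y))
  sX : O (q + 1) (fun y : E n => dX M.ratio (pL f L y))
  suu : O (q + 1 + 1) (fun y : E n => du (du M.ratio) (pL f L y))
  suv : O (q + 1 + 1) (fun y : E n => du (dv M.ratio) (pL f L y))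
  svv : O (q + 1 + 1) (fun y : E n => dv (dv M.ratio) (pL f L y))
  det : ∀ᶠ y in far n, (Stmt.mat D.g y).det ≠ 0
  g1 : ∀ i j, O q (fun y => D.g y i j - if i = j then 1 else 0)
  dg : ∀ i j k, O (q + 1) (Stmt.pd k fun y => D.g y i j)
  K1 : ∀ i j, O (q + 1) (fun y => D.K y i j)
  met : ∀ᶠ y in far n, ∀ i j, D.g y i j = pull L (sliceG M f) y i j
  sff : ∀ᶠ y in far n, ∀ i j, D.K y i j = pull L (sliceK M f) y i j

theorem anB_of (hn : 3 ≤ n) {M : Spacetime} {c : ℝ} (hM : M.IsAFIn n c) {f : E n → ℝ}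
    {L : E n ≃L[ℝ] E n} {D : Stmt.Exterior n} (hS : IsSliceIn M f L D)
    (hf : ∃ R, ∀ x : E n, R < ‖x‖ → |f x| ≤ c * ‖x‖) (hAF : D.IsAF) :
    ∃ q : ℝ, (n : ℝ) / 2 - 1 < q ∧ AnB M f L D q (M.Q ∩ {p : ℝ × ℝ | p.1 < p.2}) := by
  obtain ⟨q1, C, R1, hq1, hb⟩ := hM
  obtain ⟨q2, hq2, hD⟩ := hAF
  have hn3 : (3 : ℝ) ≤ n := by exact_mod_cast hn
  have i0 : Fin n := ⟨0, by omega⟩
  have hDF : ∀ᶠ y in far n, 0 < D.F y := by
    obtain ⟨R, hR⟩ := D.dom.2.2.2
    exact far_of R hR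
  have hft : ∀ᶠ y in far n, |f (L y)| ≤ c * ‖L y‖ := by
    obtain ⟨R, hR⟩ := hf
    exact (far_L L).eventually (far_of R hR)
  have hfR : ∀ R : ℝ, ∀ᶠ y in far n, R < ‖L y‖ := fun R => (far_L L).eventually (far_gt R)
  have hall := fun (x : E n) (h1 : R1 < ‖x‖) (h2 : |f x| ≤ c * ‖x‖) =>
    hb (uv f x) ‖x‖ (uv_rho f x).symm h1 (by rw [uv_t]; exact h2)
  have hmem : ∀ᶠ y in far n, pL f L y ∈ M.Q ∩ {p : ℝ × ℝ | p.1 < p.2} := by
    filter_upwards [hft, hfR R1, hfR 0] with y h1 h2 h3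
    refine ⟨(hall (L y) h2 h1).1, ?_⟩
    show f (L y) - Stmt.len (L y) < f (L y) + Stmt.len (L y)
    unfold Stmt.len; linarith
  have hsF : ContDiffOn ℝ ∞ M.F (M.Q ∩ {p : ℝ × ℝ | p.1 < p.2}) :=
    M.smooth.1.mono inter_subset_left
  have hss := smooth_ratio M
  have hU := isOpen_U M
  have mk : ∀ (q : ℝ) (h : E n → ℝ),
      (∀ x : E n, R1 < ‖x‖ → |f x| ≤ c * ‖x‖ → |h x| ≤ C * ‖x‖ ^ (-q)) →
        O q (fun y => h (L y)) := by
    intro q h h1
    refine O_L (L := L) (C := C) ?_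
    filter_upwards [hft, hfR R1] with y h2 h3 using h1 (L y) h3 h2
  have sub1 : ∀ {h : E n → ℝ}, O q1 h → O (min q1 q2) h := fun h => h.mono (min_le_left _ _)
  have sub1' : ∀ {h : E n → ℝ}, O (q1 + 1) h → O (min q1 q2 + 1) h := fun h =>
    h.mono (by have := min_le_left q1 q2; linarith)
  have sub1'' : ∀ {h : E n → ℝ}, O (q1 + 1 + 1) h → O (min q1 q2 + 1 + 1) h := fun h =>
    h.mono (by have := min_le_left q1 q2; linarith)
  have sub2 : ∀ {h : E n → ℝ}, O q2 h → O (min q1 q2) h := fun h => h.mono (min_le_right _ _)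
  have sub2' : ∀ {h : E n → ℝ}, O (q2 + 1) h → O (min q1 q2 + 1) h := fun h =>
    h.mono (by have := min_le_right q1 q2; linarith)
  have hFu : O (q1 + 1) (fun y : E n => du M.F (pL f L y)) :=
    mk _ (fun x => du M.F (uv f x)) fun x h1 h2 => (hall x h1 h2).2.2.1
  have hFv : O (q1 + 1) (fun y : E n => dv M.F (pL f L y)) :=
    mk _ (fun x => dv M.F (uv f x)) fun x h1 h2 => (hall x h1 h2).2.2.2.1
  have hsu : O (q1 + 1) (fun y : E n => du M.ratio (pL f L y)) :=
    mk _ (fun x => du M.ratio (uv f x)) fun x h1 h2 => (hall x h1 h2).2.2.2.2.2.1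
  have hsv : O (q1 + 1) (fun y : E n => dv M.ratio (pL f L y)) :=
    mk _ (fun x => dv M.ratio (uv f x)) fun x h1 h2 => (hall x h1 h2).2.2.2.2.2.2.1
  refine ⟨min q1 q2, lt_min hq1 hq2,
    { q0 := lt_of_lt_of_le (by linarith) (lt_min hq1 hq2).le
      openU := hU
      subU := inter_subset_left
      mem := hmem
      smF := hsF
      sms := hss
      smf := hS.smooth
      F1 := sub1 (mk _ (fun x => M.F (uv f x) - 1) fun x h1 h2 => (hall x h1 h2).2.1)
      FT := ?_
      FX := ?_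
      s1 := sub1 (mk _ (fun x => M.ratio (uv f x) - 1) fun x h1 h2 => (hall x h1 h2).2.2.2.2.1)
      sT := ?_
      sX := ?_
      suu := sub1'' (mk _ (fun x => du (du M.ratio) (uv f x)) fun x h1 h2 =>
        (hall x h1 h2).2.2.2.2.2.2.2.1)
      suv := sub1'' (mk _ (fun x => du (dv M.ratio) (uv f x)) fun x h1 h2 =>
        (hall x h1 h2).2.2.2.2.2.2.2.2.1)
      svv := sub1'' (mk _ (fun x => dv (dv M.ratio) (uv f x)) fun x h1 h2 =>
        (hall x h1 h2).2.2.2.2.2.2.2.2.2)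
      det := hDF.mono fun x hx => (D.pos x hx.le).det_pos.ne'
      g1 := fun i j => sub2 (O_of_bigO (hD i j i0 i0).1)
      dg := fun i j k => sub2' (O_of_bigO (hD i j k i0).2.1)
      K1 := fun i j => sub2' (O_of_bigO (hD i j i0 i0).2.2.2.1)
      met := (hDF.and (far_gt 0)).mono fun x hx => hS.met x (norm_pos_iff.1 hx.2) hx.1.le
      sff := (hDF.and (far_gt 0)).mono fun x hx => hS.sff x (norm_pos_iff.1 hx.2) hx.1.le }⟩
  · refine sub1' ((hFu.add hFv).congr ?_)
    filter_upwards [hmem] with x hx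
    exact (dT_eq (diff_of hU hsF hx)).symm
  · refine sub1' ((hFv.sub hFu).congr ?_)
    filter_upwards [hmem] with x hx
    exact (dX_eq (diff_of hU hsF hx)).symm
  · refine sub1' ((hsu.add hsv).congr ?_)
    filter_upwards [hmem] with x hx
    exact (dT_eq (diff_of hU hss hx)).symm
  · refine sub1' ((hsv.sub hsu).congr ?_)
    filter_upwards [hmem] with x hx
    exact (dX_eq (diff_of hU hss hx)).symm

namespace AnB

variable {M : Spacetime} {f : E n → ℝ} {L : E n ≃L[ℝ] E n} {D : Stmt.Exterior n} {q : ℝ}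
  {U : Set (ℝ × ℝ)}

theorem fd (A : AnB M f L D q U) : Differentiable ℝ f := A.smf.differentiable (by simp)

theorem smh (A : AnB M f L D q U) : ContDiff ℝ ∞ (hL f L) := smooth_hL A.smf L

theorem Fb (A : AnB M f L D q U) : O 0 (fun y : E n => M.F (pL f L y)) := A.F1.bdd A.q0.le

theorem sb (A : AnB M f L D q U) : O 0 (fun y : E n => M.ratio (pL f L y)) := A.s1.bdd A.q0.le

theorem s2 (A : AnB M f L D q U) : O q (fun y : E n => M.ratio (pL f L y) ^ 2 - 1) := by
  have h1 : O q (fun y : E n => (M.ratio (pL f L y) - 1) * (M.ratio (pL f L y) + 1)) :=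
    A.s1.mul' (A.sb.add (O_const 1)) (by linarith)
  exact h1.congr (Eventually.of_forall fun x => by ring)

theorem Finv (A : AnB M f L D q U) : O q (fun y : E n => (M.F (pL f L y))⁻¹ - 1) :=
  A.F1.inv A.q0

theorem Finvb (A : AnB M f L D q U) : O 0 (fun y : E n => (M.F (pL f L y))⁻¹) :=
  A.Finv.bdd A.q0.le

theorem up1 (A : AnB M f L D q U) (i j : Fin n) :
    O q (fun y => Stmt.up D.g i j y - if i = j then 1 else 0) :=
  O_inv_mat A.q0 A.det A.g1 i j

theorem upb (A : AnB M f L D q U) (i j : Fin n) : O 0 (fun y => Stmt.up D.g i j y) :=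
  (A.up1 i j).bdd A.q0.le

theorem chr1 (A : AnB M f L D q U) (k i j : Fin n) : O (q + 1) (Stmt.chr D.g k i j) := by
  have h1 : O (q + 1) (fun x => (1 / 2 : ℝ) * ∑ l, Stmt.up D.g k l x *
      (Stmt.pd i (fun y => D.g y j l) x + Stmt.pd j (fun y => D.g y i l) x
        - Stmt.pd l (fun y => D.g y i j) x)) :=
    (O.sum fun l _ => (A.upb k l).mul' (((A.dg j l i).add (A.dg i l j)).sub (A.dg i j l))
      (by linarith)).const_mul _
  refine h1.congr (Eventually.of_forall fun x => ?_)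
  unfold Stmt.chr
  ring

/-- the metric formula -/
theorem gform (A : AnB M f L D q U) : ∀ᶠ y in far n, ∀ i j, D.g y i j =
    M.F (pL f L y) * (pd i (rL L) y * pd j (rL L) y) +
      M.ratio (pL f L y) ^ 2 * (G0 L i j - pd i (rL L) y * pd j (rL L) y) -
      M.F (pL f L y) * (pd i (hL f L) y * pd j (hL f L) y) := by
  filter_upwards [A.met, far_gt 0] with y hy h0 i j
  rw [hy i j, pull_sliceG M A.smf L (norm_pos_iff.mp h0)]

theorem O_sq_bdd {h : E n → ℝ} (hh : O 0 (fun x => h x * h x)) : O 0 h := by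
  have := O_sqrt_of_sq hh
  rwa [zero_div] at this

/-- the first derivatives are bounded -/
theorem dh0 (A : AnB M f L D q U) (i : Fin n) : O 0 (pd i (hL f L)) := by
  have hq := A.q0
  refine O_sq_bdd ?_
  have hr : O 0 (fun y => pd i (rL L) y * pd i (rL L) y) :=
    (O_pd_rL L i).mul' (O_pd_rL L i) (by linarith)
  have hg : O 0 (fun y => D.g y i i) := (A.g1 i i).bdd hq.le
  have hs : O 0 (fun y : E n => M.ratio (pL f L y) ^ 2) := A.s2.bdd hq.le
  have h1 : O 0 (fun y => (M.F (pL f L y))⁻¹ * (M.F (pL f L y) * (pd i (rL L) y * pd i (rL L) y) +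
      M.ratio (pL f L y) ^ 2 * (G0 L i i - pd i (rL L) y * pd i (rL L) y) - D.g y i i)) :=
    A.Finvb.mul' (((A.Fb.mul' hr (r := 0) (by linarith)).add
      (hs.mul' ((O_const _).sub hr) (by linarith))).sub hg) (by linarith)
  refine h1.congr ?_
  filter_upwards [A.gform, A.mem] with x hx hm
  have hF : M.F (pL f L x) ≠ 0 := (M.pos _ (A.subU hm)).1.ne'
  rw [hx i i]
  field_simp
  ring

theorem diffF (A : AnB M f L D q U) : ∀ᶠ y in far n,
    DifferentiableAt ℝ (fun z => M.F (pL f L z)) y := by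
  filter_upwards [A.mem, far_gt 0] with x hx h0
  exact diff_pL L (norm_pos_iff.mp h0) A.fd (diff_of A.openU A.smF hx)

/-- the derivatives along the slice -/
theorem pdG (A : AnB M f L D q U) {G : ℝ × ℝ → ℝ} (hG : ContDiffOn ℝ ∞ G U) :
    ∀ᶠ y in far n, ∀ k, pd k (fun z => G (pL f L z)) y =
    dT G (pL f L y) * pd k (hL f L) y + dX G (pL f L y) * pd k (rL L) y := by
  filter_upwards [A.mem, far_gt 0] with x hx h0 k
  exact pd_pL L (norm_pos_iff.mp h0) A.fd (diff_of A.openU hG hx) k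

theorem diffG (A : AnB M f L D q U) {G : ℝ × ℝ → ℝ} (hG : ContDiffOn ℝ ∞ G U) :
    ∀ᶠ y in far n, DifferentiableAt ℝ (fun z => G (pL f L z)) y := by
  filter_upwards [A.mem, far_gt 0] with x hx h0
  exact diff_pL L (norm_pos_iff.mp h0) A.fd (diff_of A.openU hG hx)

theorem dF1 (A : AnB M f L D q U) (k : Fin n) : O (q + 1) (pd k (fun z => M.F (pL f L z))) := by
  have h1 := (A.FT.mul' (A.dh0 k) (r := q + 1) (by linarith)).add
    (A.FX.mul' (O_pd_rL L k) (r := q + 1) (by linarith))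
  exact h1.congr ((A.pdG A.smF).mono fun x hx => (hx k).symm)

theorem Gt1 (A : AnB M f L D q U) (i j : Fin n) : O (q + 1) (GtL M f L i j) := by
  have hN : O 0 (fun y => pd i (rL L) y * pd j (rL L) y) :=
    (O_pd_rL L i).mul' (O_pd_rL L j) (by linarith)
  have hff : O 0 (fun y => pd i (hL f L) y * pd j (hL f L) y) :=
    (A.dh0 i).mul' (A.dh0 j) (by linarith)
  have h1 := (A.FT.mul' (hN.sub hff) (r := q + 1) (by linarith)).add
    (((A.sb.const_mul 2).mul' A.sT (r := q + 1) (by linarith)).mul'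
      ((O_const (G0 L i j)).sub hN) (r := q + 1) (by linarith))
  exact h1

/-- the square of the lapse -/
def lap2 (M : Spacetime) (f : E n → ℝ) (L : E n ≃L[ℝ] E n) (D : Stmt.Exterior n) (y : E n) : ℝ :=
  M.F (pL f L y) + ∑ i, ∑ j, Stmt.up D.g i j y * (M.F (pL f L y) * pd i (hL f L) y) *
    (M.F (pL f L y) * pd j (hL f L) y)

theorem matD (A : AnB M f L D q U) : ∀ᶠ y in far n,
    Stmt.mat (pull L (sliceG M f)) y = Stmt.mat D.g y := by
  filter_upwards [A.met] with y hy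
  ext i j
  exact (hy i j).symm

theorem lapse_eq (A : AnB M f L D q U) : ∀ᶠ y in far n,
    lapse M f (L y) = √(lap2 M f L D y) := by
  filter_upwards [A.matD, A.det] with y hm hd
  rw [lapse_pull M A.smf L (by rw [hm]; exact hd)]
  unfold lap2 Stmt.up
  rw [hm]

theorem lap2_b (A : AnB M f L D q U) : O 0 (lap2 M f L D) := by
  refine A.Fb.add (O.sum fun i _ => O.sum fun j _ => ?_)
  exact ((A.upb i j).mul' (A.Fb.mul' (A.dh0 i) (r := 0) (by linarith)) (r := 0)
    (by linarith)).mul' (A.Fb.mul' (A.dh0 j) (r := 0) (by linarith)) (by linarith)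

theorem lap2_pos (A : AnB M f L D q U) : ∀ᶠ y in far n, 1 / 2 ≤ lap2 M f L D y := by
  have hq := A.q0
  have h1 : O q (fun y => ∑ i, ∑ j, (Stmt.up D.g i j y - if i = j then 1 else 0) *
      (M.F (pL f L y) * pd i (hL f L) y) * (M.F (pL f L y) * pd j (hL f L) y)) := by
    refine O.sum fun i _ => O.sum fun j _ => ?_
    exact ((A.up1 i j).mul' (A.Fb.mul' (A.dh0 i) (r := 0) (by linarith)) (r := q)
      (by linarith)).mul' (A.Fb.mul' (A.dh0 j) (r := 0) (by linarith)) (by linarith)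
  filter_upwards [h1.small hq (show (0 : ℝ) < 1 / 4 by norm_num),
    A.F1.small hq (show (0 : ℝ) < 1 / 4 by norm_num)] with y k1 k2
  have e : lap2 M f L D y = M.F (pL f L y) + (∑ i, ∑ j,
      (Stmt.up D.g i j y - if i = j then 1 else 0) *
      (M.F (pL f L y) * pd i (hL f L) y) * (M.F (pL f L y) * pd j (hL f L) y)) +
      ∑ i, (M.F (pL f L y) * pd i (hL f L) y) ^ 2 := by
    unfold lap2
    have e1 : ∀ i, (M.F (pL f L y) * pd i (hL f L) y) ^ 2 = ∑ j, (if i = j then 1 else 0) *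
        (M.F (pL f L y) * pd i (hL f L) y) * (M.F (pL f L y) * pd j (hL f L) y) := by
      intro i
      simp only [ite_mul, one_mul, zero_mul, Finset.sum_ite_eq, Finset.mem_univ, if_true]
      ring
    simp only [e1, sub_mul, Finset.sum_sub_distrib]
    ring
  have h2 : 0 ≤ ∑ i, (M.F (pL f L y) * pd i (hL f L) y) ^ 2 :=
    Finset.sum_nonneg fun i _ => sq_nonneg _
  rw [e]
  have := (abs_le.mp k1).1
  have := (abs_le.mp k2).1
  linarith

theorem lapse_b (A : AnB M f L D q U) : O 0 (fun y => lapse M f (L y)) := by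
  have h1 : O 0 (fun y => √(lap2 M f L D y)) := by
    refine O_sq_bdd (A.lap2_b.congr ?_)
    filter_upwards [A.lap2_pos] with y hy
    exact (Real.mul_self_sqrt (by linarith)).symm
  exact h1.congr (A.lapse_eq.mono fun y hy => hy.symm)

theorem lapse0 (A : AnB M f L D q U) : ∀ᶠ y in far n, lapse M f (L y) ≠ 0 := by
  filter_upwards [A.lapse_eq, A.lap2_pos] with y h1 h2
  rw [h1]
  exact (Real.sqrt_pos.mpr (by linarith)).ne'

/-- the formula for the second fundamental form -/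
theorem Kform (A : AnB M f L D q U) : ∀ᶠ y in far n, ∀ i j,
    M.F (pL f L y) * pd i (pd j (hL f L)) y = lapse M f (L y) * D.K y i j -
      1 / 2 * GtL M f L i j y -
      1 / 2 * (pd i (fun z => M.F (pL f L z)) y * pd j (hL f L) y +
        pd j (fun z => M.F (pL f L z)) y * pd i (hL f L) y) +
      1 / 2 * ∑ k, (Stmt.chr D.g k i j y + Stmt.chr D.g k j i y) *
        (M.F (pL f L y) * pd k (hL f L) y) := by
  filter_upwards [A.sff, A.lapse0, far_nhds A.met, A.mem, far_gt 0, A.matD, A.det]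
    with y hK hl hc hm h0 hmat hdet i j
  have hy0 : y ≠ 0 := norm_pos_iff.mp h0
  have hG : ∀ k l, DifferentiableAt ℝ (fun x => sliceG M f x k l) (L y) := fun k l =>
    (sliceG_smoothAt A.smf (L_ne hy0) (A.subU hm) k l).differentiableAt (by simp)
  have h1 := K_pull M A.smf L hy0 (diff_of A.openU A.smF hm) (diff_of A.openU A.sms hm) hG
    (by rw [hmat]; exact hdet) hl i j
  have h2 : ∀ k i j, Stmt.chr (pull L (sliceG M f)) k i j y = Stmt.chr D.g k i j y := fun k i j =>
    chr_congr (hc.mono fun z hz i j => (hz i j).symm) k i j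
  simp only [h2] at h1
  rw [hK i j]
  linarith

/-- decay of the second derivatives -/
theorem d2h (A : AnB M f L D q U) (i j : Fin n) : O (q + 1) (pd i (pd j (hL f L))) := by
  have h1 : O (q + 1) (fun y => (M.F (pL f L y))⁻¹ *
      (lapse M f (L y) * D.K y i j - 1 / 2 * GtL M f L i j y -
      1 / 2 * (pd i (fun z => M.F (pL f L z)) y * pd j (hL f L) y +
        pd j (fun z => M.F (pL f L z)) y * pd i (hL f L) y) +
      1 / 2 * ∑ k, (Stmt.chr D.g k i j y + Stmt.chr D.g k j i y) *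
        (M.F (pL f L y) * pd k (hL f L) y))) := by
    refine A.Finvb.mul' (q := q + 1) ?_ (by linarith)
    refine (((A.lapse_b.mul' (A.K1 i j) (by linarith)).sub ((A.Gt1 i j).const_mul _)).sub
      (((A.dF1 i).mul' (A.dh0 j) (r := q + 1) (by linarith)).add
        ((A.dF1 j).mul' (A.dh0 i) (by linarith)) |>.const_mul _)).add
      ((O.sum fun k _ => ((A.chr1 k i j).add (A.chr1 k j i)).mul'
        (A.Fb.mul' (A.dh0 k) (r := 0) (by linarith)) (by linarith)).const_mul _)
  refine h1.congr ?_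
  filter_upwards [A.Kform, A.mem] with x hx hm
  have hF : M.F (pL f L x) ≠ 0 := (M.pos _ (A.subU hm)).1.ne'
  rw [← hx i j, ← mul_assoc, inv_mul_cancel₀ hF, one_mul]

/-- the limit of the gradient -/
theorem exists_w (hn : 3 ≤ n) (A : AnB M f L D q U) : ∃ w : Fin n → ℝ,
    (∀ i, O q (fun y => pd i (hL f L) y - w i)) ∧
    ∀ i j, G0 L i j = (if i = j then 1 else 0) + w i * w j := by
  obtain ⟨w, hw⟩ := grad_lim (by omega) A.smh A.q0 A.d2h
  refine ⟨w, hw, fun i j => ?_⟩
  have hq := A.q0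
  have hr : O 0 (fun y => pd i (rL L) y * pd j (rL L) y) :=
    (O_pd_rL L i).mul' (O_pd_rL L j) (by linarith)
  have hhh : O q (fun y => pd i (hL f L) y * pd j (hL f L) y - w i * w j) := by
    have h1 : O q (fun y => (pd i (hL f L) y - w i) * pd j (hL f L) y +
        w i * (pd j (hL f L) y - w j)) :=
      ((hw i).mul' (A.dh0 j) (by linarith)).add ((hw j).const_mul _)
    exact h1.congr (Eventually.of_forall fun y => by ring)
  have hhb : O 0 (fun y => pd i (hL f L) y * pd j (hL f L) y) :=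
    (A.dh0 i).mul' (A.dh0 j) (by linarith)
  -- the metric minus its limit
  have h2 : O q (fun y => (M.F (pL f L y) - 1) * (pd i (rL L) y * pd j (rL L) y) +
      (M.ratio (pL f L y) ^ 2 - 1) * (G0 L i j - pd i (rL L) y * pd j (rL L) y) -
      (M.F (pL f L y) - 1) * (pd i (hL f L) y * pd j (hL f L) y) -
      (pd i (hL f L) y * pd j (hL f L) y - w i * w j) -
      (D.g y i j - if i = j then 1 else 0)) :=
    ((((A.F1.mul' hr (by linarith)).add (A.s2.mul' ((O_const _).sub hr) (by linarith))).sub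
      (A.F1.mul' hhb (by linarith))).sub hhh).sub (A.g1 i j)
  have h3 : O q (fun _ : E n => -(G0 L i j - ((if i = j then 1 else 0) + w i * w j))) := by
    refine h2.congr ?_
    filter_upwards [A.gform] with y hy
    rw [hy i j]; ring
  haveI : Nonempty (Fin n) := ⟨⟨0, by omega⟩⟩
  haveI : Nontrivial (E n) := inferInstance
  haveI : (far n).NeBot := by
    unfold far
    refine comap_neBot fun t ht => ?_
    obtain ⟨R, hR⟩ := mem_atTop_sets.mp ht
    obtain ⟨x, hx⟩ := exists_norm_eq (E n) (le_max_right R 0)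
    exact ⟨x, by rw [hx]; exact hR _ (le_max_left _ _)⟩
  have h4 := tendsto_nhds_unique (tendsto_const_nhds (f := far n)) (h3.tendsto hq)
  linarith

end AnB

end Vale.Agent.P366.T1.Boost
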