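import Vale.Agent.P366.T1.A919g
import Vale.Agent.P366.T1.Null

/-!
# The energy condition bounds the second derivatives of the metric by the mass

With `r = ρ s` the three null components of the Einstein tensor are, up to quadratic errors, the
expressions in `dec_bound`.
-/

open MeasureTheory Metric Filter Topology Set
open scoped ContDiff ENNReal

noncomputable section
namespace Vale.Agent.P366.T1.Boost

open Vale.Agent.P366.T1.A919 (dT dX rho dT_eq dX_eq dT_congr dX_congr dT_add dT_sub du_congr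
  dv_congr diff_of diff_rho smooth_rho hasFDerivAt_rho)

variable {n : ℕ}

/-- the linearised mass -/
def muL (M : Spacetime) (p : ℝ × ℝ) : ℝ :=
  ((M.F p - 1) - 2 * (M.ratio p - 1) - 2 * (rho p * dX M.ratio p)) / 2

section calc1

lemma du_mul {G H : ℝ × ℝ → ℝ} {p : ℝ × ℝ} (hG : DifferentiableAt ℝ G p)
    (hH : DifferentiableAt ℝ H p) :
    du (fun q => G q * H q) p = du G p * H p + G p * du H p := by
  rw [A919.du_eq (hG.fun_mul hH), A919.du_eq hG, A919.du_eq hH, fderiv_fun_mul hG hH]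
  simp only [add_apply, smul_apply, smul_eq_mul]
  ring

lemma dv_mul {G H : ℝ × ℝ → ℝ} {p : ℝ × ℝ} (hG : DifferentiableAt ℝ G p)
    (hH : DifferentiableAt ℝ H p) :
    dv (fun q => G q * H q) p = dv G p * H p + G p * dv H p := by
  rw [A919.dv_eq (hG.fun_mul hH), A919.dv_eq hG, A919.dv_eq hH, fderiv_fun_mul hG hH]
  simp only [add_apply, smul_apply, smul_eq_mul]
  ring

lemma du_add {G H : ℝ × ℝ → ℝ} {p : ℝ × ℝ} (hG : DifferentiableAt ℝ G p)
    (hH : DifferentiableAt ℝ H p) : du (fun q => G q + H q) p = du G p + du H p := by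
  rw [A919.du_eq (hG.fun_add hH), A919.du_eq hG, A919.du_eq hH, fderiv_fun_add hG hH]
  rfl

lemma dv_add {G H : ℝ × ℝ → ℝ} {p : ℝ × ℝ} (hG : DifferentiableAt ℝ G p)
    (hH : DifferentiableAt ℝ H p) : dv (fun q => G q + H q) p = dv G p + dv H p := by
  rw [A919.dv_eq (hG.fun_add hH), A919.dv_eq hG, A919.dv_eq hH, fderiv_fun_add hG hH]
  rfl

lemma du_rho (p : ℝ × ℝ) : du rho p = -1 / 2 := by
  rw [A919.du_eq (diff_rho p), (hasFDerivAt_rho p).fderiv]; simp; norm_num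

lemma dv_rho (p : ℝ × ℝ) : dv rho p = 1 / 2 := by
  rw [A919.dv_eq (diff_rho p), (hasFDerivAt_rho p).fderiv]; simp

lemma du_const_mul (c : ℝ) {G : ℝ × ℝ → ℝ} {p : ℝ × ℝ} (hG : DifferentiableAt ℝ G p) :
    du (fun q => c * G q) p = c * du G p := by
  rw [A919.du_eq (hG.const_mul c), A919.du_eq hG, fderiv_const_mul hG]; rfl

lemma dv_const_mul (c : ℝ) {G : ℝ × ℝ → ℝ} {p : ℝ × ℝ} (hG : DifferentiableAt ℝ G p) :
    dv (fun q => c * G q) p = c * dv G p := by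
  rw [A919.dv_eq (hG.const_mul c), A919.dv_eq hG, fderiv_const_mul hG]; rfl

end calc1

section geom

variable {M : Spacetime} {p : ℝ × ℝ}

/-- the region where `ρ > 0` -/
def Qp (M : Spacetime) : Set (ℝ × ℝ) := M.Q ∩ {p | 0 < rho p}

lemma isOpen_Qp : IsOpen (Qp M) :=
  M.isOpen.inter (isOpen_lt continuous_const smooth_rho.continuous)

lemma ratio_smooth : ContDiffOn ℝ ∞ M.ratio (Qp M) := by
  have h : ContDiffOn ℝ ∞ (fun p => M.r p / rho p) (Qp M) :=
    (M.smooth.2.mono inter_subset_left).div smooth_rho.contDiffOn fun p hp =>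
      (show 0 < rho p from hp.2).ne'
  exact h

lemma r_eq (hp : p ∈ Qp M) : M.r p = rho p * M.ratio p := by
  have h : rho p ≠ 0 := (show 0 < rho p from hp.2).ne'
  have e : M.ratio p = M.r p / rho p := rfl
  rw [e]; field_simp

lemma r_near (hp : p ∈ Qp M) : M.r =ᶠ[𝓝 p] fun q => rho q * M.ratio q := by
  filter_upwards [isOpen_Qp.mem_nhds hp] with q hq
  exact r_eq hq

lemma du_r (hp : p ∈ Qp M) : du M.r p = rho p * du M.ratio p + (-1 / 2) * M.ratio p := by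
  rw [du_congr (r_near hp), du_mul (diff_rho p) (diff_of isOpen_Qp ratio_smooth hp), du_rho]
  ring

lemma dv_r (hp : p ∈ Qp M) : dv M.r p = rho p * dv M.ratio p + (1 / 2) * M.ratio p := by
  rw [dv_congr (r_near hp), dv_mul (diff_rho p) (diff_of isOpen_Qp ratio_smooth hp), dv_rho]
  ring

lemma du_du_r (hp : p ∈ Qp M) : du (du M.r) p = rho p * du (du M.ratio) p - du M.ratio p := by
  have hs := ratio_smooth (M := M)
  have hu := contDiffOn_du isOpen_Qp hs
  have h1 : du M.r =ᶠ[𝓝 p] fun q => rho q * du M.ratio q + (-1 / 2) * M.ratio q := by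
    filter_upwards [isOpen_Qp.mem_nhds hp] with q hq using du_r hq
  rw [du_congr h1, du_add ((diff_rho p).fun_mul (diff_of isOpen_Qp hu hp))
    ((diff_of isOpen_Qp hs hp).const_mul _), du_mul (diff_rho p) (diff_of isOpen_Qp hu hp),
    du_const_mul _ (diff_of isOpen_Qp hs hp), du_rho]
  ring

lemma dv_dv_r (hp : p ∈ Qp M) : dv (dv M.r) p = rho p * dv (dv M.ratio) p + dv M.ratio p := by
  have hs := ratio_smooth (M := M)
  have hv := contDiffOn_dv isOpen_Qp hs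
  have h1 : dv M.r =ᶠ[𝓝 p] fun q => rho q * dv M.ratio q + (1 / 2) * M.ratio q := by
    filter_upwards [isOpen_Qp.mem_nhds hp] with q hq using dv_r hq
  rw [dv_congr h1, dv_add ((diff_rho p).fun_mul (diff_of isOpen_Qp hv hp))
    ((diff_of isOpen_Qp hs hp).const_mul _), dv_mul (diff_rho p) (diff_of isOpen_Qp hv hp),
    dv_const_mul _ (diff_of isOpen_Qp hs hp), dv_rho]
  ring

lemma du_dv_r (hp : p ∈ Qp M) : du (dv M.r) p =
    rho p * du (dv M.ratio) p + (1 / 2) * (du M.ratio p - dv M.ratio p) := by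
  have hs := ratio_smooth (M := M)
  have hv := contDiffOn_dv isOpen_Qp hs
  have h1 : dv M.r =ᶠ[𝓝 p] fun q => rho q * dv M.ratio q + (1 / 2) * M.ratio q := by
    filter_upwards [isOpen_Qp.mem_nhds hp] with q hq using dv_r hq
  rw [du_congr h1, du_add ((diff_rho p).fun_mul (diff_of isOpen_Qp hv hp))
    ((diff_of isOpen_Qp hs hp).const_mul _), du_mul (diff_rho p) (diff_of isOpen_Qp hv hp),
    du_const_mul _ (diff_of isOpen_Qp hs hp), du_rho]
  ring

lemma dTT (hp : p ∈ Qp M) : dT (dT M.ratio) p =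
    du (du M.ratio) p + 2 * du (dv M.ratio) p + dv (dv M.ratio) p := by
  have hs := ratio_smooth (M := M)
  have hu := contDiffOn_du isOpen_Qp hs
  have hv := contDiffOn_dv isOpen_Qp hs
  have h2 : dT M.ratio =ᶠ[𝓝 p] fun p => du M.ratio p + dv M.ratio p := by
    filter_upwards [isOpen_Qp.mem_nhds hp] with y hy using dT_eq (diff_of isOpen_Qp hs hy)
  rw [dT_congr h2, dT_add (diff_of isOpen_Qp hu hp) (diff_of isOpen_Qp hv hp),
    dT_eq (diff_of isOpen_Qp hu hp), dT_eq (diff_of isOpen_Qp hv hp),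
    du_dv_comm isOpen_Qp hs hp]
  ring

lemma dTX (hp : p ∈ Qp M) : dT (dX M.ratio) p =
    dv (dv M.ratio) p - du (du M.ratio) p := by
  have hs := ratio_smooth (M := M)
  have hu := contDiffOn_du isOpen_Qp hs
  have hv := contDiffOn_dv isOpen_Qp hs
  have h2 : dX M.ratio =ᶠ[𝓝 p] fun p => dv M.ratio p - du M.ratio p := by
    filter_upwards [isOpen_Qp.mem_nhds hp] with y hy using dX_eq (diff_of isOpen_Qp hs hy)
  rw [dT_congr h2, dT_sub (diff_of isOpen_Qp hv hp) (diff_of isOpen_Qp hu hp),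
    dT_eq (diff_of isOpen_Qp hu hp), dT_eq (diff_of isOpen_Qp hv hp),
    du_dv_comm isOpen_Qp hs hp]
  ring

lemma dv_qv (hp : p ∈ M.Q) : dv (fun s => dv M.r s / M.F s) p =
    (dv (dv M.r) p * M.F p - dv M.r p * dv M.F p) / M.F p ^ 2 := by
  obtain ⟨u, v⟩ := p
  have h1 := hasDerivAt_v M.isOpen M.smooth_qv hp
  have h2 := hasDerivAt_v M.isOpen M.smooth_dvr hp
  have h3 := hasDerivAt_v M.isOpen M.smooth.1 hp
  exact h1.unique (h2.fun_div h3 (M.pos _ hp).1.ne')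

lemma du_qu (hp : p ∈ M.Q) : du (fun s => du M.r s / M.F s) p =
    (du (du M.r) p * M.F p - du M.r p * du M.F p) / M.F p ^ 2 := by
  obtain ⟨u, v⟩ := p
  have h1 := hasDerivAt_u M.isOpen M.smooth_qu hp
  have h2 := hasDerivAt_u M.isOpen M.smooth_dur hp
  have h3 := hasDerivAt_u M.isOpen M.smooth.1 hp
  exact h1.unique (h2.fun_div h3 (M.pos _ hp).1.ne')

lemma dv_mass_eq (hn : 3 ≤ n) (hp : p ∈ M.Q) : dv (M.mass n) p =
    2 * M.r p ^ (n - 3) * (dv M.r p / M.F p) *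
      (M.r p * du (dv M.r) p + ((n : ℝ) - 2) * (M.F p / 4 + du M.r p * dv M.r p)) +
    2 * M.r p ^ (n - 2) * (du M.r p * dv (fun s => dv M.r s / M.F s) p) := by
  obtain ⟨u, v⟩ := p
  have hF := (M.pos _ hp).1
  have hr := (M.pos _ hp).2
  have d1 := hasDerivAt_v M.isOpen M.smooth.2 hp
  have d2 := hasDerivAt_v M.isOpen M.smooth_dur hp
  have d3 := hasDerivAt_v M.isOpen M.smooth_qv hp
  have d4 := hasDerivAt_v M.isOpen (Spacetime.smooth_mass (M := M) (n := n)) hp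
  have d5 := ((d1.fun_pow (n - 2)).fun_mul ((d2.const_mul 4).fun_mul d3 |>.const_add 1)).div_const 2
  have heq : (fun w => M.mass n (u, w)) = fun w => M.r (u, w) ^ (n - 2) *
      (1 + (4 * du M.r (u, w)) * (dv M.r (u, w) / M.F (u, w))) / 2 := by
    funext w; simp only [Spacetime.mass]; ring
  rw [heq] at d4
  rw [d4.unique d5]
  have hcomm := du_dv_comm M.isOpen M.smooth.2 hp
  rw [hcomm]
  obtain ⟨k, rfl⟩ : ∃ k, n = k + 3 := ⟨n - 3, by omega⟩
  have hk : k + 3 - 2 = k + 1 := by omega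
  have hk' : k + 3 - 3 = k := by omega
  rw [hk, hk']
  simp only [Nat.add_sub_cancel]
  push_cast
  field_simp
  ring

lemma du_mass_eq (hn : 3 ≤ n) (hp : p ∈ M.Q) : du (M.mass n) p =
    2 * M.r p ^ (n - 3) * (du M.r p / M.F p) *
      (M.r p * du (dv M.r) p + ((n : ℝ) - 2) * (M.F p / 4 + du M.r p * dv M.r p)) +
    2 * M.r p ^ (n - 2) * (dv M.r p * du (fun s => du M.r s / M.F s) p) := by
  obtain ⟨u, v⟩ := p
  have hF := (M.pos _ hp).1
  have hr := (M.pos _ hp).2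
  have d1 := hasDerivAt_u M.isOpen M.smooth.2 hp
  have d2 := hasDerivAt_u M.isOpen M.smooth_dvr hp
  have d3 := hasDerivAt_u M.isOpen M.smooth_qu hp
  have d4 := hasDerivAt_u M.isOpen (Spacetime.smooth_mass (M := M) (n := n)) hp
  have d5 := ((d1.fun_pow (n - 2)).fun_mul ((d2.const_mul 4).fun_mul d3 |>.const_add 1)).div_const 2
  have heq : (fun w => M.mass n (w, v)) = fun w => M.r (w, v) ^ (n - 2) *
      (1 + (4 * dv M.r (w, v)) * (du M.r (w, v) / M.F (w, v))) / 2 := by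
    funext w; simp only [Spacetime.mass]; ring
  rw [heq] at d4
  rw [d4.unique d5]
  obtain ⟨k, rfl⟩ : ∃ k, n = k + 3 := ⟨n - 3, by omega⟩
  have hk : k + 3 - 2 = k + 1 := by omega
  have hk' : k + 3 - 3 = k := by omega
  rw [hk, hk']
  simp only [Nat.add_sub_cancel]
  push_cast
  field_simp
  ring

end geom

section real

lemma abs_mul_le' {x y a b : ℝ} (hx : |x| ≤ a) (hy : |y| ≤ b) : |x * y| ≤ a * b := by
  rw [abs_mul]
  exact mul_le_mul hx hy (abs_nonneg _) ((abs_nonneg _).trans hx)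

lemma abs_div_le' {x F a : ℝ} (hx : |x| ≤ a) (hF : 15 / 16 ≤ F) : |x / F| ≤ 16 / 15 * a := by
  have hF0 : 0 < F := by linarith
  rw [abs_div, abs_of_pos hF0, div_le_iff₀ hF0]
  have ha : 0 ≤ a := (abs_nonneg _).trans hx
  nlinarith

lemma sF_bound {s F δ : ℝ} (hδ : δ ≤ 1 / 16) (hF : |F - 1| ≤ δ) (hs : |s - 1| ≤ δ) :
    |s / F - 1| ≤ 16 / 15 * (2 * δ) := by
  have hF1 : 15 / 16 ≤ F := by have := abs_le.1 hF; linarith [this.1]
  have hF0 : F ≠ 0 := by intro h; rw [h] at hF1; linarith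
  have : s / F - 1 = (s - F) / F := by field_simp
  rw [this]
  refine abs_div_le' ?_ hF1
  have h1 : s - F = (s - 1) - (F - 1) := by ring
  rw [h1]
  exact (abs_sub _ _).trans (by linarith)

lemma E1_bound {δ s F A B a b : ℝ} (hδ : δ ≤ 1 / 16) (hF : |F - 1| ≤ δ) (hs : |s - 1| ≤ δ)
    (a1 : |a| ≤ δ) (a2 : |b| ≤ δ) (a3 : |A| ≤ δ) (a4 : |B| ≤ δ) :
    |(s / F - 1) * ((a + b) / 2) + (B * b - A * a) / F| ≤ 5 * δ ^ 2 := by
  have hF1 : 15 / 16 ≤ F := by have := abs_le.1 hF; linarith [this.1]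
  have hsF := sF_bound hδ hF hs
  have h1 : |(a + b) / 2| ≤ δ := by
    rw [abs_div, abs_two, div_le_iff₀ two_pos]
    exact (abs_add_le _ _).trans (by linarith)
  have h2 := abs_mul_le' hsF h1
  have h3 : |B * b - A * a| ≤ δ * δ + δ * δ :=
    (abs_sub _ _).trans (add_le_add (abs_mul_le' a4 a2) (abs_mul_le' a3 a1))
  have h4 := abs_div_le' h3 hF1
  refine (abs_add_le _ _).trans ((add_le_add h2 h4).trans ?_)
  have e : 16 / 15 * (2 * δ) * δ + 16 / 15 * (δ * δ + δ * δ) = 64 / 15 * δ ^ 2 := by ring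
  rw [e]
  have := sq_nonneg δ
  linarith

lemma E2_bound {N δ s F A B a b : ℝ} (hN : 0 ≤ N) (hδ : δ ≤ 1 / 16) (hF : |F - 1| ≤ δ)
    (hs : |s - 1| ≤ δ) (a1 : |a| ≤ δ) (a2 : |b| ≤ δ) (a3 : |A| ≤ δ) (a4 : |B| ≤ δ) :
    |(s / F - 1) * ((b - a) / 2) + (B * b + A * a) / F -
      2 * N * (((1 - s) * (F - s) / 4 + A * B) / s)| ≤ (5 + 4 * N) * δ ^ 2 := by
  have hF1 : 15 / 16 ≤ F := by have := abs_le.1 hF; linarith [this.1]
  have hs1 : 15 / 16 ≤ s := by have := abs_le.1 hs; linarith [this.1]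
  have hsF := sF_bound hδ hF hs
  have h1 : |(b - a) / 2| ≤ δ := by
    rw [abs_div, abs_two, div_le_iff₀ two_pos]
    exact (abs_sub _ _).trans (by linarith)
  have h2 := abs_mul_le' hsF h1
  have h3 : |B * b + A * a| ≤ δ * δ + δ * δ :=
    (abs_add_le _ _).trans (add_le_add (abs_mul_le' a4 a2) (abs_mul_le' a3 a1))
  have h4 := abs_div_le' h3 hF1
  have h5 : |(1 - s) * (F - s) / 4 + A * B| ≤ 3 / 2 * δ ^ 2 := by
    have h6 : |1 - s| ≤ δ := by rw [abs_sub_comm]; exact hs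
    have h7 : |F - s| ≤ 2 * δ := by
      have h1 : F - s = (F - 1) - (s - 1) := by ring
      rw [h1]
      exact (abs_sub _ _).trans (by linarith)
    have h8 := abs_mul_le' h6 h7
    have h9 : |(1 - s) * (F - s) / 4| ≤ δ * (2 * δ) / 4 := by
      rw [abs_div, abs_of_pos (by norm_num : (0 : ℝ) < 4)]
      exact div_le_div_of_nonneg_right h8 (by norm_num)
    refine (abs_add_le _ _).trans ((add_le_add h9 (abs_mul_le' a3 a4)).trans ?_)
    have e : δ * (2 * δ) / 4 + δ * δ = 3 / 2 * δ ^ 2 := by ring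
    rw [e]
  have h6 := abs_div_le' h5 hs1
  have h7 : |2 * N * (((1 - s) * (F - s) / 4 + A * B) / s)| ≤
      2 * N * (16 / 15 * (3 / 2 * δ ^ 2)) := by
    rw [abs_mul, abs_of_nonneg (by linarith : 0 ≤ 2 * N)]
    exact mul_le_mul_of_nonneg_left h6 (by linarith)
  refine (abs_sub _ _).trans ((add_le_add ((abs_add_le _ _).trans (add_le_add h2 h4)) h7).trans ?_)
  have e : 16 / 15 * (2 * δ) * δ + 16 / 15 * (δ * δ + δ * δ) +
      2 * N * (16 / 15 * (3 / 2 * δ ^ 2)) = 64 / 15 * δ ^ 2 + 48 / 15 * (N * δ ^ 2) := by ring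
  rw [e]
  have h8 := sq_nonneg δ
  have h9 := mul_nonneg hN h8
  have e2 : (5 + 4 * N) * δ ^ 2 = 5 * δ ^ 2 + 4 * (N * δ ^ 2) := by ring
  rw [e2]
  linarith

lemma bound1 {ρ δ s F su sv Fu Fv suu svv gvv guu : ℝ} (hρ : 0 < ρ)
    (hδ : δ ≤ 1 / 16) (hF : |F - 1| ≤ δ) (hFu : |ρ * Fu| ≤ δ) (hFv : |ρ * Fv| ≤ δ)
    (hs : |s - 1| ≤ δ) (hsu : |ρ * su| ≤ δ) (hsv : |ρ * sv| ≤ δ)
    (evv : gvv = -(ρ * svv + sv) + (ρ * sv + (1 / 2) * s) * Fv / F)
    (euu : guu = -(ρ * suu - su) + (ρ * su + (-1 / 2) * s) * Fu / F)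
    (hvv : 0 ≤ gvv) (huu : 0 ≤ guu) :
    ρ * |((Fu + Fv) - 2 * (su + sv) - 2 * (ρ * (svv - suu))) / 2| ≤
      ρ * (gvv + guu) + 5 * δ ^ 2 := by
  have hF1 : 15 / 16 ≤ F := by have := abs_le.1 hF; linarith [this.1]
  have hF0 : F ≠ 0 := by intro h; rw [h] at hF1; linarith
  have e1 : ρ * (((Fu + Fv) - 2 * (su + sv) - 2 * (ρ * (svv - suu))) / 2) =
      ρ * (gvv - guu) - ((s / F - 1) * ((ρ * Fu + ρ * Fv) / 2) +
    ((ρ * sv) * (ρ * Fv) - (ρ * su) * (ρ * Fu)) / F) := by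
    rw [evv, euu]
    field_simp
    ring
  have e2 : ρ * |((Fu + Fv) - 2 * (su + sv) - 2 * (ρ * (svv - suu))) / 2| =
      |ρ * (((Fu + Fv) - 2 * (su + sv) - 2 * (ρ * (svv - suu))) / 2)| := by
    rw [abs_mul, abs_of_pos hρ]
  rw [e2, e1]
  refine (abs_sub _ _).trans (add_le_add ?_ (E1_bound hδ hF hs hFu hFv hsu hsv))
  rw [abs_mul, abs_of_pos hρ]
  refine mul_le_mul_of_nonneg_left ?_ hρ.le
  rw [abs_le]; constructor <;> linarith

lemma bound2 {N ρ δ s F su sv Fu Fv suu suv svv gvv guu guv : ℝ} (hN : 0 ≤ N) (hρ : 0 < ρ)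
    (hδ : δ ≤ 1 / 16) (hF : |F - 1| ≤ δ) (hFu : |ρ * Fu| ≤ δ) (hFv : |ρ * Fv| ≤ δ)
    (hs : |s - 1| ≤ δ) (hsu : |ρ * su| ≤ δ) (hsv : |ρ * sv| ≤ δ)
    (evv : gvv = -(ρ * svv + sv) + (ρ * sv + (1 / 2) * s) * Fv / F)
    (euu : guu = -(ρ * suu - su) + (ρ * su + (-1 / 2) * s) * Fu / F)
    (euv : guv = (ρ * suv + (1 / 2) * (su - sv)) +
      N * (F / 4 + (ρ * su + (-1 / 2) * s) * (ρ * sv + (1 / 2) * s)) / (ρ * s))
    (hvv : 0 ≤ gvv) (huu : 0 ≤ guu) (huv : 0 ≤ guv) :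
    ρ * |(Fv - Fu) / 2 - ρ * (suu + 2 * suv + svv) -
        N * (((F - 1) - 2 * (s - 1) - 2 * (ρ * (sv - su))) / 2) / ρ| ≤
      ρ * (gvv + guu + 2 * guv) + (5 + 4 * N) * δ ^ 2 := by
  have hF1 : 15 / 16 ≤ F := by have := abs_le.1 hF; linarith [this.1]
  have hs1 : 15 / 16 ≤ s := by have := abs_le.1 hs; linarith [this.1]
  have hF0 : F ≠ 0 := by intro h; rw [h] at hF1; linarith
  have hs0 : s ≠ 0 := by intro h; rw [h] at hs1; linarith
  have e1 : ρ * ((Fv - Fu) / 2 - ρ * (suu + 2 * suv + svv) -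
      N * (((F - 1) - 2 * (s - 1) - 2 * (ρ * (sv - su))) / 2) / ρ) =
      ρ * (gvv + guu - 2 * guv) - ((s / F - 1) * ((ρ * Fv - ρ * Fu) / 2) +
    ((ρ * sv) * (ρ * Fv) + (ρ * su) * (ρ * Fu)) / F -
    2 * N * (((1 - s) * (F - s) / 4 + (ρ * su) * (ρ * sv)) / s)) := by
    rw [evv, euu, euv]
    field_simp
    ring
  have e2 : ρ * |(Fv - Fu) / 2 - ρ * (suu + 2 * suv + svv) -
      N * (((F - 1) - 2 * (s - 1) - 2 * (ρ * (sv - su))) / 2) / ρ| =
      |ρ * ((Fv - Fu) / 2 - ρ * (suu + 2 * suv + svv) -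
      N * (((F - 1) - 2 * (s - 1) - 2 * (ρ * (sv - su))) / 2) / ρ)| := by
    rw [abs_mul, abs_of_pos hρ]
  rw [e2, e1]
  refine (abs_sub _ _).trans (add_le_add ?_ (E2_bound hN hδ hF hs hFu hFv hsu hsv))
  rw [abs_mul, abs_of_pos hρ]
  refine mul_le_mul_of_nonneg_left ?_ hρ.le
  rw [abs_le]; constructor <;> linarith

lemma G_bound {F R a b gvv guu guv mv mu : ℝ} {k : ℕ} (hF : 0 < F) (hR : 0 < R)
    (ha : a ≤ -(1 / 4)) (hb : 1 / 4 ≤ b) (hvv : 0 ≤ gvv) (huu : 0 ≤ guu) (huv : 0 ≤ guv)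
    (hmv : mv = 2 * R ^ k * (b / F) * (R * guv) + 2 * R ^ (k + 1) * (a * (-gvv / F)))
    (hmu : mu = 2 * R ^ k * (a / F) * (R * guv) + 2 * R ^ (k + 1) * (b * (-guu / F))) :
    gvv + guu + 2 * guv ≤ 2 * F * (mv - mu) / R ^ (k + 1) := by
  have e : 2 * F * (mv - mu) / R ^ (k + 1) = 4 * ((b - a) * guv + (-a) * gvv + b * guu) := by
    rw [hmv, hmu]
    field_simp
    ring
  rw [e]
  have h1 : 1 / 2 * guv ≤ (b - a) * guv := mul_le_mul_of_nonneg_right (by linarith) huv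
  have h2 : 1 / 4 * gvv ≤ (-a) * gvv := mul_le_mul_of_nonneg_right (by linarith) hvv
  have h3 : 1 / 4 * guu ≤ b * guu := mul_le_mul_of_nonneg_right (by linarith) huu
  linarith

end real

/-- **Block [V]**: with the energy condition the linearised Einstein tensor is bounded by the
derivative of the mass, up to quadratic terms. -/
theorem dec_bound (hn : 3 ≤ n) : ∃ C : ℝ, 0 ≤ C ∧ ∀ {M : Spacetime}, M.DEC n → ∀ {p : ℝ × ℝ}
    {δ : ℝ}, p ∈ M.Q → 0 < rho p → δ ≤ 1 / 16 → |M.F p - 1| ≤ δ →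
    rho p * |du M.F p| ≤ δ → rho p * |dv M.F p| ≤ δ → |M.ratio p - 1| ≤ δ →
    rho p * |du M.ratio p| ≤ δ → rho p * |dv M.ratio p| ≤ δ →
    rho p * |(dT M.F p - 2 * dT M.ratio p - 2 * (rho p * dT (dX M.ratio) p)) / 2| +
      rho p * |dX M.F p / 2 - rho p * dT (dT M.ratio) p - ((n : ℝ) - 2) * muL M p / rho p| ≤
      C * (rho p * dX (M.mass n) p / rho p ^ (n - 2) + δ ^ 2) ∧
    |dT (M.mass n) p| ≤ dX (M.mass n) p := by
  obtain ⟨k, rfl⟩ : ∃ k, n = k + 3 := ⟨n - 3, by omega⟩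
  set N : ℝ := ((k + 3 : ℕ) : ℝ) - 2 with hN
  have hN0 : 0 ≤ N := by rw [hN]; push_cast; linarith [Nat.cast_nonneg (α := ℝ) k]
  refine ⟨17 / 4 * (16 / 15) ^ (k + 1) + (10 + 4 * N), by positivity, ?_⟩
  intro M hE p δ hp hρ hδ hF hFu hFv hs hsu hsv
  have hQ : p ∈ Qp M := ⟨hp, hρ⟩
  have hFpos := (M.pos _ hp).1
  have hrpos := (M.pos _ hp).2
  have hab : ∀ {x : ℝ}, rho p * |x| ≤ δ → |rho p * x| ≤ δ := by
    intro x hx; rw [abs_mul, abs_of_pos hρ]; exact hx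
  have hs1 : 15 / 16 ≤ M.ratio p := by have := abs_le.1 hs; linarith [this.1]
  have ha : du M.r p ≤ -(1 / 4) := by
    rw [du_r hQ]
    have := (abs_le.1 (hab hsu)).2
    linarith
  have hb : 1 / 4 ≤ dv M.r p := by
    rw [dv_r hQ]
    have := (abs_le.1 (hab hsv)).1
    linarith
  obtain ⟨E1, E2, E3⟩ := hE p hp
  -- the components of the Einstein tensor
  set gvv : ℝ := -(M.F p * dv (fun s => dv M.r s / M.F s) p) with hgvv
  set guu : ℝ := -(M.F p * du (fun s => du M.r s / M.F s) p) with hguu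
  set guv : ℝ := du (dv M.r) p + N * (M.F p / 4 + du M.r p * dv M.r p) / M.r p with hguv
  have hvv : 0 ≤ gvv := by
    rw [hgvv]; have := mul_nonpos_of_nonneg_of_nonpos hFpos.le E1; linarith
  have huu : 0 ≤ guu := by
    rw [hguu]; have := mul_nonpos_of_nonneg_of_nonpos hFpos.le E2; linarith
  have hrg : M.r p * guv = M.r p * du (dv M.r) p +
      N * (M.F p / 4 + du M.r p * dv M.r p) := by
    rw [hguv]; field_simp
  have huv : 0 ≤ guv := by
    refine nonneg_of_mul_nonneg_right (a := M.r p) ?_ hrpos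
    rw [hrg]; exact E3
  have evv : gvv = -(rho p * dv (dv M.ratio) p + dv M.ratio p) +
      (rho p * dv M.ratio p + (1 / 2) * M.ratio p) * dv M.F p / M.F p := by
    rw [hgvv, dv_qv hp, dv_dv_r hQ, dv_r hQ]
    field_simp
    ring
  have euu : guu = -(rho p * du (du M.ratio) p - du M.ratio p) +
      (rho p * du M.ratio p + (-1 / 2) * M.ratio p) * du M.F p / M.F p := by
    rw [hguu, du_qu hp, du_du_r hQ, du_r hQ]
    field_simp
    ring
  have euv : guv = (rho p * du (dv M.ratio) p + (1 / 2) * (du M.ratio p - dv M.ratio p)) +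
      N * (M.F p / 4 + (rho p * du M.ratio p + (-1 / 2) * M.ratio p) *
        (rho p * dv M.ratio p + (1 / 2) * M.ratio p)) / (rho p * M.ratio p) := by
    rw [hguv, du_dv_r hQ, du_r hQ, dv_r hQ, r_eq hQ]
  have hmv : dv (M.mass (k + 3)) p = 2 * M.r p ^ k * (dv M.r p / M.F p) * (M.r p * guv) +
      2 * M.r p ^ (k + 1) * (du M.r p * (-gvv / M.F p)) := by
    rw [dv_mass_eq hn hp, hrg, hgvv, ← hN]
    have hk : k + 3 - 2 = k + 1 := by omega
    have hk' : k + 3 - 3 = k := by omega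
    rw [hk, hk']
    field_simp
  have hmu : du (M.mass (k + 3)) p = 2 * M.r p ^ k * (du M.r p / M.F p) * (M.r p * guv) +
      2 * M.r p ^ (k + 1) * (dv M.r p * (-guu / M.F p)) := by
    rw [du_mass_eq hn hp, hrg, hguu, ← hN]
    have hk : k + 3 - 2 = k + 1 := by omega
    have hk' : k + 3 - 3 = k := by omega
    rw [hk, hk']
    field_simp
  have hmass : DifferentiableAt ℝ (M.mass (k + 3)) p :=
    diff_of M.isOpen Spacetime.smooth_mass hp
  have hX : dX (M.mass (k + 3)) p = dv (M.mass (k + 3)) p - du (M.mass (k + 3)) p :=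
    dX_eq hmass
  have hT : dT (M.mass (k + 3)) p = du (M.mass (k + 3)) p + dv (M.mass (k + 3)) p :=
    dT_eq hmass
  have hdv := Spacetime.dv_mass_nonneg hn hE hp (by linarith) (by linarith)
  have hdu := Spacetime.du_mass_nonpos hn hE hp (by linarith) (by linarith)
  refine ⟨?_, ?_⟩
  · have hG := G_bound hFpos hrpos ha hb hvv huu huv hmv hmu
    rw [← hX] at hG
    have hX0 : 0 ≤ dX (M.mass (k + 3)) p := by rw [hX]; linarith
    have hk : k + 3 - 2 = k + 1 := by omega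
    rw [hk]
    set m' : ℝ := dX (M.mass (k + 3)) p with hm'
    have hG2 : gvv + guu + 2 * guv ≤
        17 / 8 * (16 / 15) ^ (k + 1) * (m' / rho p ^ (k + 1)) := by
      refine hG.trans ?_
      have h1 : M.r p ^ (k + 1) = rho p ^ (k + 1) * M.ratio p ^ (k + 1) := by
        rw [r_eq hQ, mul_pow]
      have h2 : (15 / 16 : ℝ) ^ (k + 1) ≤ M.ratio p ^ (k + 1) :=
        pow_le_pow_left₀ (by norm_num) hs1 _
      have h3 : 0 < rho p ^ (k + 1) := pow_pos hρ _
      have h4 : (0 : ℝ) < (15 / 16) ^ (k + 1) := by positivity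
      have h5 : M.F p ≤ 17 / 16 := by have := (abs_le.1 hF).2; linarith
      have h6 : (16 / 15 : ℝ) ^ (k + 1) = 1 / (15 / 16) ^ (k + 1) := by
        rw [one_div, ← inv_pow]; norm_num
      rw [h1, h6]
      have h7 : 17 / 8 * (1 / (15 / 16 : ℝ) ^ (k + 1)) * (m' / rho p ^ (k + 1)) =
          (17 / 8 * m') / (rho p ^ (k + 1) * (15 / 16) ^ (k + 1)) := by field_simp
      rw [h7]
      refine div_le_div₀ (by positivity) ?_ (by positivity)
        (mul_le_mul_of_nonneg_left h2 h3.le)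
      have := mul_le_mul_of_nonneg_right h5 hX0
      linarith
    have hFd : DifferentiableAt ℝ M.F p := diff_of M.isOpen M.smooth.1 hp
    have hrd : DifferentiableAt ℝ M.ratio p := diff_of isOpen_Qp ratio_smooth hQ
    have b1 := bound1 hρ hδ hF (hab hFu) (hab hFv) hs (hab hsu) (hab hsv) evv euu hvv huu
    have b2 := bound2 hN0 hρ hδ hF (hab hFu) (hab hFv) hs (hab hsu) (hab hsv) evv euu euv
      hvv huu huv
    rw [muL, dTT hQ, dTX hQ, dT_eq hFd, dX_eq hFd, dT_eq hrd, dX_eq hrd]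
    refine (add_le_add b1 b2).trans ?_
    have h8 : rho p * (gvv + guu) + 5 * δ ^ 2 + (rho p * (gvv + guu + 2 * guv) +
        (5 + 4 * N) * δ ^ 2) ≤ 2 * (rho p * (gvv + guu + 2 * guv)) + (10 + 4 * N) * δ ^ 2 := by
      have := mul_nonneg hρ.le huv
      linarith
    refine h8.trans ?_
    have h9 := mul_le_mul_of_nonneg_left hG2 hρ.le
    set c : ℝ := (16 / 15) ^ (k + 1) with hc
    have hc0 : 0 ≤ c := by positivity
    have hx0 : 0 ≤ m' / rho p ^ (k + 1) := by positivity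
    have h10 : rho p * m' / rho p ^ (k + 1) = rho p * (m' / rho p ^ (k + 1)) := by ring
    rw [h10]
    set X : ℝ := m' / rho p ^ (k + 1) with hXdef
    have h11 : 0 ≤ c * δ ^ 2 := by positivity
    have h12 : 0 ≤ (10 + 4 * N) * (rho p * X) := by positivity
    have e : (17 / 4 * c + (10 + 4 * N)) * (rho p * X + δ ^ 2) =
        2 * (rho p * (17 / 8 * c * X)) + (10 + 4 * N) * δ ^ 2 + 17 / 4 * (c * δ ^ 2) +
          (10 + 4 * N) * (rho p * X) := by ring
    rw [e]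
    linarith
  · rw [hT, hX, abs_le]
    constructor <;> linarith

end Vale.Agent.P366.T1.Boost
end
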