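import Vale.Agent.P366.T1.Boost.FluxA
import Vale.Agent.P366.T1.Boost.Dec765

/-! Boosted slices: the flux orthogonal to the boost is bounded by the radial derivative of the
mass. -/

set_option linter.all false

open MeasureTheory Metric Filter Topology Set Asymptotics
open scoped ContDiff ENNReal RealInnerProductSpace Matrix

noncomputable section
namespace Vale.Agent.P366.T1.Boost

open Vale.Agent.P366.T1.A919

variable {n : ℕ}

theorem ray_alg {s t b σ dTm dXm : ℝ} (hb : 0 < b) (ht : 0 ≤ t) (hs : 0 ≤ s)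
    (hst : s ^ 2 = 1 + t ^ 2) (hsb : s ≤ b) (hσ : |σ| ≤ t + 1 / (4 * b)) (hm : |dTm| ≤ dXm) :
    1 / (4 * b) * dXm ≤ dTm * σ + dXm * s := by
  have hts : t ≤ s := by nlinarith
  have h1 : 1 / (2 * b) ≤ s - t := by
    rw [div_le_iff₀ (by positivity)]
    have h2 : (s - t) * (s + t) = 1 := by linarith [hst, (by ring : (s - t) * (s + t) = s ^ 2 - t ^ 2)]
    have h3 : s + t ≤ 2 * b := by linarith
    have h4 : (s - t) * (s + t) ≤ (s - t) * (2 * b) :=
      mul_le_mul_of_nonneg_left h3 (by linarith)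
    linarith
  have hX : 0 ≤ dXm := (abs_nonneg _).trans hm
  have h5 : -(dXm * |σ|) ≤ dTm * σ := by
    have h6 : |dTm * σ| ≤ dXm * |σ| := by
      rw [abs_mul]; exact mul_le_mul_of_nonneg_right hm (abs_nonneg _)
    exact neg_le_of_abs_le h6
  have h7 : 1 / (4 * b) ≤ s - |σ| := by
    have e : 1 / (2 * b) = 1 / (4 * b) + 1 / (4 * b) := by field_simp; norm_num
    rw [e] at h1
    linarith
  have h8 := mul_le_mul_of_nonneg_right h7 hX
  nlinarith

namespace Asy

variable {M : Spacetime} {f : E n → ℝ} {L : E n ≃L[ℝ] E n} {D : Stmt.Exterior n} {q : ℝ}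
  {U : Set (ℝ × ℝ)} {w : Fin n → ℝ}

theorem abs_coord_le {y : E n} (hy : y ≠ 0) (k : Fin n) : |‖y‖⁻¹ * y k| ≤ 1 := by
  have h := norm_pos_iff.mpr hy
  rw [abs_mul, abs_of_pos (inv_pos.mpr h), inv_mul_le_iff₀ h, mul_one, ← Real.norm_eq_abs]
  exact PiLp.norm_apply_le _ k

/-- along the rays the mass grows as its derivative in `ρ` -/
theorem ray (A : Asy M f L D q U w) : ∃ c : ℝ, 0 < c ∧ ∀ᶠ y in far n,
    |dT (M.mass n) (pL f L y)| ≤ dX (M.mass n) (pL f L y) →
      c * dX (M.mass n) (pL f L y) ≤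
        fderiv ℝ (fun z => M.mass n (pL f L z)) y (‖y‖⁻¹ • y) := by
  obtain ⟨a, b, ha, hb, hab⟩ := norm_bounds L
  refine ⟨1 / (4 * b), by positivity, ?_⟩
  have hsm : ContDiffOn ℝ ∞ (M.mass n) U := (M.smooth_mass (n := n)).mono A.subU
  have hO : O q (fun y => ∑ k, |pd k (hL f L) y - w k|) := O.sum fun k _ => (A.hw k).abs
  filter_upwards [A.pdG hsm, far_gt 0, hO.small A.q0 (ε := 1 / (4 * b)) (by positivity)]
    with y hpd h0 hε hm
  have hy : y ≠ 0 := norm_pos_iff.mp h0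
  have hρ := rL_pos (L := L) hy
  have hρ2 := rL_sq A.hG y
  rw [fderiv_eq_sum_pd]
  have e1 : ∑ k, (‖y‖⁻¹ • y) k * pd k (fun z => M.mass n (pL f L z)) y =
      dT (M.mass n) (pL f L y) * (∑ k, ‖y‖⁻¹ * y k * pd k (hL f L) y) +
      dX (M.mass n) (pL f L y) * (rL L y / ‖y‖) := by
    have e2 : rL L y / ‖y‖ = ∑ k, ‖y‖⁻¹ * y k * pd k (rL L) y := by
      have e3 : ∀ k, ‖y‖⁻¹ * y k * pd k (rL L) y = ‖y‖⁻¹ / rL L y * (y k * y k) +
          ‖y‖⁻¹ * tauL w y / rL L y * (w k * y k) := by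
        intro k
        rw [rL_pd A.hG hy k]
        field_simp
      simp only [e3, Finset.sum_add_distrib, ← Finset.mul_sum]
      rw [← norm_sq_sum]
      have h4 : ∑ i, w i * y i = tauL w y := rfl
      rw [h4]
      have h5 : ‖y‖ ^ 2 = rL L y ^ 2 - tauL w y ^ 2 := by linarith
      rw [h5]
      have := h0.ne'
      field_simp
      ring
    rw [e2, Finset.mul_sum, Finset.mul_sum, ← Finset.sum_add_distrib]
    refine Finset.sum_congr rfl fun k _ => ?_
    rw [hpd k]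
    simp only [PiLp.smul_apply, smul_eq_mul]
    ring
  rw [e1]
  refine ray_alg (t := |tauL w y| / ‖y‖) hb (by positivity) (by positivity) ?_ ?_ ?_ hm
  · rw [div_pow, div_pow, sq_abs, hρ2]
    field_simp
  · rw [div_le_iff₀ h0]
    exact (hab y).1
  · have e4 : ∑ k, ‖y‖⁻¹ * y k * pd k (hL f L) y = ∑ k, ‖y‖⁻¹ * y k * (pd k (hL f L) y - w k) +
        tauL w y / ‖y‖ := by
      unfold tauL
      rw [Finset.sum_div, ← Finset.sum_add_distrib]
      exact Finset.sum_congr rfl fun k _ => by ring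
    rw [e4]
    have e5 : |∑ k, ‖y‖⁻¹ * y k * (pd k (hL f L) y - w k)| ≤ 1 / (4 * b) := by
      refine (Finset.abs_sum_le_sum_abs _ _).trans (le_trans ?_ ((le_abs_self _).trans hε))
      refine Finset.sum_le_sum fun k _ => ?_
      rw [abs_mul]
      calc _ ≤ 1 * |pd k (hL f L) y - w k| :=
            mul_le_mul_of_nonneg_right (abs_coord_le hy k) (abs_nonneg _)
        _ = _ := one_mul _
    have e6 : |tauL w y / ‖y‖| = |tauL w y| / ‖y‖ := by rw [abs_div, abs_norm]
    refine (abs_add_le _ _).trans ?_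
    rw [e6]
    linarith

/-- the two brackets of the energy condition -/
theorem brackets (hn : 3 ≤ n) (hE : M.DEC n) (A : Asy M f L D q U w) : ∃ C : ℝ, 0 ≤ C ∧
    ∀ᶠ y in far n,
      rL L y * |(jet M f L w y).muT| + rL L y * |(jet M f L w y).ha -
        ((n : ℝ) - 2) * (jet M f L w y).mu / (jet M f L w y).ρ| ≤
      C * (rL L y * dX (M.mass n) (pL f L y) / rL L y ^ (n - 2) + ‖y‖ ^ (-(q + q))) ∧
      |dT (M.mass n) (pL f L y)| ≤ dX (M.mass n) (pL f L y) := by
  obtain ⟨C0, hC0, hdec⟩ := dec_bound (n := n) hn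
  have hq := A.q0
  have sub_ : ∀ G : ℝ × ℝ → ℝ, ContDiffOn ℝ ∞ G U → O (q + 1) (fun y : E n => dT G (pL f L y)) →
      O (q + 1) (fun y : E n => dX G (pL f L y)) →
      O q (fun y : E n => rL L y * du G (pL f L y)) ∧ O q (fun y : E n => rL L y * dv G (pL f L y)) := by
    intro G hG hT hX
    have h1 : O q (fun y : E n => rL L y * (1 / 2 * (dT G (pL f L y) - dX G (pL f L y)))) :=
      (O_rL L).mul' (O.const_mul _ (hT.sub hX)) (by linarith)
    have h2 : O q (fun y : E n => rL L y * (1 / 2 * (dT G (pL f L y) + dX G (pL f L y)))) :=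
      (O_rL L).mul' (O.const_mul _ (hT.add hX)) (by linarith)
    constructor
    · refine h1.congr ?_
      filter_upwards [A.mem] with y hy
      rw [dT_eq (diff_of A.openU hG hy), dX_eq (diff_of A.openU hG hy)]
      ring
    · refine h2.congr ?_
      filter_upwards [A.mem] with y hy
      rw [dT_eq (diff_of A.openU hG hy), dX_eq (diff_of A.openU hG hy)]
      ring
  obtain ⟨hFu, hFv⟩ := sub_ _ A.smF A.FT A.FX
  obtain ⟨hsu, hsv⟩ := sub_ _ A.sms A.sT A.sX
  have hall : O q (fun y : E n => |M.F (pL f L y) - 1| + |rL L y * du M.F (pL f L y)| +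
      |rL L y * dv M.F (pL f L y)| + |M.ratio (pL f L y) - 1| +
      |rL L y * du M.ratio (pL f L y)| + |rL L y * dv M.ratio (pL f L y)|) :=
    ((((A.F1.abs.add hFu.abs).add hFv.abs).add A.s1.abs).add hsu.abs).add hsv.abs
  obtain ⟨K, R1, hK, hR1, hb⟩ := O_iff.mp hall
  refine ⟨C0 * (1 + K ^ 2), by positivity, ?_⟩
  filter_upwards [A.mem, far_gt R1, hall.small hq (ε := 1 / 16) (by norm_num)] with y hmem hy hsm
  have h0 : 0 < ‖y‖ := by linarith
  have hy0 : y ≠ 0 := norm_pos_iff.mp h0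
  have hρ := rL_pos (L := L) hy0
  set S : ℝ := |M.F (pL f L y) - 1| + |rL L y * du M.F (pL f L y)| +
      |rL L y * dv M.F (pL f L y)| + |M.ratio (pL f L y) - 1| +
      |rL L y * du M.ratio (pL f L y)| + |rL L y * dv M.ratio (pL f L y)| with hS
  have a1 := abs_nonneg (M.F (pL f L y) - 1)
  have a2 := abs_nonneg (rL L y * du M.F (pL f L y))
  have a3 := abs_nonneg (rL L y * dv M.F (pL f L y))
  have a4 := abs_nonneg (M.ratio (pL f L y) - 1)
  have a5 := abs_nonneg (rL L y * du M.ratio (pL f L y))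
  have a6 := abs_nonneg (rL L y * dv M.ratio (pL f L y))
  have hS0 : 0 ≤ S := by rw [hS]; positivity
  have hS1 : S ≤ K * ‖y‖ ^ (-q) := (le_abs_self _).trans (hb y hy)
  have hS2 : S ≤ 1 / 16 := (le_abs_self _).trans hsm
  have hab : ∀ x : ℝ, rho (pL f L y) * |x| = |rL L y * x| := by
    intro x; rw [abs_mul, abs_of_pos hρ, rho_pL]
  obtain ⟨h1, h2⟩ := hdec hE (p := pL f L y) (δ := S) (A.subU hmem) (by rw [rho_pL]; exact hρ) hS2
    (by linarith) (by rw [hab]; linarith) (by rw [hab]; linarith) (by linarith)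
    (by rw [hab]; linarith) (by rw [hab]; linarith)
  refine ⟨?_, h2⟩
  have hmu : (jet M f L w y).mu = muL M (pL f L y) := by
    unfold Jet.mu jet muL; rw [rho_pL]; simp only; ring
  have hmuT : (jet M f L w y).muT = (dT M.F (pL f L y) - 2 * dT M.ratio (pL f L y) -
      2 * (rho (pL f L y) * dT (dX M.ratio) (pL f L y))) / 2 := by
    unfold Jet.muT jet; rw [rho_pL]; simp only; ring
  have hha : (jet M f L w y).ha - ((n : ℝ) - 2) * (jet M f L w y).mu / (jet M f L w y).ρ =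
      dX M.F (pL f L y) / 2 - rho (pL f L y) * dT (dT M.ratio) (pL f L y) -
        ((n : ℝ) - 2) * muL M (pL f L y) / rho (pL f L y) := by
    rw [hmu]; unfold Jet.ha jet; rw [rho_pL]
  rw [hmuT, hha, ← rho_pL f L y]
  refine h1.trans ?_
  have hX0 : 0 ≤ dX (M.mass n) (pL f L y) := (abs_nonneg _).trans h2
  have h3 : S ^ 2 ≤ K ^ 2 * ‖y‖ ^ (-(q + q)) := by
    have h4 : S ^ 2 ≤ (K * ‖y‖ ^ (-q)) ^ 2 := pow_le_pow_left₀ hS0 hS1 2
    have h5 : (‖y‖ ^ (-q)) ^ 2 = ‖y‖ ^ (-(q + q)) := by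
      rw [sq, ← Real.rpow_add h0]; congr 1; ring
    rw [mul_pow, h5] at h4
    exact h4
  have h6 : 0 ≤ rho (pL f L y) * dX (M.mass n) (pL f L y) / rho (pL f L y) ^ (n - 2) := by
    rw [rho_pL]; positivity
  have h7 : 0 ≤ ‖y‖ ^ (-(q + q)) := Real.rpow_nonneg h0.le _
  rw [mul_assoc]
  refine mul_le_mul_of_nonneg_left ?_ hC0
  have h8 : 0 ≤ K ^ 2 * (rho (pL f L y) * dX (M.mass n) (pL f L y) / rho (pL f L y) ^ (n - 2)) := by
    positivity
  nlinarith

/-- the flux orthogonal to the boost -/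
theorem dens_b (hn : 3 ≤ n) (hE : M.DEC n) (A : Asy M f L D q U w)
    {tE : E n → ℝ} {tP : Fin n → E n → ℝ}
    (h1 : O (q + q + 1) (fun y => tE y - ∑ i, (jet M f L w y).eb i * Nc i y))
    (h2 : ∀ i, O (q + q + 1) (fun y => tP i y - ∑ j, (jet M f L w y).pb i j * Nc j y))
    (i : Fin n) : ∃ C R : ℝ, 0 ≤ C ∧ 1 ≤ R ∧ ∀ y : E n, R < ‖y‖ →
      ‖y‖ ^ (n - 1) * |w i * tE y - gam w * tP i y| ≤
        C * (‖y‖ * fderiv ℝ (fun z => M.mass n (pL f L z)) y (‖y‖⁻¹ • y) +
          ‖y‖ ^ (n - 2) * ‖y‖ ^ (-(q + q))) := by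
  have h3 : O (q + q + 1) (fun y => w i * (tE y - ∑ i, (jet M f L w y).eb i * Nc i y) -
      gam w * (tP i y - ∑ j, (jet M f L w y).pb i j * Nc j y)) :=
    (h1.const_mul _).sub ((h2 i).const_mul _)
  have hU : ∀ j, O 0 (fun y => gam w * y j / rL L y) := fun j => by
    have h4 : O 0 (fun y => gam w * (y j * (rL L y)⁻¹)) :=
      O.const_mul _ ((O_coord j).mul' (O_rL_inv L) (by linarith))
    exact h4.congr (Eventually.of_forall fun y => by rw [div_eq_mul_inv]; ring)
  have hν : O 0 (fun y => gam w * tauL w y / rL L y) := by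
    have h4 : O 0 (fun y => gam w * (tauL w y * (rL L y)⁻¹)) :=
      O.const_mul _ ((O_tau w).mul' (O_rL_inv L) (by linarith))
    exact h4.congr (Eventually.of_forall fun y => by rw [div_eq_mul_inv]; ring)
  have hA : O 0 (fun y => ∑ j, (gam w ^ 2 * (if i = j then 1 else 0) - w i * w j -
      (gam w * y i / rL L y) * (gam w * y j / rL L y)) * Nc j y) :=
    O.sum fun j _ => ((O_const _).sub ((hU i).mul' (hU j) (by linarith))).mul' (O_Nc j)
      (by linarith)
  have hB : O 0 (fun y => ∑ j, (w i * pd j (rL L) y -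
      gam w * (gam w * tauL w y / rL L y) * (if i = j then 1 else 0)) * Nc j y) := by
    refine O.sum fun j _ => (((A.Or j).const_mul (w i)).sub ?_).mul' (O_Nc j) (by linarith)
    exact (hν.const_mul (gam w)).mul' (O_const _) (by linarith)
  obtain ⟨C1, R1, hC1, hR1, k1⟩ := O_iff.mp h3
  obtain ⟨CA, R2, hCA, hR2, k2⟩ := O_iff.mp hA
  obtain ⟨CB, R3, hCB, hR3, k3⟩ := O_iff.mp hB
  obtain ⟨C2, hC2, k4⟩ := A.brackets hn hE
  obtain ⟨c, hc, k5⟩ := A.ray
  obtain ⟨R4, hR4⟩ := far_iff.mp (k4.and k5)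
  refine ⟨C1 + (CA + CB) * (C2 * (1 / c + 1)), max (max R1 R2) (max R3 R4), by positivity,
    le_max_of_le_left (le_max_of_le_left hR1), ?_⟩
  intro y hy
  have hy1 : R1 < ‖y‖ := lt_of_le_of_lt ((le_max_left _ _).trans (le_max_left _ _)) hy
  have hy2 : R2 < ‖y‖ := lt_of_le_of_lt ((le_max_right _ _).trans (le_max_left _ _)) hy
  have hy3 : R3 < ‖y‖ := lt_of_le_of_lt ((le_max_left _ _).trans (le_max_right _ _)) hy
  have hy4 : R4 < ‖y‖ := lt_of_le_of_lt ((le_max_right _ _).trans (le_max_right _ _)) hy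
  have h0 : 0 < ‖y‖ := by linarith
  have hy0 : y ≠ 0 := norm_pos_iff.mp h0
  have hρ := rL_pos (L := L) hy0
  have hge := rL_ge A.hG y
  obtain ⟨⟨m1, m2⟩, m3⟩ := hR4 y hy4
  have m4 := m3 m2
  have n1 := k1 y hy1
  have n2 := k2 y hy2
  have n3 := k3 y hy3
  rw [neg_zero, Real.rpow_zero, mul_one] at n2 n3
  set X := dX (M.mass n) (pL f L y) with hX
  have hX0 : 0 ≤ X := (abs_nonneg _).trans m2
  set Fd := fderiv ℝ (fun z => M.mass n (pL f L z)) y (‖y‖⁻¹ • y) with hFd
  set mt := (jet M f L w y).muT with hmt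
  set hb := (jet M f L w y).ha - ((n : ℝ) - 2) * (jet M f L w y).mu / (jet M f L w y).ρ with hhb
  set a := ∑ j, (gam w ^ 2 * (if i = j then 1 else 0) - w i * w j -
      (gam w * y i / rL L y) * (gam w * y j / rL L y)) * Nc j y with ha
  set b := ∑ j, (w i * pd j (rL L) y -
      gam w * (gam w * tauL w y / rL L y) * (if i = j then 1 else 0)) * Nc j y with hb'
  set e := w i * (tE y - ∑ i, (jet M f L w y).eb i * Nc i y) -
      gam w * (tP i y - ∑ j, (jet M f L w y).pb i j * Nc j y) with he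
  -- the decomposition
  have hdec : w i * tE y - gam w * tP i y = e + (mt * a - hb * b) := by
    have e1 : w i * ∑ j, (jet M f L w y).eb j * Nc j y -
        gam w * ∑ j, (jet M f L w y).pb i j * Nc j y = mt * a - hb * b := by
      rw [ha, hb', Finset.mul_sum, Finset.mul_sum, Finset.mul_sum, Finset.mul_sum,
        ← Finset.sum_sub_distrib, ← Finset.sum_sub_distrib]
      refine Finset.sum_congr rfl fun j _ => ?_
      have h5 := Jet.alg_b (A.ok hy0) i j
      rw [A.U_eq hy0 i, A.U_eq hy0 j] at h5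
      have e4 : (jet M f L w y).γ = gam w := rfl
      have e5 : (jet M f L w y).w = w := rfl
      have e7 : (jet M f L w y).r j = pd j (rL L) y := rfl
      have e8 : (jet M f L w y).nu = gam w * tauL w y / rL L y := rfl
      rw [e4, e5, e7, e8] at h5
      linear_combination (Nc j y) * h5
    rw [← e1, he]
    ring
  have hmain : |w i * tE y - gam w * tP i y| ≤ C1 * ‖y‖ ^ (-(q + q + 1)) +
      (CA + CB) * (|mt| + |hb|) := by
    rw [hdec]
    refine (abs_add_le _ _).trans (add_le_add n1 ?_)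
    refine (abs_sub _ _).trans ?_
    rw [abs_mul, abs_mul]
    have i1 : |mt| * |a| ≤ |mt| * CA := mul_le_mul_of_nonneg_left n2 (abs_nonneg _)
    have i2 : |hb| * |b| ≤ |hb| * CB := mul_le_mul_of_nonneg_left n3 (abs_nonneg _)
    have i3 : 0 ≤ |mt| * CB := mul_nonneg (abs_nonneg _) hCB
    have i4 : 0 ≤ |hb| * CA := mul_nonneg (abs_nonneg _) hCA
    linarith
  set S := ‖y‖ ^ (-(q + q)) with hS
  have hS0 : 0 ≤ S := Real.rpow_nonneg h0.le _
  set N := ‖y‖ ^ (n - 2) with hN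
  have hN0 : 0 < N := by rw [hN]; positivity
  have e1 : ‖y‖ ^ (n - 1) = N * ‖y‖ := by
    rw [hN, ← pow_succ]; congr 1; omega
  have e2 : ‖y‖ ^ (-(q + q + 1)) * ‖y‖ = S := by
    have := Real.rpow_add h0 (-(q + q + 1)) 1
    rw [Real.rpow_one] at this
    rw [← this, hS]; congr 1; ring
  -- the brackets
  have p1 : N * ‖y‖ * (|mt| + |hb|) ≤ C2 * (‖y‖ * X + N * S) := by
    have p2 : N * ‖y‖ * (|mt| + |hb|) = N * (‖y‖ / rL L y) * (rL L y * |mt| + rL L y * |hb|) := by
      field_simp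
    have hq1 : ‖y‖ / rL L y ≤ 1 := div_le_one_of_le₀ hge hρ.le
    have hq0 : 0 ≤ ‖y‖ / rL L y := by positivity
    rw [p2]
    have p3 := mul_le_mul_of_nonneg_left m1 (by positivity : 0 ≤ N * (‖y‖ / rL L y))
    refine p3.trans ?_
    have p4 : N * (‖y‖ / rL L y) * (C2 * (rL L y * X / rL L y ^ (n - 2) + S)) =
        C2 * (‖y‖ * X * (‖y‖ / rL L y) ^ (n - 2) + N * S * (‖y‖ / rL L y)) := by
      rw [hN, div_pow]
      field_simp
    rw [p4]
    refine mul_le_mul_of_nonneg_left (add_le_add ?_ ?_) hC2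
    · exact mul_le_of_le_one_right (by positivity) (pow_le_one₀ hq0 hq1)
    · exact mul_le_of_le_one_right (by positivity) hq1
  have p5 : ‖y‖ * X ≤ 1 / c * (‖y‖ * Fd) := by
    have := mul_le_mul_of_nonneg_left m4 h0.le
    rw [one_div, ← div_eq_inv_mul, le_div_iff₀ hc]
    linarith
  have p6 : 0 ≤ ‖y‖ * Fd := by
    have := mul_le_mul_of_nonneg_left m4 h0.le
    have h : 0 ≤ ‖y‖ * (c * X) := by positivity
    linarith
  have p7 : 0 ≤ N * S := by positivity
  rw [e1]
  calc N * ‖y‖ * |w i * tE y - gam w * tP i y|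
      ≤ N * ‖y‖ * (C1 * ‖y‖ ^ (-(q + q + 1)) + (CA + CB) * (|mt| + |hb|)) :=
        mul_le_mul_of_nonneg_left hmain (by positivity)
    _ = C1 * (N * (‖y‖ ^ (-(q + q + 1)) * ‖y‖)) + (CA + CB) * (N * ‖y‖ * (|mt| + |hb|)) := by ring
    _ ≤ C1 * (N * S) + (CA + CB) * (C2 * (1 / c * (‖y‖ * Fd) + N * S)) := by
        rw [e2]
        refine add_le_add le_rfl (mul_le_mul_of_nonneg_left (p1.trans ?_) (by positivity))
        exact mul_le_mul_of_nonneg_left (add_le_add p5 le_rfl) hC2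
    _ ≤ (C1 + (CA + CB) * (C2 * (1 / c + 1))) * (‖y‖ * Fd + N * S) := by
        have hc0 : 0 < 1 / c := by positivity
        have r1 : 0 ≤ (CA + CB) * C2 := by positivity
        have r2 : 1 / c * (‖y‖ * Fd) + N * S ≤ (1 / c + 1) * (‖y‖ * Fd + N * S) := by
          have : 0 ≤ 1 / c * (N * S) := by positivity
          nlinarith
        have r3 := mul_le_mul_of_nonneg_left r2 r1
        have r4 : C1 * (N * S) ≤ C1 * (‖y‖ * Fd + N * S) :=
          mul_le_mul_of_nonneg_left (by linarith) hC1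
        linarith

end Asy

end Vale.Agent.P366.T1.Boost
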