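import Vale.Agent.P366.T1.Boost.Data
import Vale.Agent.P366.T1.Boost.Algebra

/-! Boosted slices: expansions of the metric, the second fundamental form and the potentials. -/

set_option linter.all false

open MeasureTheory Metric Filter Topology Set Asymptotics
open scoped ContDiff ENNReal RealInnerProductSpace Matrix

noncomputable section
namespace Vale.Agent.P366.T1.Boost

open Vale.Agent.P366.T1.A919

variable {n : ℕ}

/-! ### the geometry of the flat boosted slice -/

/-- `w · y` -/
def tauL (w : Fin n → ℝ) (y : E n) : ℝ := ∑ i, w i * y i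

def gam (w : Fin n → ℝ) : ℝ := √(1 + ∑ i, w i * w i)

theorem gam_sq (w : Fin n → ℝ) : gam w ^ 2 = 1 + ∑ i, w i * w i := by
  unfold gam
  refine Real.sq_sqrt ?_
  have : 0 ≤ ∑ i, w i * w i := Finset.sum_nonneg fun i _ => mul_self_nonneg _
  linarith

theorem gam_pos (w : Fin n → ℝ) : 0 < gam w := by
  unfold gam
  refine Real.sqrt_pos.mpr ?_
  have : 0 ≤ ∑ i, w i * w i := Finset.sum_nonneg fun i _ => mul_self_nonneg _
  linarith

section Geo

variable {L : E n ≃L[ℝ] E n} {w : Fin n → ℝ}
  (hG : ∀ i j, G0 L i j = (if i = j then 1 else 0) + w i * w j)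

theorem rL_pos {L : E n ≃L[ℝ] E n} {y : E n} (hy : y ≠ 0) : 0 < rL L y :=
  norm_pos_iff.mpr (L_ne hy)

include hG in
theorem rL_pd {y : E n} (hy : y ≠ 0) (i : Fin n) :
    pd i (rL L) y = (y i + tauL w y * w i) / rL L y := by
  rw [pd_rL L hy]
  have e1 : ∀ k, Lc L k i * Nc k (L y) = (∑ j, Lc L k i * Lc L k j * y j) / rL L y := by
    intro k
    unfold Nc rL
    rw [L_apply L y k, Finset.sum_div, Finset.sum_div, Finset.mul_sum]
    exact Finset.sum_congr rfl fun j _ => by ring
  simp only [e1]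
  rw [← Finset.sum_div, Finset.sum_comm]
  congr 1
  have e2 : ∀ j, ∑ k, Lc L k i * Lc L k j * y j = (if i = j then y j else 0) +
      w i * (w j * y j) := by
    intro j
    rw [← Finset.sum_mul]
    have := hG i j
    unfold G0 at this
    rw [this]; split_ifs <;> ring
  simp only [e2, Finset.sum_add_distrib, ← Finset.mul_sum, Finset.sum_ite_eq, Finset.mem_univ,
    if_true]
  unfold tauL
  ring

theorem norm_sq_sum (y : E n) : ‖y‖ ^ 2 = ∑ i, y i * y i := by
  rw [EuclideanSpace.norm_sq_eq]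
  exact Finset.sum_congr rfl fun i _ => by rw [Real.norm_eq_abs, sq_abs]; ring

include hG in
theorem rL_sq (y : E n) : rL L y ^ 2 = ‖y‖ ^ 2 + tauL w y ^ 2 := by
  unfold rL
  rw [norm_sq_sum, norm_sq_sum]
  have e1 : ∀ k, (L y) k * (L y) k = ∑ i, ∑ j, Lc L k i * Lc L k j * (y i * y j) := by
    intro k
    rw [L_apply L y k, Finset.sum_mul_sum]
    exact Finset.sum_congr rfl fun i _ => Finset.sum_congr rfl fun j _ => by ring
  simp only [e1]
  rw [Finset.sum_comm]
  have e2 : ∀ i, ∑ k, ∑ j, Lc L k i * Lc L k j * (y i * y j) =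
      y i * y i + tauL w y * (w i * y i) := by
    intro i
    rw [Finset.sum_comm]
    have e3 : ∀ j, ∑ k, Lc L k i * Lc L k j * (y i * y j) =
        (if i = j then y i * y j else 0) + (w i * y i) * (w j * y j) := by
      intro j
      rw [← Finset.sum_mul]
      have := hG i j
      unfold G0 at this
      rw [this]; split_ifs <;> ring
    simp only [e3, Finset.sum_add_distrib, ← Finset.mul_sum, Finset.sum_ite_eq, Finset.mem_univ,
      if_true]
    unfold tauL
    ring
  simp only [e2, Finset.sum_add_distrib, ← Finset.mul_sum]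
  unfold tauL
  ring

include hG in
theorem rL_srr {y : E n} (hy : y ≠ 0) :
    ∑ k, pd k (rL L) y * pd k (rL L) y = 1 + gam w ^ 2 * tauL w y ^ 2 / rL L y ^ 2 := by
  have hρ := (rL_pos (L := L) hy).ne'
  have e1 : ∀ k, pd k (rL L) y * pd k (rL L) y = (y k * y k) / rL L y ^ 2 +
      2 * tauL w y / rL L y ^ 2 * (w k * y k) + tauL w y ^ 2 / rL L y ^ 2 * (w k * w k) := by
    intro k
    rw [rL_pd hG hy k]
    field_simp
    ring
  simp only [e1, Finset.sum_add_distrib, ← Finset.mul_sum, ← Finset.sum_div]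
  rw [← norm_sq_sum]
  have h2 := rL_sq hG y
  have h3 := gam_sq w
  have h4 : ∑ i, w i * y i = tauL w y := rfl
  rw [h4]
  have h5 : ‖y‖ ^ 2 = rL L y ^ 2 - tauL w y ^ 2 := by linarith
  have h6 : ∑ i, w i * w i = gam w ^ 2 - 1 := by linarith
  rw [h5, h6]
  field_simp
  ring

include hG in
theorem rL_swr {y : E n} (hy : y ≠ 0) :
    ∑ k, w k * pd k (rL L) y = gam w ^ 2 * tauL w y / rL L y := by
  have hρ := (rL_pos (L := L) hy).ne'
  have e1 : ∀ k, w k * pd k (rL L) y = (w k * y k) / rL L y +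
      tauL w y / rL L y * (w k * w k) := by
    intro k
    rw [rL_pd hG hy k]
    field_simp
  simp only [e1, Finset.sum_add_distrib, ← Finset.mul_sum, ← Finset.sum_div]
  have h3 := gam_sq w
  have h4 : ∑ i, w i * y i = tauL w y := rfl
  have h6 : ∑ i, w i * w i = gam w ^ 2 - 1 := by linarith
  rw [h4, h6]
  field_simp
  ring

theorem diff_coord (i : Fin n) (y : E n) : DifferentiableAt ℝ (fun z : E n => z i) y :=
  (EuclideanSpace.proj (𝕜 := ℝ) i).differentiableAt

theorem diff_tau (w : Fin n → ℝ) (y : E n) : DifferentiableAt ℝ (tauL w) y := by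
  unfold tauL
  exact DifferentiableAt.fun_sum fun i _ => (diff_coord i y).const_mul _

theorem pd_tau (w : Fin n → ℝ) (y : E n) (i : Fin n) : pd i (tauL w) y = w i := by
  have e : tauL w = fun z => ∑ j, (fun z : E n => z j) z * w j := by
    funext z; unfold tauL; exact Finset.sum_congr rfl fun j _ => mul_comm _ _
  rw [e, pd_sum _ (fun j _ => (diff_coord j y).mul_const _)]
  have e2 : ∀ j, pd i (fun z : E n => (fun z : E n => z j) z * w j) y =
      if i = j then w j else 0 := by
    intro j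
    rw [pd_mul_const (diff_coord j y), pd_coord]
    split_ifs <;> ring
  simp only [e2, Finset.sum_ite_eq, Finset.mem_univ, if_true]

theorem diff_pd_rL (L : E n ≃L[ℝ] E n) {y : E n} (hy : y ≠ 0) (i : Fin n) :
    DifferentiableAt ℝ (pd i (rL L)) y :=
  (Bridge.pd_smooth (smooth_rL L hy) i).differentiableAt (by simp)

theorem pd_inv {u : E n → ℝ} {y : E n} (hu : DifferentiableAt ℝ u y) (h0 : u y ≠ 0) (i : Fin n) :
    pd i (fun z => (u z)⁻¹) y = -pd i u y / u y ^ 2 := by
  unfold pd
  have h1 : HasFDerivAt (fun z => (u z)⁻¹) _ y :=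
    (hasDerivAt_inv h0).comp_hasFDerivAt y hu.hasFDerivAt
  rw [h1.fderiv]
  simp only [smul_apply, smul_eq_mul]
  ring

include hG in
theorem pd_pd_rL {y : E n} (hy : y ≠ 0) (k i : Fin n) :
    pd k (pd i (rL L)) y = ((if k = i then 1 else 0) + w k * w i -
      pd k (rL L) y * pd i (rL L) y) / rL L y := by
  have hρ := (rL_pos (L := L) hy).ne'
  have hd := diff_rL L hy
  have hdi : DifferentiableAt ℝ (fun z => (rL L z)⁻¹) y := hd.inv hρ
  have hnum : DifferentiableAt ℝ (fun z : E n => z i + tauL w z * w i) y :=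
    (diff_coord i y).add ((diff_tau w y).mul_const _)
  have e : pd i (rL L) =ᶠ[𝓝 y] fun z => (fun z : E n => z i + tauL w z * w i) z *
      (fun z => (rL L z)⁻¹) z := by
    filter_upwards [isOpen_ne.mem_nhds hy] with z hz
    rw [rL_pd hG hz, div_eq_mul_inv]
  rw [pd_congr e, pd_mul hnum hdi, pd_inv hd hρ,
    pd_add (diff_coord i y) ((diff_tau w y).mul_const _), pd_mul_const (diff_tau w y), pd_tau,
    pd_coord, rL_pd hG hy i]
  field_simp
  ring

end Geo

/-- the values at `y` -/
def jet (M : Spacetime) (f : E n → ℝ) (L : E n ≃L[ℝ] E n) (w : Fin n → ℝ) (y : E n) : Jet n where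
  w := w
  r := fun i => pd i (rL L) y
  φ := fun i j => pd i (pd j (hL f L)) y
  ρ := rL L y
  τ := tauL w y
  γ := gam w
  a0 := M.F (pL f L y) - 1
  aT := dT M.F (pL f L y)
  aX := dX M.F (pL f L y)
  b0 := M.ratio (pL f L y) - 1
  bT := dT M.ratio (pL f L y)
  bX := dX M.ratio (pL f L y)
  bTT := dT (dT M.ratio) (pL f L y)
  bTX := dT (dX M.ratio) (pL f L y)
  bXX := dX (dX M.ratio) (pL f L y)

/-- all facts in the asymptotically flat coordinates -/
structure Asy (M : Spacetime) (f : E n → ℝ) (L : E n ≃L[ℝ] E n) (D : Stmt.Exterior n) (q : ℝ)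
    (U : Set (ℝ × ℝ)) (w : Fin n → ℝ) : Prop extends AnB M f L D q U where
  hw : ∀ i, O q (fun y => pd i (hL f L) y - w i)
  hG : ∀ i j, G0 L i j = (if i = j then 1 else 0) + w i * w j

namespace Asy

variable {M : Spacetime} {f : E n → ℝ} {L : E n ≃L[ℝ] E n} {D : Stmt.Exterior n} {q : ℝ}
  {U : Set (ℝ × ℝ)} {w : Fin n → ℝ}

theorem ok (A : Asy M f L D q U w) {y : E n} (hy : y ≠ 0) : (jet M f L w y).Ok where
  ρ0 := (rL_pos hy).ne'
  γ0 := (gam_pos w).ne'
  sww := by
    have := gam_sq w
    show ∑ k, w k * w k = gam w ^ 2 - 1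
    linarith
  swr := rL_swr A.hG hy
  srr := rL_srr A.hG hy
  symm := fun i j => symm_pd A.smh i j y

/-! decay of the entries -/

theorem Or (A : Asy M f L D q U w) (i : Fin n) : O 0 (fun y => (jet M f L w y).r i) := O_pd_rL L i

theorem Oφ (A : Asy M f L D q U w) (i j : Fin n) :
    O (q + 1) (fun y => (jet M f L w y).φ i j) := A.d2h i j

theorem Oρ (A : Asy M f L D q U w) : O (-1) (fun y => (jet M f L w y).ρ) := O_rL L

theorem Oρi (A : Asy M f L D q U w) : O 1 (fun y => ((jet M f L w y).ρ)⁻¹) := O_rL_inv L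

theorem O_coord (i : Fin n) : O (-1) (fun y : E n => y i) := by
  refine O.of_bound (C := 1) (far_of 0 fun y hy => ?_)
  rw [neg_neg, Real.rpow_one, one_mul, ← Real.norm_eq_abs]
  exact PiLp.norm_apply_le _ i

theorem O_tau (w : Fin n → ℝ) : O (-1) (tauL w) := O.sum fun i _ => (O_coord i).const_mul _

theorem Oτ (A : Asy M f L D q U w) : O (-1) (fun y => (jet M f L w y).τ) := O_tau w

theorem OQ (A : Asy M f L D q U w) (i j : Fin n) : O 0 (fun y => (jet M f L w y).Q i j) := by
  unfold Jet.Q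
  exact (O_const ((if i = j then 1 else 0) + w i * w j)).sub ((A.Or i).mul' (A.Or j) (by linarith))

theorem bTT (A : Asy M f L D q U w) : O (q + 1 + 1) (fun y => (jet M f L w y).bTT) := by
  have h1 : O (q + 1 + 1) (fun x : E n => du (du M.ratio) (pL f L x) +
      (2 * du (dv M.ratio) (pL f L x) + dv (dv M.ratio) (pL f L x))) :=
    A.suu.add ((A.suv.const_mul 2).add A.svv)
  refine h1.congr ?_
  filter_upwards [A.mem] with x hx
  have hu := A919.contDiffOn_du A.openU A.sms
  have hv := A919.contDiffOn_dv A.openU A.sms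
  have h2 : dT M.ratio =ᶠ[𝓝 (pL f L x)] fun p => du M.ratio p + dv M.ratio p := by
    filter_upwards [A.openU.mem_nhds hx] with y hy using dT_eq (diff_of A.openU A.sms hy)
  show _ = dT (dT M.ratio) (pL f L x)
  rw [dT_congr h2, dT_add (diff_of A.openU hu hx) (diff_of A.openU hv hx),
    dT_eq (diff_of A.openU hu hx), dT_eq (diff_of A.openU hv hx),
    A919.du_dv_comm A.openU A.sms hx]
  ring

theorem bTX (A : Asy M f L D q U w) : O (q + 1 + 1) (fun y => (jet M f L w y).bTX) := by
  have h1 : O (q + 1 + 1) (fun x : E n => dv (dv M.ratio) (pL f L x) -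
      du (du M.ratio) (pL f L x)) := A.svv.sub A.suu
  refine h1.congr ?_
  filter_upwards [A.mem] with x hx
  have hu := A919.contDiffOn_du A.openU A.sms
  have hv := A919.contDiffOn_dv A.openU A.sms
  have h2 : dX M.ratio =ᶠ[𝓝 (pL f L x)] fun p => dv M.ratio p - du M.ratio p := by
    filter_upwards [A.openU.mem_nhds hx] with y hy using dX_eq (diff_of A.openU A.sms hy)
  show _ = dT (dX M.ratio) (pL f L x)
  rw [dT_congr h2, dT_sub (diff_of A.openU hv hx) (diff_of A.openU hu hx),
    dT_eq (diff_of A.openU hu hx), dT_eq (diff_of A.openU hv hx),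
    A919.du_dv_comm A.openU A.sms hx]
  ring

theorem dX_sub {G H : ℝ × ℝ → ℝ} {p : ℝ × ℝ} (hG : DifferentiableAt ℝ G p)
    (hH : DifferentiableAt ℝ H p) : dX (fun p => G p - H p) p = dX G p - dX H p := by
  unfold dX; rw [fderiv_fun_sub hG hH]; rfl

theorem dX_add {G H : ℝ × ℝ → ℝ} {p : ℝ × ℝ} (hG : DifferentiableAt ℝ G p)
    (hH : DifferentiableAt ℝ H p) : dX (fun p => G p + H p) p = dX G p + dX H p := by
  unfold dX; rw [fderiv_fun_add hG hH]; rfl

theorem bXX (A : Asy M f L D q U w) : O (q + 1 + 1) (fun y => (jet M f L w y).bXX) := by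
  have h1 : O (q + 1 + 1) (fun x : E n => dv (dv M.ratio) (pL f L x) +
      du (du M.ratio) (pL f L x) - 2 * du (dv M.ratio) (pL f L x)) :=
    (A.svv.add A.suu).sub (A.suv.const_mul 2)
  refine h1.congr ?_
  filter_upwards [A.mem] with x hx
  have hu := A919.contDiffOn_du A.openU A.sms
  have hv := A919.contDiffOn_dv A.openU A.sms
  have h2 : dX M.ratio =ᶠ[𝓝 (pL f L x)] fun p => dv M.ratio p - du M.ratio p := by
    filter_upwards [A.openU.mem_nhds hx] with y hy using dX_eq (diff_of A.openU A.sms hy)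
  show _ = dX (dX M.ratio) (pL f L x)
  rw [dX_congr h2, dX_sub (diff_of A.openU hv hx) (diff_of A.openU hu hx),
    dX_eq (diff_of A.openU hu hx), dX_eq (diff_of A.openU hv hx),
    A919.du_dv_comm A.openU A.sms hx]
  ring

/-- the mixed derivatives agree -/
theorem XT_eq (A : Asy M f L D q U w) : ∀ᶠ y in far n,
    dX (dT M.ratio) (pL f L y) = dT (dX M.ratio) (pL f L y) := by
  filter_upwards [A.mem] with x hx
  have hu := A919.contDiffOn_du A.openU A.sms
  have hv := A919.contDiffOn_dv A.openU A.sms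
  have h1 : dT M.ratio =ᶠ[𝓝 (pL f L x)] fun p => du M.ratio p + dv M.ratio p := by
    filter_upwards [A.openU.mem_nhds hx] with y hy using dT_eq (diff_of A.openU A.sms hy)
  have h2 : dX M.ratio =ᶠ[𝓝 (pL f L x)] fun p => dv M.ratio p - du M.ratio p := by
    filter_upwards [A.openU.mem_nhds hx] with y hy using dX_eq (diff_of A.openU A.sms hy)
  rw [dX_congr h1, dX_add (diff_of A.openU hu hx) (diff_of A.openU hv hx), dT_congr h2,
    dT_sub (diff_of A.openU hv hx) (diff_of A.openU hu hx),
    dX_eq (diff_of A.openU hu hx), dX_eq (diff_of A.openU hv hx),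
    dT_eq (diff_of A.openU hu hx), dT_eq (diff_of A.openU hv hx),
    A919.du_dv_comm A.openU A.sms hx]
  ring

theorem smT (A : Asy M f L D q U w) : ContDiffOn ℝ ∞ (dT M.ratio) U :=
  contDiffOn_dir A.openU A.sms (1, 1)

theorem smX (A : Asy M f L D q U w) : ContDiffOn ℝ ∞ (dX M.ratio) U :=
  contDiffOn_dir A.openU A.sms (-1, 1)

theorem OdF (A : Asy M f L D q U w) (k : Fin n) : O (q + 1) (fun y => (jet M f L w y).dF k) := by
  unfold Jet.dF
  exact (A.FT.mul' (O_const (w k)) (by linarith)).add (A.FX.mul' (A.Or k) (by linarith))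

theorem Ods (A : Asy M f L D q U w) (k : Fin n) : O (q + 1) (fun y => (jet M f L w y).ds k) := by
  unfold Jet.ds
  exact (A.sT.mul' (O_const (w k)) (by linarith)).add (A.sX.mul' (A.Or k) (by linarith))

/-! expansions of the first derivatives -/

theorem xF (A : Asy M f L D q U w) (k : Fin n) : O (q + q + 1)
    (fun y => pd k (fun z => M.F (pL f L z)) y - (jet M f L w y).dF k) := by
  have h1 : O (q + q + 1) (fun y => dT M.F (pL f L y) * (pd k (hL f L) y - w k)) :=
    A.FT.mul' (A.hw k) (by linarith)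
  refine h1.congr ((A.pdG A.smF).mono fun y hy => ?_)
  rw [hy k]
  unfold Jet.dF jet
  ring

theorem xs (A : Asy M f L D q U w) (k : Fin n) : O (q + q + 1)
    (fun y => pd k (fun z => M.ratio (pL f L z)) y - (jet M f L w y).ds k) := by
  have h1 : O (q + q + 1) (fun y => dT M.ratio (pL f L y) * (pd k (hL f L) y - w k)) :=
    A.sT.mul' (A.hw k) (by linarith)
  refine h1.congr ((A.pdG A.sms).mono fun y hy => ?_)
  rw [hy k]
  unfold Jet.ds jet
  ring

theorem xT (A : Asy M f L D q U w) (k : Fin n) : O (q + q + 1 + 1)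
    (fun y => pd k (fun z => dT M.ratio (pL f L z)) y -
      ((jet M f L w y).bTT * w k + (jet M f L w y).bTX * (jet M f L w y).r k)) := by
  have h1 : O (q + q + 1 + 1) (fun y => dT (dT M.ratio) (pL f L y) * (pd k (hL f L) y - w k)) :=
    A.bTT.mul' (A.hw k) (by linarith)
  refine h1.congr ?_
  filter_upwards [A.pdG A.smT, A.XT_eq] with y hy h2
  rw [hy k, h2]
  unfold jet
  ring

theorem xX (A : Asy M f L D q U w) (k : Fin n) : O (q + q + 1 + 1)
    (fun y => pd k (fun z => dX M.ratio (pL f L z)) y -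
      ((jet M f L w y).bTX * w k + (jet M f L w y).bXX * (jet M f L w y).r k)) := by
  have h1 : O (q + q + 1 + 1) (fun y => dT (dX M.ratio) (pL f L y) * (pd k (hL f L) y - w k)) :=
    A.bTX.mul' (A.hw k) (by linarith)
  refine h1.congr ?_
  filter_upwards [A.pdG A.smX] with y hy
  rw [hy k]
  unfold jet
  ring

theorem OrQ (A : Asy M f L D q U w) (k i : Fin n) : O 1 (pd k (pd i (rL L))) := by
  have h1 : O 1 (fun y => (jet M f L w y).Q k i * ((jet M f L w y).ρ)⁻¹) :=
    (A.OQ k i).mul' A.Oρi (by linarith)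
  refine h1.congr ?_
  filter_upwards [far_gt 0] with y hy
  rw [pd_pd_rL A.hG (norm_pos_iff.mp hy)]
  unfold Jet.Q jet
  rw [div_eq_mul_inv]

/-- the derivatives of the metric -/
theorem xg (A : Asy M f L D q U w) (k i j : Fin n) : O (q + q + 1)
    (fun y => pd k (fun z => D.g z i j) y - (jet M f L w y).D k i j) := by
  have hq := A.q0
  have hrr : O 0 (fun y => pd i (rL L) y * pd j (rL L) y) :=
    (O_pd_rL L i).mul' (O_pd_rL L j) (by linarith)
  have hdrr : O 1 (fun y => pd k (pd i (rL L)) y * pd j (rL L) y +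
      pd i (rL L) y * pd k (pd j (rL L)) y) :=
    ((A.OrQ k i).mul' (O_pd_rL L j) (by linarith)).add
      ((O_pd_rL L i).mul' (A.OrQ k j) (by linarith))
  have hhh : O 0 (fun y => pd i (hL f L) y * pd j (hL f L) y) :=
    (A.dh0 i).mul' (A.dh0 j) (by linarith)
  have hhw : O q (fun y => pd i (hL f L) y * pd j (hL f L) y - w i * w j) := by
    have h1 : O q (fun y => (pd i (hL f L) y - w i) * pd j (hL f L) y +
        w i * (pd j (hL f L) y - w j)) :=
      ((A.hw i).mul' (A.dh0 j) (by linarith)).add ((A.hw j).const_mul _)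
    exact h1.congr (Eventually.of_forall fun y => by ring)
  have hsk : O (q + 1) (pd k (fun z => M.ratio (pL f L z))) := by
    have h1 := ((A.xs k).mono (by linarith : q + 1 ≤ q + q + 1)).add (A.Ods k)
    exact h1.congr (Eventually.of_forall fun y => by ring)
  have h1 : O (q + q + 1) (fun y =>
      (pd k (fun z => M.F (pL f L z)) y - (jet M f L w y).dF k) *
        (pd i (rL L) y * pd j (rL L) y) -
      (M.ratio (pL f L y) - 1) * (M.ratio (pL f L y) - 1) *
        (pd k (pd i (rL L)) y * pd j (rL L) y + pd i (rL L) y * pd k (pd j (rL L)) y) +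
      2 * ((pd k (fun z => M.ratio (pL f L z)) y - (jet M f L w y).ds k) +
        (M.ratio (pL f L y) - 1) * pd k (fun z => M.ratio (pL f L z)) y) *
        (G0 L i j - pd i (rL L) y * pd j (rL L) y) -
      ((pd k (fun z => M.F (pL f L z)) y - (jet M f L w y).dF k) *
          (pd i (hL f L) y * pd j (hL f L) y) +
        (jet M f L w y).dF k * (pd i (hL f L) y * pd j (hL f L) y - w i * w j)) -
      ((M.F (pL f L y) - 1) * (pd k (pd i (hL f L)) y * pd j (hL f L) y +
          pd i (hL f L) y * pd k (pd j (hL f L)) y) +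
        (pd k (pd i (hL f L)) y * (pd j (hL f L) y - w j) +
          (pd i (hL f L) y - w i) * pd k (pd j (hL f L)) y))) := by
    refine ((((((A.xF k).mul' hrr (by linarith)).sub
      ((A.s1.mul' A.s1 (r := q + q) (by linarith)).mul' hdrr (by linarith))).add
      ((((A.xs k).add (A.s1.mul' hsk (by linarith))).const_mul 2).mul'
        ((O_const (G0 L i j)).sub hrr) (by linarith))).sub
      (((A.xF k).mul' hhh (by linarith)).add ((A.OdF k).mul' hhw (by linarith)))).sub
      ((A.F1.mul' (((A.d2h k i).mul' (A.dh0 j) (r := q + 1) (by linarith)).add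
        ((A.dh0 i).mul' (A.d2h k j) (by linarith))) (by linarith)).add
      (((A.d2h k i).mul' (A.hw j) (by linarith)).add ((A.hw i).mul' (A.d2h k j) (by linarith)))))
  refine h1.congr ?_
  filter_upwards [far_nhds A.gform, A.diffF, A.diffG A.sms, far_gt 0] with y hg hdF hds h0
  have hy : y ≠ 0 := norm_pos_iff.mp h0
  have dri := diff_pd_rL L hy i
  have drj := diff_pd_rL L hy j
  have dhi : DifferentiableAt ℝ (pd i (hL f L)) y := (smooth_pd A.smh i).differentiable (by simp) y
  have dhj : DifferentiableAt ℝ (pd j (hL f L)) y := (smooth_pd A.smh j).differentiable (by simp) y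
  have e1 : (fun z => D.g z i j) =ᶠ[𝓝 y] fun z =>
      (fun z => M.F (pL f L z)) z * (fun z => pd i (rL L) z * pd j (rL L) z) z +
      (fun z => M.ratio (pL f L z) * M.ratio (pL f L z)) z *
        (fun z => G0 L i j - pd i (rL L) z * pd j (rL L) z) z -
      (fun z => M.F (pL f L z)) z * (fun z => pd i (hL f L) z * pd j (hL f L) z) z := by
    filter_upwards [hg] with z hz
    rw [hz i j]; ring
  have d1 : DifferentiableAt ℝ (fun z => pd i (rL L) z * pd j (rL L) z) y := dri.fun_mul drj
  have d2 : DifferentiableAt ℝ (fun z => M.ratio (pL f L z) * M.ratio (pL f L z)) y :=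
    hds.fun_mul hds
  have d3 : DifferentiableAt ℝ (fun z => G0 L i j - pd i (rL L) z * pd j (rL L) z) y :=
    (differentiableAt_const _).fun_sub d1
  have d4 : DifferentiableAt ℝ (fun z => pd i (hL f L) z * pd j (hL f L) z) y := dhi.fun_mul dhj
  rw [pd_congr e1, pd_sub ((hdF.fun_mul d1).fun_add (d2.fun_mul d3)) (hdF.fun_mul d4),
    pd_add (hdF.fun_mul d1) (d2.fun_mul d3), pd_mul hdF d1, pd_mul d2 d3, pd_mul hdF d4,
    pd_mul hds hds, pd_mul dri drj, pd_mul dhi dhj, pd_sub (differentiableAt_const _) d1,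
    pd_mul dri drj, pd_const]
  have hρ := (rL_pos (L := L) hy).ne'
  have hki := pd_pd_rL A.hG hy k i
  have hkj := pd_pd_rL A.hG hy k j
  rw [hki, hkj, A.hG i j]
  unfold Jet.D Jet.Q Jet.dF Jet.ds jet
  simp only
  field_simp
  ring

end Asy

end Vale.Agent.P366.T1.Boost
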