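import Vale.Agent.P366.T1.Boost.Expand
import Vale.Agent.P366.T1.Boost.Dec765

/-! Boosted slices: expansion of the second fundamental form and of the potentials. -/

set_option linter.all false

open MeasureTheory Metric Filter Topology Set Asymptotics
open scoped ContDiff ENNReal RealInnerProductSpace Matrix

noncomputable section
namespace Vale.Agent.P366.T1.Boost

open Vale.Agent.P366.T1.A919

variable {n : ℕ}

theorem rho_pL (f : E n → ℝ) (L : E n ≃L[ℝ] E n) (y : E n) : rho (pL f L y) = rL L y :=
  rho_uv f (L y)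

/-- the potential of the energy vector -/
def PA (M : Spacetime) (f : E n → ℝ) (L : E n ≃L[ℝ] E n) (w : Fin n → ℝ) (i j : Fin n)
    (y : E n) : ℝ :=
  rL L y * dT M.ratio (pL f L y) * (w j * pd i (rL L) y - w i * pd j (rL L) y) -
    ((pd j (hL f L) y - w j) * w i - (pd i (hL f L) y - w i) * w j) / 2

/-- the potential of the momentum -/
def YP (M : Spacetime) (f : E n → ℝ) (L : E n ≃L[ℝ] E n) (w : Fin n → ℝ) (j : Fin n)
    (y : E n) : ℝ :=
  gam w / 2 * (M.F (pL f L y) - 1) * w j +
    gam w * (rL L y * dT M.ratio (pL f L y) * pd j (rL L) y) -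
    gam w * (tauL w y * (rL L y)⁻¹ * muL M (pL f L y) * pd j (rL L) y) +
    gam w * (pd j (hL f L) y - w j) -
    gam w * (tauL w y * (dT M.ratio (pL f L y) * w j + dX M.ratio (pL f L y) * pd j (rL L) y)) -
    gam w * (M.ratio (pL f L y) - 1) * w j

namespace Asy

variable {M : Spacetime} {f : E n → ℝ} {L : E n ≃L[ℝ] E n} {D : Stmt.Exterior n} {q : ℝ}
  {U : Set (ℝ × ℝ)} {w : Fin n → ℝ}

theorem OD (A : Asy M f L D q U w) (k i j : Fin n) : O (q + 1) (fun y => (jet M f L w y).D k i j) := by
  have h1 : O (q + 1) (pd k (fun z => D.g z i j)) := by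
    have := A.dg i j k
    rwa [pd_eq_of_smooth (D.smooth i j).1] at this
  have h2 := h1.sub ((A.xg k i j).mono (by have := A.q0; linarith : q + 1 ≤ q + q + 1))
  exact h2.congr (Eventually.of_forall fun y => by ring)

/-- the Christoffel symbols -/
theorem xchr (A : Asy M f L D q U w) (k i j : Fin n) : O (q + q + 1) (fun y =>
    Stmt.chr D.g k i j y - 1 / 2 * ((jet M f L w y).D i j k + (jet M f L w y).D j i k -
      (jet M f L w y).D k i j)) := by
  have hq := A.q0
  have hg : ∀ a b c, O (q + 1) (pd c (fun z => D.g z a b)) := fun a b c => by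
    have := A.dg a b c
    rwa [pd_eq_of_smooth (D.smooth a b).1] at this
  have h1 : O (q + q + 1) (fun y => 1 / 2 * ∑ l, (Stmt.up D.g k l y - if k = l then 1 else 0) *
      (pd i (fun z => D.g z j l) y + pd j (fun z => D.g z i l) y - pd l (fun z => D.g z i j) y) +
      1 / 2 * ((pd i (fun z => D.g z j k) y - (jet M f L w y).D i j k) +
      (pd j (fun z => D.g z i k) y - (jet M f L w y).D j i k) -
      (pd k (fun z => D.g z i j) y - (jet M f L w y).D k i j))) := by
    refine (O.const_mul _ (O.sum fun l _ => (A.up1 k l).mul'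
      (((hg j l i).add (hg i l j)).sub (hg i j l)) (by linarith))).add
      ((((A.xg i j k).add (A.xg j i k)).sub (A.xg k i j)).const_mul _)
  refine h1.congr (Eventually.of_forall fun y => ?_)
  unfold Stmt.chr
  simp only [pd_eq_of_smooth (D.smooth _ _).1, sub_mul, ite_mul, one_mul, zero_mul,
    Finset.sum_sub_distrib, Finset.sum_ite_eq, Finset.mem_univ, if_true]
  ring

/-- the lapse tends to `γ` -/
theorem xlapse (A : Asy M f L D q U w) : O q (fun y => lapse M f (L y) - gam w) := by
  have hq := A.q0
  have hFh : ∀ i, O q (fun y => M.F (pL f L y) * pd i (hL f L) y - w i) := fun i => by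
    have h1 : O q (fun y => (M.F (pL f L y) - 1) * pd i (hL f L) y +
        (pd i (hL f L) y - w i)) := (A.F1.mul' (A.dh0 i) (by linarith)).add (A.hw i)
    exact h1.congr (Eventually.of_forall fun y => by ring)
  have hFb : ∀ i, O 0 (fun y => M.F (pL f L y) * pd i (hL f L) y) := fun i =>
    A.Fb.mul' (A.dh0 i) (by linarith)
  have h1 : O q (fun y => AnB.lap2 M f L D y - gam w ^ 2) := by
    have h2 : O q (fun y => (M.F (pL f L y) - 1) + ∑ i, ∑ j,
        ((Stmt.up D.g i j y - if i = j then 1 else 0) * (M.F (pL f L y) * pd i (hL f L) y) *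
          (M.F (pL f L y) * pd j (hL f L) y) +
        (if i = j then 1 else 0) * ((M.F (pL f L y) * pd i (hL f L) y - w i) *
          (M.F (pL f L y) * pd j (hL f L) y) +
          w i * (M.F (pL f L y) * pd j (hL f L) y - w j)))) := by
      refine A.F1.add (O.sum fun i _ => O.sum fun j _ => ?_)
      exact (((A.up1 i j).mul' (hFb i) (r := q) (by linarith)).mul' (hFb j) (by linarith)).add
        (O.const_mul _ (((hFh i).mul' (hFb j) (by linarith)).add ((hFh j).const_mul _)))
    refine h2.congr (Eventually.of_forall fun y => ?_)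
    rw [gam_sq]
    unfold AnB.lap2
    have e : ∀ i j, (Stmt.up D.g i j y - if i = j then 1 else 0) *
          (M.F (pL f L y) * pd i (hL f L) y) * (M.F (pL f L y) * pd j (hL f L) y) +
        (if i = j then 1 else 0) * ((M.F (pL f L y) * pd i (hL f L) y - w i) *
          (M.F (pL f L y) * pd j (hL f L) y) +
          w i * (M.F (pL f L y) * pd j (hL f L) y - w j)) =
        Stmt.up D.g i j y * (M.F (pL f L y) * pd i (hL f L) y) *
          (M.F (pL f L y) * pd j (hL f L) y) - (if i = j then w i * w j else 0) := by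
      intro i j; split_ifs <;> ring
    simp only [e, Finset.sum_sub_distrib, Finset.sum_ite_eq, Finset.mem_univ, if_true]
    ring
  refine O.of_abs (h1.const_mul (gam w)⁻¹) ?_
  filter_upwards [A.lapse_eq, A.lap2_pos] with y h3 h4
  have hγ := gam_pos w
  rw [h3]
  have h5 : (√(AnB.lap2 M f L D y) - gam w) * (√(AnB.lap2 M f L D y) + gam w) =
      AnB.lap2 M f L D y - gam w ^ 2 := by
    have := Real.mul_self_sqrt (by linarith : 0 ≤ AnB.lap2 M f L D y)
    nlinarith
  have h6 : gam w ≤ √(AnB.lap2 M f L D y) + gam w := by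
    have := Real.sqrt_nonneg (AnB.lap2 M f L D y); linarith
  rw [← h5, abs_mul, abs_mul, abs_of_pos (inv_pos.mpr hγ),
    abs_of_pos (by linarith : 0 < √(AnB.lap2 M f L D y) + gam w)]
  rw [← div_eq_inv_mul, le_div_iff₀ hγ]
  exact mul_le_mul_of_nonneg_left h6 (abs_nonneg _)

/-- the second fundamental form -/
theorem xK (A : Asy M f L D q U w) (i j : Fin n) : O (q + q + 1) (fun y =>
    gam w * D.K y i j - (jet M f L w y).kh i j) := by
  have hq := A.q0
  have hrr : O 0 (fun y => pd i (rL L) y * pd j (rL L) y) :=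
    (O_pd_rL L i).mul' (O_pd_rL L j) (by linarith)
  have hhw : O q (fun y => pd i (hL f L) y * pd j (hL f L) y - w i * w j) := by
    have h1 : O q (fun y => (pd i (hL f L) y - w i) * pd j (hL f L) y +
        w i * (pd j (hL f L) y - w j)) :=
      ((A.hw i).mul' (A.dh0 j) (by linarith)).add ((A.hw j).const_mul _)
    exact h1.congr (Eventually.of_forall fun y => by ring)
  have hFh : ∀ i, O q (fun y => M.F (pL f L y) * pd i (hL f L) y - w i) := fun i => by
    have h1 : O q (fun y => (M.F (pL f L y) - 1) * pd i (hL f L) y +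
        (pd i (hL f L) y - w i)) := (A.F1.mul' (A.dh0 i) (by linarith)).add (A.hw i)
    exact h1.congr (Eventually.of_forall fun y => by ring)
  have h1 : O (q + q + 1) (fun y =>
      -((lapse M f (L y) - gam w) * D.K y i j) +
      (M.F (pL f L y) - 1) * pd i (pd j (hL f L)) y +
      1 / 2 * (-(dT M.F (pL f L y) * (pd i (hL f L) y * pd j (hL f L) y - w i * w j)) +
        2 * ((M.ratio (pL f L y) - 1) * dT M.ratio (pL f L y) *
          (G0 L i j - pd i (rL L) y * pd j (rL L) y))) +
      1 / 2 * ((pd i (fun z => M.F (pL f L z)) y - (jet M f L w y).dF i) * pd j (hL f L) y +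
        (jet M f L w y).dF i * (pd j (hL f L) y - w j) +
        ((pd j (fun z => M.F (pL f L z)) y - (jet M f L w y).dF j) * pd i (hL f L) y +
        (jet M f L w y).dF j * (pd i (hL f L) y - w i))) -
      1 / 2 * ∑ k, ((Stmt.chr D.g k i j y + Stmt.chr D.g k j i y) *
        (M.F (pL f L y) * pd k (hL f L) y - w k) +
        ((Stmt.chr D.g k i j y - 1 / 2 * ((jet M f L w y).D i j k + (jet M f L w y).D j i k -
          (jet M f L w y).D k i j)) +
        (Stmt.chr D.g k j i y - 1 / 2 * ((jet M f L w y).D j i k + (jet M f L w y).D i j k -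
          (jet M f L w y).D k j i))) * w k)) := by
    refine ((((A.xlapse.mul' (A.K1 i j) (by linarith)).neg.add
      (A.F1.mul' (A.d2h i j) (by linarith))).add (O.const_mul _
        ((A.FT.mul' hhw (by linarith)).neg.add (O.const_mul _
          ((A.s1.mul' A.sT (r := q + q + 1) (by linarith)).mul' ((O_const _).sub hrr)
            (by linarith)))))).add (O.const_mul _
        ((((A.xF i).mul' (A.dh0 j) (by linarith)).add ((A.OdF i).mul' (A.hw j) (by linarith))).add
        (((A.xF j).mul' (A.dh0 i) (by linarith)).add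
          ((A.OdF j).mul' (A.hw i) (by linarith)))))).sub
      (O.const_mul _ (O.sum fun k _ => (((A.chr1 k i j).add (A.chr1 k j i)).mul' (hFh k)
        (by linarith)).add (((A.xchr k i j).add (A.xchr k j i)).mul' (O_const (w k))
          (by linarith))))
  refine h1.congr ?_
  filter_upwards [A.Kform, far_gt 0] with y hK h0
  have hy : y ≠ 0 := norm_pos_iff.mp h0
  have h2 := hK i j
  have hDs : ∀ k, (jet M f L w y).D k j i = (jet M f L w y).D k i j := by
    intro k
    unfold Jet.D
    rw [Jet.Q_symm j i]; ring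
  have e1 : ∀ k, (Stmt.chr D.g k i j y + Stmt.chr D.g k j i y) *
        (M.F (pL f L y) * pd k (hL f L) y - w k) +
        ((Stmt.chr D.g k i j y - 1 / 2 * ((jet M f L w y).D i j k + (jet M f L w y).D j i k -
          (jet M f L w y).D k i j)) +
        (Stmt.chr D.g k j i y - 1 / 2 * ((jet M f L w y).D j i k + (jet M f L w y).D i j k -
          (jet M f L w y).D k j i))) * w k =
      (Stmt.chr D.g k i j y + Stmt.chr D.g k j i y) * (M.F (pL f L y) * pd k (hL f L) y) -
      w k * ((jet M f L w y).D i j k + (jet M f L w y).D j i k - (jet M f L w y).D k i j) := by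
    intro k; rw [hDs k]; ring
  simp only [e1, Finset.sum_sub_distrib]
  unfold Jet.kh
  have e2 : (jet M f L w y).w = w := rfl
  have e3 : (jet M f L w y).φ i j = pd i (pd j (hL f L)) y := rfl
  have e4 : (jet M f L w y).r = fun i => pd i (rL L) y := rfl
  have e5 : (jet M f L w y).aT = dT M.F (pL f L y) := rfl
  have e6 : (jet M f L w y).bT = dT M.ratio (pL f L y) := rfl
  rw [e2, e3, e4, e5, e6]
  unfold GtL at h2
  have e7 : (jet M f L w y).Q i j = G0 L i j - pd i (rL L) y * pd j (rL L) y := by
    rw [A.hG i j]; rfl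
  rw [e7]
  simp only
  linarith

/-- the momentum tensor -/
theorem momT_near (A : Asy M f L D q U w) (i j : Fin n) : O (q + q + 1)
    (fun y => Stmt.momT D.g D.K y i j - ((jet M f L w y).kh i j -
      (if i = j then 1 else 0) * ∑ k, (jet M f L w y).kh k k) / (jet M f L w y).γ) := by
  have hq := A.q0
  have hγ := (gam_pos w).ne'
  have hgb : O 0 (fun x => D.g x i j) := (A.g1 i j).bdd hq.le
  have hT : O (q + 1) (fun x => ∑ k, D.K x k k) := O.sum fun k _ => A.K1 k k
  have htr : O (q + q + 1) (fun x => Stmt.tr D.g D.K x - ∑ k, D.K x k k) := by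
    have h1 : O (q + q + 1) (fun x => ∑ i, ∑ j,
        (Stmt.up D.g i j x - if i = j then 1 else 0) * D.K x i j) :=
      O.sum fun i _ => O.sum fun j _ => (A.up1 i j).mul' (A.K1 i j) (by linarith)
    refine h1.congr (Eventually.of_forall fun x => ?_)
    unfold Stmt.tr
    simp only [sub_mul, ite_mul, one_mul, zero_mul, Finset.sum_sub_distrib, Finset.sum_ite_eq,
      Finset.mem_univ, if_true]
  have h1 : O (q + q + 1) (fun y => -((Stmt.tr D.g D.K y - ∑ k, D.K y k k) * D.g y i j) -
      (∑ k, D.K y k k) * (D.g y i j - if i = j then 1 else 0) +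
      (gam w)⁻¹ * ((gam w * D.K y i j - (jet M f L w y).kh i j) -
        (if i = j then 1 else 0) * ∑ k, (gam w * D.K y k k - (jet M f L w y).kh k k))) := by
    refine ((htr.mul' hgb (by linarith)).neg.sub (hT.mul' (A.g1 i j) (by linarith))).add
      (O.const_mul _ ((A.xK i j).sub (O.const_mul _ (O.sum fun k _ => A.xK k k))))
  refine h1.congr (Eventually.of_forall fun y => ?_)
  have e1 : (jet M f L w y).γ = gam w := rfl
  rw [e1]
  unfold Stmt.momT
  simp only [Finset.sum_sub_distrib, ← Finset.mul_sum]
  field_simp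
  ring

/-! the potentials -/

theorem xPA (A : Asy M f L D q U w) (k i j : Fin n) : O (q + q + 1)
    (fun y => pd k (PA M f L w i j) y - (jet M f L w y).dP k i j) := by
  have hq := A.q0
  have h1 : O (q + q + 1) (fun y => rL L y * (pd k (fun z => dT M.ratio (pL f L z)) y -
      ((jet M f L w y).bTT * w k + (jet M f L w y).bTX * (jet M f L w y).r k)) *
      (w j * pd i (rL L) y - w i * pd j (rL L) y)) := by
    refine (A.Oρ.mul' (A.xT k) (r := q + q + 1) (by linarith)).mul'
      (((O_pd_rL L i).const_mul _).sub ((O_pd_rL L j).const_mul _)) (by linarith)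
  refine h1.congr ?_
  filter_upwards [A.diffG A.smT, far_gt 0] with y hdT h0
  have hy : y ≠ 0 := norm_pos_iff.mp h0
  have hρ := (rL_pos (L := L) hy).ne'
  have dr := diff_rL L hy
  have dri := diff_pd_rL L hy i
  have drj := diff_pd_rL L hy j
  have dhi : DifferentiableAt ℝ (pd i (hL f L)) y := (smooth_pd A.smh i).differentiable (by simp) y
  have dhj : DifferentiableAt ℝ (pd j (hL f L)) y := (smooth_pd A.smh j).differentiable (by simp) y
  have e : PA M f L w i j = fun y => ((fun y => rL L y * (fun y => dT M.ratio (pL f L y)) y) y *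
      (fun y => pd i (rL L) y * w j - pd j (rL L) y * w i) y) -
      (fun y => (fun y => pd j (hL f L) y - w j) y * (w i / 2) -
        (fun y => pd i (hL f L) y - w i) y * (w j / 2)) y := by
    funext y; unfold PA; ring
  have d1 : DifferentiableAt ℝ (fun y => rL L y * (fun y => dT M.ratio (pL f L y)) y) y :=
    dr.fun_mul hdT
  have d2 : DifferentiableAt ℝ (fun y => pd i (rL L) y * w j - pd j (rL L) y * w i) y :=
    (dri.mul_const _).fun_sub (drj.mul_const _)
  have d3 : DifferentiableAt ℝ (fun y => pd j (hL f L) y - w j) y := dhj.sub_const _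
  have d4 : DifferentiableAt ℝ (fun y => pd i (hL f L) y - w i) y := dhi.sub_const _
  rw [e, pd_sub (d1.fun_mul d2) ((d3.mul_const _).fun_sub (d4.mul_const _)), pd_mul d1 d2,
    pd_mul dr hdT, pd_sub (dri.mul_const _) (drj.mul_const _), pd_mul_const dri,
    pd_mul_const drj, pd_sub (d3.mul_const _) (d4.mul_const _), pd_mul_const d3,
    pd_mul_const d4, pd_sub dhj (differentiableAt_const _), pd_sub dhi (differentiableAt_const _),
    pd_const, pd_const, pd_pd_rL A.hG hy k i, pd_pd_rL A.hG hy k j]
  unfold Jet.dP Jet.Q jet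
  simp only
  field_simp
  ring

theorem xmu (A : Asy M f L D q U w) (k : Fin n) : O (q + q + 1)
    (fun y => pd k (fun z => muL M (pL f L z)) y - (jet M f L w y).dmu k) := by
  have hq := A.q0
  have h1 : O (q + q + 1) (fun y => 1 / 2 * ((pd k (fun z => M.F (pL f L z)) y -
      (jet M f L w y).dF k) - 2 * (pd k (fun z => M.ratio (pL f L z)) y -
      (jet M f L w y).ds k) - 2 * (rL L y * (pd k (fun z => dX M.ratio (pL f L z)) y -
      ((jet M f L w y).bTX * w k + (jet M f L w y).bXX * (jet M f L w y).r k))))) := by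
    refine O.const_mul _ (((A.xF k).sub ((A.xs k).const_mul _)).sub (O.const_mul _
      (A.Oρ.mul' (A.xX k) (by linarith))))
  refine h1.congr ?_
  filter_upwards [A.diffF, A.diffG A.sms, A.diffG A.smX, far_gt 0] with y dF ds dXr h0
  have hy : y ≠ 0 := norm_pos_iff.mp h0
  have dr := diff_rL L hy
  have e : (fun z => muL M (pL f L z)) = fun z => ((fun z => M.F (pL f L z)) z * (1 / 2) -
      (fun z => M.ratio (pL f L z)) z * 1) -
      (fun z => rL L z * (fun z => dX M.ratio (pL f L z)) z - 1 / 2) z := by
    funext z; unfold muL; rw [rho_pL]; ring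
  have d1 : DifferentiableAt ℝ (fun z => rL L z * (fun z => dX M.ratio (pL f L z)) z) y :=
    dr.fun_mul dXr
  rw [e, pd_sub ((dF.mul_const _).fun_sub (ds.mul_const _)) (d1.sub_const _),
    pd_sub (dF.mul_const _) (ds.mul_const _), pd_mul_const dF, pd_mul_const ds,
    pd_sub d1 (differentiableAt_const _), pd_const, pd_mul dr dXr]
  unfold Jet.dmu jet
  simp only
  ring

theorem xYP (A : Asy M f L D q U w) (i j : Fin n) : O (q + q + 1)
    (fun y => pd i (YP M f L w j) y - (jet M f L w y).dY i j) := by
  have hq := A.q0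
  have h1 : O (q + q + 1) (fun y =>
      gam w / 2 * w j * (pd i (fun z => M.F (pL f L z)) y - (jet M f L w y).dF i) +
      gam w * (rL L y * (pd i (fun z => dT M.ratio (pL f L z)) y -
        ((jet M f L w y).bTT * w i + (jet M f L w y).bTX * (jet M f L w y).r i)) *
        pd j (rL L) y) -
      gam w * (tauL w y * (rL L y)⁻¹ * (pd i (fun z => muL M (pL f L z)) y -
        (jet M f L w y).dmu i) * pd j (rL L) y) -
      gam w * (tauL w y * ((pd i (fun z => dT M.ratio (pL f L z)) y -
        ((jet M f L w y).bTT * w i + (jet M f L w y).bTX * (jet M f L w y).r i)) * w j +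
        (pd i (fun z => dX M.ratio (pL f L z)) y -
        ((jet M f L w y).bTX * w i + (jet M f L w y).bXX * (jet M f L w y).r i)) *
          pd j (rL L) y)) -
      gam w * w j * (pd i (fun z => M.ratio (pL f L z)) y - (jet M f L w y).ds i)) := by
    refine (((((A.xF i).const_mul _).add (O.const_mul _
      ((A.Oρ.mul' (A.xT i) (r := q + q + 1) (by linarith)).mul' (O_pd_rL L j)
        (by linarith)))).sub (O.const_mul _
      ((((O_tau w).mul' (O_rL_inv L) (r := 0) (by linarith)).mul' (A.xmu i) (r := q + q + 1)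
        (by linarith)).mul' (O_pd_rL L j) (by linarith)))).sub (O.const_mul _
      ((O_tau w).mul' (q := q + q + 1 + 1) (((A.xT i).mul' (O_const (w j)) (by linarith)).add
        ((A.xX i).mul' (O_pd_rL L j) (by linarith))) (by linarith)))).sub
      ((A.xs i).const_mul _)
  refine h1.congr ?_
  filter_upwards [A.diffF, A.diffG A.sms, A.diffG A.smX, A.diffG A.smT, far_gt 0]
    with y dF ds dXr dTr h0
  have hy : y ≠ 0 := norm_pos_iff.mp h0
  have hρ := (rL_pos (L := L) hy).ne'
  have dr := diff_rL L hy
  have drj := diff_pd_rL L hy j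
  have dhj : DifferentiableAt ℝ (pd j (hL f L)) y := (smooth_pd A.smh j).differentiable (by simp) y
  have dtau := diff_tau w y
  have dri : DifferentiableAt ℝ (fun z => (rL L z)⁻¹) y := dr.inv hρ
  have dmu : DifferentiableAt ℝ (fun z => muL M (pL f L z)) y := by
    have e : (fun z => muL M (pL f L z)) = fun z => ((fun z => M.F (pL f L z)) z * (1 / 2) -
      (fun z => M.ratio (pL f L z)) z * 1) -
      (fun z => rL L z * (fun z => dX M.ratio (pL f L z)) z - 1 / 2) z := by
      funext z; unfold muL; rw [rho_pL]; ring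
    rw [e]
    exact ((dF.mul_const _).fun_sub (ds.mul_const _)).fun_sub ((dr.fun_mul dXr).sub_const _)
  have e : YP M f L w j = fun y =>
      ((((((fun y => M.F (pL f L y)) y * (gam w / 2 * w j) - gam w / 2 * w j) +
      (fun y => (fun y => rL L y * (fun y => dT M.ratio (pL f L y)) y) y *
        (fun y => pd j (rL L) y) y) y * gam w) -
      (fun y => (fun y => (fun y => tauL w y * (fun y => (rL L y)⁻¹) y) y *
        (fun y => muL M (pL f L y)) y) y * (fun y => pd j (rL L) y) y) y * gam w) +
      ((fun y => pd j (hL f L) y) y * gam w - gam w * w j)) -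
      (fun y => tauL w y * (fun y => (fun y => dT M.ratio (pL f L y)) y * w j +
        (fun y => (fun y => dX M.ratio (pL f L y)) y * (fun y => pd j (rL L) y) y) y) y) y *
          gam w) -
      ((fun y => M.ratio (pL f L y)) y * (gam w * w j) - gam w * w j) := by
    funext y; unfold YP; ring
  have a1 : DifferentiableAt ℝ (fun y => (fun y => M.F (pL f L y)) y * (gam w / 2 * w j) -
      gam w / 2 * w j) y := (dF.mul_const _).sub_const _
  have a2 : DifferentiableAt ℝ (fun y => rL L y * (fun y => dT M.ratio (pL f L y)) y) y :=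
    dr.fun_mul dTr
  have a3 : DifferentiableAt ℝ (fun y => (fun y => rL L y * (fun y => dT M.ratio (pL f L y)) y) y *
        (fun y => pd j (rL L) y) y) y := a2.fun_mul drj
  have a4 : DifferentiableAt ℝ (fun y => tauL w y * (fun y => (rL L y)⁻¹) y) y :=
    dtau.fun_mul dri
  have a5 : DifferentiableAt ℝ (fun y => (fun y => tauL w y * (fun y => (rL L y)⁻¹) y) y *
        (fun y => muL M (pL f L y)) y) y := a4.fun_mul dmu
  have a6 : DifferentiableAt ℝ (fun y => (fun y => (fun y => tauL w y *
      (fun y => (rL L y)⁻¹) y) y * (fun y => muL M (pL f L y)) y) y *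
      (fun y => pd j (rL L) y) y) y := a5.fun_mul drj
  have a7 : DifferentiableAt ℝ (fun y => (fun y => pd j (hL f L) y) y * gam w - gam w * w j) y :=
    (dhj.mul_const _).sub_const _
  have a8 : DifferentiableAt ℝ (fun y => (fun y => dX M.ratio (pL f L y)) y *
      (fun y => pd j (rL L) y) y) y := dXr.fun_mul drj
  have a9 : DifferentiableAt ℝ (fun y => (fun y => dT M.ratio (pL f L y)) y * w j +
        (fun y => (fun y => dX M.ratio (pL f L y)) y * (fun y => pd j (rL L) y) y) y) y :=
    (dTr.mul_const _).fun_add a8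
  have a10 : DifferentiableAt ℝ (fun y => tauL w y * (fun y => (fun y => dT M.ratio (pL f L y)) y *
      w j + (fun y => (fun y => dX M.ratio (pL f L y)) y * (fun y => pd j (rL L) y) y) y) y) y :=
    dtau.fun_mul a9
  have a11 : DifferentiableAt ℝ (fun y => (fun y => M.ratio (pL f L y)) y * (gam w * w j) -
      gam w * w j) y := (ds.mul_const _).sub_const _
  have b1 := a1.fun_add (a3.mul_const (gam w))
  have b2 := b1.fun_sub (a6.mul_const (gam w))
  have b3 := b2.fun_add a7
  have b4 := b3.fun_sub (a10.mul_const (gam w))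
  rw [e, pd_sub b4 a11, pd_sub b3 (a10.mul_const (gam w)), pd_add b2 a7,
    pd_sub b1 (a6.mul_const (gam w)), pd_add a1 (a3.mul_const (gam w)),
    pd_sub (dF.mul_const _) (differentiableAt_const _), pd_mul_const dF, pd_const,
    pd_mul_const a3, pd_mul a2 drj, pd_mul dr dTr, pd_mul_const a6, pd_mul a5 drj,
    pd_mul a4 dmu, pd_mul dtau dri, pd_inv dr hρ,
    pd_sub (dhj.mul_const _) (differentiableAt_const _), pd_mul_const dhj, pd_const,
    pd_mul_const a10, pd_mul dtau a9, pd_add (dTr.mul_const _) a8, pd_mul_const dTr,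
    pd_mul dXr drj, pd_sub (ds.mul_const _) (differentiableAt_const _), pd_mul_const ds,
    pd_const, pd_tau, pd_pd_rL A.hG hy i j]
  have hmu : (jet M f L w y).mu = muL M (pL f L y) := by
    unfold Jet.mu jet muL; rw [rho_pL]; simp only; ring
  unfold Jet.dY
  rw [hmu]
  generalize (jet M f L w y).dmu i = m2
  beta_reduce
  generalize pd i (fun z => muL M (pL f L z)) y = m1
  generalize muL M (pL f L y) = m0
  unfold Jet.Q Jet.dF Jet.ds jet
  simp only
  field_simp
  ring

end Asy

end Vale.Agent.P366.T1.Boost
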