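import Vale.Agent.P366.T1.Boost.Expand2
import Vale.Agent.P366.T1.Boost.Curl370

/-! Boosted slices: the fluxes of the energy and of the momentum. -/

set_option linter.all false

open MeasureTheory Metric Filter Topology Set Asymptotics
open scoped ContDiff ENNReal RealInnerProductSpace Matrix

noncomputable section
namespace Vale.Agent.P366.T1.Boost

open Vale.Agent.P366.T1.A919

variable {n : ℕ}

/-- the divergence part of the energy density -/
def cE (M : Spacetime) (f : E n → ℝ) (L : E n ≃L[ℝ] E n) (w : Fin n → ℝ) (y : E n) : ℝ :=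
  ∑ i, (∑ j, pd j (PA M f L w i j) y) * (y i / ‖y‖)

/-- the divergence part of the momentum density -/
def cP (M : Spacetime) (f : E n → ℝ) (L : E n ≃L[ℝ] E n) (w : Fin n → ℝ) (i : Fin n)
    (y : E n) : ℝ :=
  ∑ j, (pd i (YP M f L w j) y - (if i = j then 1 else 0) * ∑ k, pd k (YP M f L w k) y) *
    (y j / ‖y‖)

theorem cont_up (D : Stmt.Exterior n) {x : E n} (hx : (Stmt.mat D.g x).det ≠ 0) (i j : Fin n) :
    ContinuousAt (fun y => Stmt.up D.g i j y) x := by
  have hc : Continuous (fun y => Stmt.mat D.g y) := by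
    refine continuous_matrix fun i j => ?_
    exact (D.smooth i j).1.continuous
  have h1 : (fun y => Stmt.up D.g i j y) = fun y => ((Stmt.mat D.g y).det)⁻¹ *
      (Stmt.mat D.g y).adjugate i j := by
    funext y
    show ((Stmt.mat D.g y)⁻¹) i j = _
    rw [Matrix.inv_def, Ring.inverse_eq_inv']
    rfl
  rw [h1]
  have h2 : Continuous (fun y => (Stmt.mat D.g y).adjugate i j) :=
    (hc.matrix_adjugate).matrix_elem i j
  exact (hc.matrix_det.continuousAt.inv₀ hx).mul h2.continuousAt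

theorem cont_hP (D : Stmt.Exterior n) {R0 : ℝ} (hR0 : 0 ≤ R0)
    (hd : ∀ x : E n, R0 < ‖x‖ → (Stmt.mat D.g x).det ≠ 0) (i : Fin n) :
    ContinuousOn (An.hP D i) {x : E n | R0 < ‖x‖} := by
  intro x hx
  have hx0 : x ≠ 0 := norm_pos_iff.mp (lt_of_le_of_lt hR0 hx)
  refine ContinuousAt.continuousWithinAt ?_
  unfold An.hP Stmt.momT Stmt.tr
  refine tendsto_finsetSum _ fun j _ => ?_
  have hK : ∀ i j, ContinuousAt (fun y => D.K y i j) x := fun i j =>
    (D.smooth i j).2.continuous.continuousAt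
  have hg : ∀ i j, ContinuousAt (fun y => D.g y i j) x := fun i j =>
    (D.smooth i j).1.continuous.continuousAt
  have ht : ContinuousAt (fun y => ∑ i, ∑ j, Stmt.up D.g i j y * D.K y i j) x :=
    tendsto_finsetSum _ fun a _ => tendsto_finsetSum _ fun b _ =>
      (cont_up D (hd x hx) a b).mul (hK a b)
  exact ((hK i j).sub (ht.mul (hg i j))).mul
    (contDiffAt_Nc (m := 1) j hx0).continuousAt

theorem cont_hE (D : Stmt.Exterior n) {R0 : ℝ} (hR0 : 0 ≤ R0) :
    ContinuousOn (hE D) {y : E n | R0 < ‖y‖} := by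
  unfold hE
  refine continuousOn_finsetSum _ fun i _ => ContinuousOn.mul ?_ ?_
  · refine ContinuousOn.div_const (continuousOn_finsetSum _ fun j _ => ?_) 2
    have hc : ∀ a b c, Continuous (pd a (fun y => D.g y b c)) := fun a b c =>
      continuous_iff_continuousAt.mpr fun y =>
        (Bridge.pd_smooth (D.smooth b c).1.contDiffAt a).continuousAt
    exact ((hc _ _ _).sub (hc _ _ _)).continuousOn
  · intro y hy
    exact (contDiffAt_Nc (m := 1) i (norm_pos_iff.mp (lt_of_le_of_lt hR0 hy))).continuousAt.continuousWithinAt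

namespace Asy

variable {M : Spacetime} {f : E n → ℝ} {L : E n ≃L[ℝ] E n} {D : Stmt.Exterior n} {q : ℝ}
  {U : Set (ℝ × ℝ)} {w : Fin n → ℝ}

theorem dens_E (A : Asy M f L D q U w) : O (q + q + 1) (fun y =>
    hE D y - (∑ i, (jet M f L w y).eb i * Nc i y + cE M f L w y)) := by
  have hq := A.q0
  have h1 : O (q + q + 1) (fun y => ∑ i, ((∑ j, ((pd j (fun z => D.g z i j) y -
      (jet M f L w y).D j i j) - (pd i (fun z => D.g z j j) y - (jet M f L w y).D i j j))) / 2 -
      ∑ j, (pd j (PA M f L w i j) y - (jet M f L w y).dP j i j)) * Nc i y) := by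
    refine O.sum fun i _ => ?_
    have h2 : O (q + q + 1) (fun y => ∑ j, ((pd j (fun z => D.g z i j) y -
        (jet M f L w y).D j i j) - (pd i (fun z => D.g z j j) y - (jet M f L w y).D i j j))) :=
      O.sum fun j _ => (A.xg j i j).sub (A.xg i j j)
    have h3 : O (q + q + 1) (fun y => ∑ j, (pd j (PA M f L w i j) y -
        (jet M f L w y).dP j i j)) := O.sum fun j _ => A.xPA j i j
    have h4 := ((h2.const_mul (1 / 2)).sub h3).mul' (O_Nc i) (r := q + q + 1) (by linarith)
    exact h4.congr (Eventually.of_forall fun y => by ring)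
  refine h1.congr ?_
  filter_upwards [far_gt 0] with y h0
  have hy : y ≠ 0 := norm_pos_iff.mp h0
  unfold hE cE
  rw [← Finset.sum_add_distrib, ← Finset.sum_sub_distrib]
  refine Finset.sum_congr rfl fun i _ => ?_
  have h5 := Jet.alg_e (A.ok hy) i
  have e3 : y i / ‖y‖ = Nc i y := rfl
  rw [e3]
  simp only [Finset.sum_sub_distrib] at h5 ⊢
  linear_combination (-Nc i y) * h5

theorem dens_P (A : Asy M f L D q U w) (i : Fin n) : O (q + q + 1) (fun y =>
    An.hP D i y - (∑ j, (jet M f L w y).pb i j * Nc j y + cP M f L w i y)) := by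
  have hq := A.q0
  have h1 : O (q + q + 1) (fun y => ∑ j, ((Stmt.momT D.g D.K y i j - ((jet M f L w y).kh i j -
      (if i = j then 1 else 0) * ∑ k, (jet M f L w y).kh k k) / (jet M f L w y).γ) -
      ((pd i (YP M f L w j) y - (jet M f L w y).dY i j) - (if i = j then 1 else 0) *
        ∑ k, (pd k (YP M f L w k) y - (jet M f L w y).dY k k))) * Nc j y) := by
    refine O.sum fun j _ => ?_
    have h2 : O (q + q + 1) (fun y => ∑ k, (pd k (YP M f L w k) y - (jet M f L w y).dY k k)) :=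
      O.sum fun k _ => A.xYP k k
    exact ((A.momT_near i j).sub ((A.xYP i j).sub (h2.const_mul _))).mul' (O_Nc j) (by linarith)
  refine h1.congr ?_
  filter_upwards [far_gt 0] with y h0
  have hy : y ≠ 0 := norm_pos_iff.mp h0
  unfold An.hP cP
  rw [← Finset.sum_add_distrib, ← Finset.sum_sub_distrib]
  refine Finset.sum_congr rfl fun j _ => ?_
  have h5 := Jet.alg_p (A.ok hy) i j
  have e3 : y j / ‖y‖ = Nc j y := rfl
  rw [e3, h5]
  simp only [Finset.sum_sub_distrib]
  ring

theorem smooth_comp (A : Asy M f L D q U w) {G : ℝ × ℝ → ℝ} (hG : ContDiffOn ℝ ∞ G U) {y : E n}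
    (hy : y ≠ 0) (hm : pL f L y ∈ U) : ContDiffAt ℝ ∞ (fun z => G (pL f L z)) y := by
  have h0 : ContDiffAt ℝ ∞ (hL f L) y := A.smh.contDiffAt
  have h1 : ContDiffAt ℝ ∞ (pL f L) y :=
    (h0.sub (smooth_rL L hy)).prodMk (h0.add (smooth_rL L hy))
  exact (hG.contDiffAt (A.openU.mem_nhds hm)).comp y h1

theorem smooth_PA (A : Asy M f L D q U w) {y : E n} (hy : y ≠ 0) (hm : pL f L y ∈ U)
    (i j : Fin n) : ContDiffAt ℝ ∞ (PA M f L w i j) y := by
  unfold PA
  have h1 := smooth_rL L hy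
  have h2 := A.smooth_comp A.smT hy hm
  have h3 : ∀ i, ContDiffAt ℝ ∞ (pd i (rL L)) y := fun i => Bridge.pd_smooth (smooth_rL L hy) i
  have h4 : ∀ i, ContDiffAt ℝ ∞ (pd i (hL f L)) y := fun i => (smooth_pd A.smh i).contDiffAt
  exact ((h1.mul h2).mul ((contDiffAt_const.mul (h3 i)).sub (contDiffAt_const.mul (h3 j)))).sub
    (((((h4 j).sub contDiffAt_const).mul contDiffAt_const).sub
      (((h4 i).sub contDiffAt_const).mul contDiffAt_const)).div_const 2)

theorem smooth_tau (w : Fin n → ℝ) (y : E n) : ContDiffAt ℝ ∞ (tauL w) y := by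
  unfold tauL
  exact ContDiffAt.sum fun i _ => contDiffAt_const.mul
    (EuclideanSpace.proj (𝕜 := ℝ) i).contDiff.contDiffAt

theorem smooth_mu (A : Asy M f L D q U w) {y : E n} (hy : y ≠ 0) (hm : pL f L y ∈ U) :
    ContDiffAt ℝ ∞ (fun z => muL M (pL f L z)) y := by
  unfold muL
  simp only [rho_pL]
  exact (((A.smooth_comp A.smF hy hm).sub contDiffAt_const).sub (contDiffAt_const.mul
    ((A.smooth_comp A.sms hy hm).sub contDiffAt_const))).sub (contDiffAt_const.mul
      ((smooth_rL L hy).mul (A.smooth_comp A.smX hy hm))) |>.div_const 2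

theorem smooth_YP (A : Asy M f L D q U w) {y : E n} (hy : y ≠ 0) (hm : pL f L y ∈ U)
    (j : Fin n) : ContDiffAt ℝ ∞ (YP M f L w j) y := by
  unfold YP
  have h1 := smooth_rL L hy
  have h2 := A.smooth_comp A.smT hy hm
  have h5 := A.smooth_comp A.smX hy hm
  have h6 := A.smooth_comp A.smF hy hm
  have h7 := A.smooth_comp A.sms hy hm
  have h3 : ContDiffAt ℝ ∞ (pd j (rL L)) y := Bridge.pd_smooth (smooth_rL L hy) j
  have h4 : ContDiffAt ℝ ∞ (pd j (hL f L)) y := (smooth_pd A.smh j).contDiffAt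
  have h8 := smooth_tau w y
  have h9 := A.smooth_mu hy hm
  exact (((((((contDiffAt_const.mul (h6.sub contDiffAt_const)).mul contDiffAt_const).add
    (contDiffAt_const.mul ((h1.mul h2).mul h3))).sub
    (contDiffAt_const.mul (((h8.mul (h1.inv (rL_pos hy).ne')).mul h9).mul h3))).add
    (contDiffAt_const.mul (h4.sub contDiffAt_const))).sub
    (contDiffAt_const.mul (h8.mul ((h2.mul contDiffAt_const).add (h5.mul h3))))).sub
    ((contDiffAt_const.mul (h7.sub contDiffAt_const)).mul contDiffAt_const))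

theorem cont_pd {u : E n → ℝ} {R0 : ℝ} (hu : ∀ x : E n, R0 < ‖x‖ → ContDiffAt ℝ ∞ u x)
    (i : Fin n) : ContinuousOn (pd i u) {x : E n | R0 < ‖x‖} := fun x hx =>
  (Bridge.pd_smooth (hu x hx) i).continuousAt.continuousWithinAt

/-- the densities without the divergence parts -/
theorem fluxes (hn : 3 ≤ n) (A : Asy M f L D q U w) : ∃ (R0 : ℝ) (tE : E n → ℝ)
    (tP : Fin n → E n → ℝ), 0 ≤ R0 ∧ ContinuousOn tE {x : E n | R0 < ‖x‖} ∧
    (∀ i, ContinuousOn (tP i) {x : E n | R0 < ‖x‖}) ∧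
    (∀ R, R0 < R → sphI tE R = sphI (hE D) R ∧ ∀ i, sphI (tP i) R = sphI (An.hP D i) R) ∧
    O (q + q + 1) (fun y => tE y - ∑ i, (jet M f L w y).eb i * Nc i y) ∧
    ∀ i, O (q + q + 1) (fun y => tP i y - ∑ j, (jet M f L w y).pb i j * Nc j y) := by
  obtain ⟨R1, hR1⟩ := far_iff.mp A.mem
  obtain ⟨R2, hR2⟩ := far_iff.mp A.det
  set R0 := max (max R1 R2) 0 with hR0
  have h0 : 0 ≤ R0 := le_max_right _ _
  have h1 : ∀ x : E n, R0 < ‖x‖ → x ≠ 0 ∧ pL f L x ∈ U ∧ (Stmt.mat D.g x).det ≠ 0 := by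
    intro x hx
    refine ⟨norm_pos_iff.mp (lt_of_le_of_lt h0 hx), hR1 x (lt_of_le_of_lt ?_ hx),
      hR2 x (lt_of_le_of_lt ?_ hx)⟩
    · exact (le_max_left _ _).trans (le_max_left _ _)
    · exact (le_max_right _ _).trans (le_max_left _ _)
  have hPA : ∀ i j, ContDiffOn ℝ ∞ (PA M f L w i j) {x : E n | R0 < ‖x‖} := fun i j x hx =>
    (A.smooth_PA (h1 x hx).1 (h1 x hx).2.1 i j).contDiffWithinAt
  have hYP : ∀ j, ContDiffOn ℝ ∞ (YP M f L w j) {x : E n | R0 < ‖x‖} := fun j x hx =>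
    (A.smooth_YP (h1 x hx).1 (h1 x hx).2.1 j).contDiffWithinAt
  have hN : ∀ i, ContinuousOn (fun y : E n => y i / ‖y‖) {x : E n | R0 < ‖x‖} := fun i x hx =>
    (contDiffAt_Nc (m := 1) i (h1 x hx).1).continuousAt.continuousWithinAt
  have hcE : ContinuousOn (cE M f L w) {x : E n | R0 < ‖x‖} := by
    unfold cE
    refine continuousOn_finsetSum _ fun i _ => ContinuousOn.mul
      (continuousOn_finsetSum _ fun j _ => ?_) (hN i)
    exact cont_pd (fun x hx => A.smooth_PA (h1 x hx).1 (h1 x hx).2.1 i j) j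
  have hcY : ∀ i j, ContinuousOn (pd i (YP M f L w j)) {x : E n | R0 < ‖x‖} := fun i j =>
    cont_pd (fun x hx => A.smooth_YP (h1 x hx).1 (h1 x hx).2.1 j) i
  have hcP : ∀ i, ContinuousOn (cP M f L w i) {x : E n | R0 < ‖x‖} := by
    intro i
    unfold cP
    refine continuousOn_finsetSum _ fun j _ => ContinuousOn.mul ?_ (hN j)
    exact (hcY i j).sub (continuousOn_const.mul (continuousOn_finsetSum _ fun k _ => hcY k k))
  have hcE2 := cont_hE D h0
  have hcP2 := cont_hP D h0 (fun x hx => (h1 x hx).2.2)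
  refine ⟨R0, fun y => hE D y - cE M f L w y, fun i y => An.hP D i y - cP M f L w i y, h0,
    hcE2.sub hcE, fun i => (hcP2 i).sub (hcP i), fun R hR => ⟨?_, fun i => ?_⟩, ?_, fun i => ?_⟩
  · rw [sphI_sub h0 hR hcE2 hcE]
    have : sphI (cE M f L w) R = 0 := curl_zero (by omega) h0 hR hPA (fun i j x => by
      unfold PA; ring)
    rw [this, sub_zero]
  · rw [sphI_sub h0 hR (hcP2 i) (hcP i)]
    have : sphI (cP M f L w i) R = 0 := curl_zero' (by omega) h0 hR hYP i
    rw [this, sub_zero]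
  · exact A.dens_E.congr (Eventually.of_forall fun y => by ring)
  · exact (A.dens_P i).congr (Eventually.of_forall fun y => by ring)

end Asy

end Vale.Agent.P366.T1.Boost
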