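import Vale.Agent.P366.T1.A919g
import Vale.Agent.P366.T1.Null

/-! Boosted slices: the mass converges uniformly at spatial infinity. -/

open MeasureTheory Metric Filter Topology Set Asymptotics
open scoped ContDiff ENNReal

noncomputable section
namespace Vale.Agent.P366.T1.Boost

variable {n : ℕ}

/-- The mass is monotone along spacelike segments of the normal region. -/
lemma mass_seg (hn : 3 ≤ n) {M : Spacetime} (hE : M.DEC n) {p p' : ℝ × ℝ}
    (hin : ∀ s ∈ Icc (0 : ℝ) 1, p + s • (p' - p) ∈ M.Q ∧ du M.r (p + s • (p' - p)) < 0 ∧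
      0 < dv M.r (p + s • (p' - p))) (h1 : p'.1 ≤ p.1) (h2 : p.2 ≤ p'.2) :
    M.mass n p ≤ M.mass n p' := by
  have hd : ∀ s ∈ Icc (0 : ℝ) 1, HasDerivAt (fun s : ℝ => M.mass n (p + s • (p' - p)))
      ((p'.1 - p.1) * du (M.mass n) (p + s • (p' - p)) +
        (p'.2 - p.2) * dv (M.mass n) (p + s • (p' - p))) s := by
    intro s hs
    have h3 := diffAt M.isOpen (M.smooth_mass (n := n)) (hin s hs).1
    have h4 : HasDerivAt (fun s : ℝ => p + s • (p' - p)) (p' - p) s := by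
      simpa using ((hasDerivAt_id s).smul_const (p' - p)).const_add p
    have h5 := h3.hasFDerivAt.comp_hasDerivAt s h4
    have h6 : p' - p = (p'.1 - p.1, p'.2 - p.2) := by ext <;> simp
    have h7 : fderiv ℝ (M.mass n) (p + s • (p' - p)) (p' - p) =
        (p'.1 - p.1) * du (M.mass n) (p + s • (p' - p)) +
        (p'.2 - p.2) * dv (M.mass n) (p + s • (p' - p)) := by
      rw [show fderiv ℝ (M.mass n) (p + s • (p' - p)) (p' - p) =
        fderiv ℝ (M.mass n) (p + s • (p' - p)) (p'.1 - p.1, p'.2 - p.2) from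
          congrArg _ h6, fderiv_apply_eq h3]
    rw [h7] at h5
    exact h5
  have hmono : MonotoneOn (fun s : ℝ => M.mass n (p + s • (p' - p))) (Icc 0 1) := by
    refine monotoneOn_of_deriv_nonneg (convex_Icc 0 1)
      (fun s hs => (hd s hs).continuousAt.continuousWithinAt)
      (fun s hs => (hd s (interior_subset hs)).differentiableAt.differentiableWithinAt)
      fun s hs => ?_
    have hs' := interior_subset hs
    rw [(hd s hs').deriv]
    obtain ⟨h3, h4, h5⟩ := hin s hs'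
    have h6 := M.dv_mass_nonneg hn hE h3 h4.le h5.le
    have h7 := M.du_mass_nonpos hn hE h3 h4.le h5.le
    have h8 : 0 ≤ (p'.1 - p.1) * du (M.mass n) (p + s • (p' - p)) :=
      mul_nonneg_of_nonpos_of_nonpos (by linarith) h7
    have h9 : 0 ≤ (p'.2 - p.2) * dv (M.mass n) (p + s • (p' - p)) :=
      mul_nonneg (by linarith) h6
    linarith
  have := hmono (left_mem_Icc.2 zero_le_one) (right_mem_Icc.2 zero_le_one) zero_le_one
  simpa using this

/-- The mass converges to its supremum. -/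
theorem mass_unif (hn : 3 ≤ n) {M : Spacetime} (hE : M.DEC n) {c R0 b : ℝ} (hbc : b < c)
    (hb0 : 0 ≤ b) (hb1 : b < 1)
    (hW : ∀ p : ℝ × ℝ, ∀ ρ, ρ = (p.2 - p.1) / 2 → R0 < ρ → |(p.2 + p.1) / 2| ≤ c * ρ →
      p ∈ M.Q ∧ du M.r p < 0 ∧ 0 < dv M.r p)
    {f : E n → ℝ} (hf : ∃ R, ∀ x : E n, R < ‖x‖ → |f x| ≤ b * ‖x‖)
    {C : ℝ} (hC : ∀ R : ℝ, ∃ x : E n, R < ‖x‖ ∧ M.mass n (uv f x) ≤ C) :
    ∃ M0 : ℝ, M0 ≤ C ∧ Tendsto (fun x : E n => M.mass n (uv f x)) (A919.far n) (𝓝 M0) ∧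
      ∀ᶠ x in A919.far n, M.mass n (uv f x) ≤ M0 := by
  obtain ⟨R, hR⟩ := hf
  set R1 := max (max R R0) 0 with hR1
  have hRR : R ≤ R1 := (le_max_left _ _).trans (le_max_left _ _)
  have hR0 : R0 ≤ R1 := (le_max_right _ _).trans (le_max_left _ _)
  have hR00 : 0 ≤ R1 := le_max_right _ _
  -- monotonicity
  have hmono : ∀ x x' : E n, R1 < ‖x‖ → R1 < ‖x'‖ → (1 + b) * ‖x‖ ≤ (1 - b) * ‖x'‖ →
      M.mass n (uv f x) ≤ M.mass n (uv f x') := by
    intro x x' hx hx' hxx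
    have h1 := abs_le.1 (hR x (lt_of_le_of_lt hRR hx))
    have h2 := abs_le.1 (hR x' (lt_of_le_of_lt hRR hx'))
    have e1 : uv f x = (f x - ‖x‖, f x + ‖x‖) := rfl
    have e2 : uv f x' = (f x' - ‖x'‖, f x' + ‖x'‖) := rfl
    refine mass_seg hn hE ?_ ?_ ?_
    · intro s hs
      have hs0 := hs.1
      have hs1 := hs.2
      have hs2 : 0 ≤ 1 - s := by linarith
      have e3 : uv f x + s • (uv f x' - uv f x) =
          (((1 - s) * f x + s * f x') - ((1 - s) * ‖x‖ + s * ‖x'‖),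
            ((1 - s) * f x + s * f x') + ((1 - s) * ‖x‖ + s * ‖x'‖)) := by
        rw [e1, e2]
        ext <;> simp <;> ring
      rw [e3]
      have hpos : R1 < (1 - s) * ‖x‖ + s * ‖x'‖ := by
        have h3 : (1 - s) * (‖x‖ - R1) + s * (‖x'‖ - R1) > 0 := by
          rcases hs0.eq_or_lt with h | h
          · rw [← h]; simp; linarith
          · have := mul_pos h (sub_pos.2 hx')
            have := mul_nonneg hs2 (sub_pos.2 hx).le
            linarith
        linarith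
      refine hW _ ((1 - s) * ‖x‖ + s * ‖x'‖) (by simp) (lt_of_le_of_lt hR0 hpos) ?_
      have h4 : ((((1 - s) * f x + s * f x') + ((1 - s) * ‖x‖ + s * ‖x'‖)) +
          (((1 - s) * f x + s * f x') - ((1 - s) * ‖x‖ + s * ‖x'‖))) / 2 =
          (1 - s) * f x + s * f x' := by ring
      show |((((1 - s) * f x + s * f x') + ((1 - s) * ‖x‖ + s * ‖x'‖)) +
          (((1 - s) * f x + s * f x') - ((1 - s) * ‖x‖ + s * ‖x'‖))) / 2| ≤ _
      rw [h4]
      have h5 : b * ((1 - s) * ‖x‖ + s * ‖x'‖) ≤ c * ((1 - s) * ‖x‖ + s * ‖x'‖) :=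
        mul_le_mul_of_nonneg_right hbc.le (hR00.trans hpos.le)
      refine (abs_le.2 ⟨?_, ?_⟩).trans h5
      · nlinarith [mul_nonneg hs2 (sub_nonneg.2 h1.1), mul_nonneg hs0 (sub_nonneg.2 h2.1)]
      · nlinarith [mul_nonneg hs2 (sub_nonneg.2 h1.2), mul_nonneg hs0 (sub_nonneg.2 h2.2)]
    · rw [e1, e2]
      show f x' - ‖x'‖ ≤ f x - ‖x‖
      nlinarith [h1.1, h2.2]
    · rw [e1, e2]
      show f x + ‖x‖ ≤ f x' + ‖x'‖
      nlinarith [h1.2, h2.1]
  have hb' : 0 < 1 - b := by linarith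
  -- the bound
  have hbd : ∀ x : E n, R1 < ‖x‖ → M.mass n (uv f x) ≤ C := by
    intro x hx
    obtain ⟨x', hx', hx'C⟩ := hC (max R1 ((1 + b) / (1 - b) * ‖x‖))
    have h1 := lt_of_le_of_lt (le_max_left _ _) hx'
    have h2 := lt_of_le_of_lt (le_max_right _ _) hx'
    refine (hmono x x' hx h1 ?_).trans hx'C
    have h3 := mul_lt_mul_of_pos_left h2 hb'
    rw [← mul_assoc, mul_div_cancel₀ _ hb'.ne'] at h3
    exact h3.le
  set S := (fun x : E n => M.mass n (uv f x)) '' {x | R1 < ‖x‖} with hS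
  have hne : S.Nonempty := by
    obtain ⟨x, hx, -⟩ := hC R1
    exact ⟨_, x, hx, rfl⟩
  have hbdd : BddAbove S := ⟨C, by rintro _ ⟨x, hx, rfl⟩; exact hbd x hx⟩
  have hle : ∀ x : E n, R1 < ‖x‖ → M.mass n (uv f x) ≤ sSup S := fun x hx =>
    le_csSup hbdd ⟨x, hx, rfl⟩
  refine ⟨sSup S, csSup_le hne (by rintro _ ⟨x, hx, rfl⟩; exact hbd x hx), ?_,
    A919.far_of R1 hle⟩
  rw [tendsto_order]
  constructor
  · intro a ha
    obtain ⟨_, ⟨x0, hx0, rfl⟩, h0⟩ := exists_lt_of_lt_csSup hne ha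
    refine A919.far_of (max R1 ((1 + b) / (1 - b) * ‖x0‖)) fun x hx => ?_
    have h1 := lt_of_le_of_lt (le_max_left _ _) hx
    have h2 := lt_of_le_of_lt (le_max_right _ _) hx
    refine lt_of_lt_of_le h0 (hmono x0 x hx0 h1 ?_)
    have h3 := mul_lt_mul_of_pos_left h2 hb'
    rw [← mul_assoc, mul_div_cancel₀ _ hb'.ne'] at h3
    exact h3.le
  · intro a ha
    exact A919.far_of R1 fun x hx => lt_of_le_of_lt (hle x hx) ha

end Vale.Agent.P366.T1.Boost
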