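import Vale.Agent.P366.T1.Boost.Flux
import Vale.Agent.P366.T1.Boost.Unif370
import Vale.Agent.P366.T1.SphInt591

/-! Boosted slices: the component of the energy-momentum vector along the boost. -/

set_option linter.all false

open MeasureTheory Metric Filter Topology Set Asymptotics
open scoped ContDiff ENNReal RealInnerProductSpace Matrix

noncomputable section
namespace Vale.Agent.P366.T1.Boost

open Vale.Agent.P366.T1.A919

variable {n : ℕ}

theorem sphI_mono {b R : ℝ} (hb : 0 ≤ b) (hR : b < R) {u v : E n → ℝ}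
    (hu : ContinuousOn u {x | b < ‖x‖}) (hv : ContinuousOn v {x | b < ‖x‖})
    (h : ∀ x : E n, ‖x‖ = R → u x ≤ v x) : sphI u R ≤ sphI v R :=
  integral_mono (integrable_sph hb hR hu) (integrable_sph hb hR hv)
    (fun θ => h _ (norm_smul_sph (hb.trans hR.le) θ))

theorem sphI_close {b R B : ℝ} (hb : 0 ≤ b) (hR : b < R) {u v : E n → ℝ}
    (hu : ContinuousOn u {x | b < ‖x‖}) (hv : ContinuousOn v {x | b < ‖x‖})
    (h : ∀ x : E n, ‖x‖ = R → |u x - v x| ≤ B) : |sphI u R - sphI v R| ≤ B * omega n := by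
  rw [← sphI_sub hb hR hu hv, ← Real.norm_eq_abs]
  have := norm_integral_le_of_norm_le_const (μ := sphM n)
    (f := fun θ : sphere (0 : E n) 1 => u (R • (θ : E n)) - v (R • (θ : E n)))
    (C := B) (Eventually.of_forall fun θ => by
      rw [Real.norm_eq_abs]; exact h _ (norm_smul_sph (hb.trans hR.le) θ))
  rw [measureReal_def] at this
  exact this

theorem sphI_sum {ι : Type*} {b R : ℝ} (hb : 0 ≤ b) (hR : b < R) (s : Finset ι)
    {u : ι → E n → ℝ} (hu : ∀ i ∈ s, ContinuousOn (u i) {x | b < ‖x‖}) :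
    sphI (fun x => ∑ i ∈ s, u i x) R = ∑ i ∈ s, sphI (u i) R :=
  integral_finsetSum _ fun i hi => integrable_sph hb hR (hu i hi)

/-- the weight `(|y| / ρ)^n` -/
def Wt (L : E n ≃L[ℝ] E n) (y : E n) : ℝ := (‖y‖ / rL L y) ^ n

theorem tau_smul (w : Fin n → ℝ) (s : ℝ) (y : E n) : tauL w (s • y) = s * tauL w y := by
  unfold tauL
  rw [Finset.mul_sum]
  refine Finset.sum_congr rfl fun i _ => ?_
  simp only [PiLp.smul_apply, smul_eq_mul]
  ring

theorem rL_ge {L : E n ≃L[ℝ] E n} {w : Fin n → ℝ}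
    (hG : ∀ i j, G0 L i j = (if i = j then 1 else 0) + w i * w j) (y : E n) :
    ‖y‖ ≤ rL L y := by
  have h1 := rL_sq hG y
  have h2 : 0 ≤ rL L y := norm_nonneg _
  nlinarith [sq_nonneg (tauL w y), norm_nonneg y]

theorem sphI_Wt (hn : 0 < n) {L : E n ≃L[ℝ] E n} {w : Fin n → ℝ}
    (hG : ∀ i j, G0 L i j = (if i = j then 1 else 0) + w i * w j) {R : ℝ} (hR : 0 < R) :
    sphI (Wt L) R = omega n / gam w := by
  set w' : E n := WithLp.toLp 2 w with hw'
  have h1 := sph_one_add_inner_sq hn w'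
  have hin : ∀ y : E n, ⟪w', y⟫ = tauL w y := by
    intro y
    unfold tauL
    rw [PiLp.inner_apply]
    refine Finset.sum_congr rfl fun i _ => ?_
    simp only [hw', RCLike.inner_apply, conj_trivial]
    ring
  have hnw : √(1 + ‖w'‖ ^ 2) = gam w := by
    unfold gam
    rw [norm_sq_sum]
  rw [hnw] at h1
  rw [← h1]
  unfold sphI
  refine integral_congr_ae (Eventually.of_forall fun θ => ?_)
  simp only
  unfold Wt
  rw [hin]
  have h2 := rL_sq hG (R • (θ : E n))
  rw [norm_smul_sph hR.le, tau_smul] at h2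
  set t := tauL w (θ : E n) with ht
  have h3 : 0 < 1 + t ^ 2 := by positivity
  have h4 : rL L (R • (θ : E n)) = R * √(1 + t ^ 2) := by
    have h5 : 0 ≤ rL L (R • (θ : E n)) := norm_nonneg _
    have h6 : rL L (R • (θ : E n)) = √(R ^ 2 * (1 + t ^ 2)) := by
      rw [← Real.sqrt_sq h5, h2]; congr 1; ring
    rw [h6, Real.sqrt_mul (sq_nonneg R), Real.sqrt_sq hR.le]
  rw [norm_smul_sph hR.le, h4]
  have h5 : R / (R * √(1 + t ^ 2)) = (√(1 + t ^ 2))⁻¹ := by
    have := (Real.sqrt_pos.mpr h3).ne'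
    field_simp
  rw [h5, inv_pow, Real.sqrt_eq_rpow, ← Real.rpow_natCast ((1 + t ^ 2) ^ (1 / 2 : ℝ)) n,
    ← Real.rpow_mul h3.le, ← Real.rpow_neg h3.le]
  congr 1
  ring

/-- the limits of the fluxes -/
theorem lim_E {D : Stmt.Exterior n} (hn : 3 ≤ n) {m : ℝ} (hm : D.IsEnergy m) :
    Tendsto (fun R : ℝ => R ^ (n - 1) * sphI (hE D) R) atTop
      (𝓝 (((n : ℝ) - 1) * omega n * m)) := by
  haveI : Nonempty (Fin n) := ⟨⟨0, by omega⟩⟩
  haveI : Nontrivial (E n) := inferInstance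
  have hn1 : (0 : ℝ) < (n : ℝ) - 1 := by
    have : (3 : ℝ) ≤ n := by exact_mod_cast hn
    linarith
  have hω : 0 < omega n := omega_pos'
  have h1 := Tendsto.const_mul (((n : ℝ) - 1) * omega n) hm
  refine h1.congr fun R => ?_
  rw [flx_eq]
  have e : (fun x : E n => ∑ i, (∑ j, (Stmt.pd j (fun y => D.g y i j) x -
      Stmt.pd i (fun y => D.g y j j) x)) / 2 * (x i / ‖x‖)) = hE D := by
    funext y
    refine Finset.sum_congr rfl fun i _ => ?_
    rw [Finset.sum_congr rfl fun j _ => by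
      rw [pd_eq_of_smooth (D.smooth i j).1, pd_eq_of_smooth (D.smooth j j).1]]
    rfl
  rw [e]
  unfold sphInt
  have : sphI (hE D) R = ∫ θ : sphere (0 : E n) 1, hE D (R • (θ : E n)) ∂(sphM n) := rfl
  rw [this]
  field_simp

theorem lim_P {D : Stmt.Exterior n} (hn : 3 ≤ n) {P : Fin n → ℝ} (hP : D.IsMomentum P)
    (i : Fin n) : Tendsto (fun R : ℝ => R ^ (n - 1) * sphI (An.hP D i) R) atTop
      (𝓝 (((n : ℝ) - 1) * omega n * P i)) := by
  haveI : Nonempty (Fin n) := ⟨⟨0, by omega⟩⟩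
  haveI : Nontrivial (E n) := inferInstance
  have hn1 : (0 : ℝ) < (n : ℝ) - 1 := by
    have : (3 : ℝ) ≤ n := by exact_mod_cast hn
    linarith
  have hω : 0 < omega n := omega_pos'
  have h1 := Tendsto.const_mul (((n : ℝ) - 1) * omega n) (hP i)
  refine h1.congr fun R => ?_
  rw [flx_eq]
  have e4 : sphInt R (fun x : E n => ∑ j, Stmt.momT D.g D.K x i j * (x j / ‖x‖)) =
        R ^ (n - 1) * sphI (An.hP D i) R := rfl
  rw [e4]
  field_simp

namespace Asy

variable {M : Spacetime} {f : E n → ℝ} {L : E n ≃L[ℝ] E n} {D : Stmt.Exterior n} {q : ℝ}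
  {U : Set (ℝ × ℝ)} {w : Fin n → ℝ}

theorem U_eq (A : Asy M f L D q U w) {y : E n} (hy : y ≠ 0) (j : Fin n) :
    (jet M f L w y).U j = gam w * y j / rL L y := by
  unfold Jet.U Jet.nu jet
  simp only
  rw [rL_pd A.hG hy j]
  have := (rL_pos (L := L) hy).ne'
  field_simp
  ring

theorem sum_U (A : Asy M f L D q U w) {y : E n} (hy : y ≠ 0) :
    ∑ j, (jet M f L w y).U j * Nc j y = gam w * ‖y‖ / rL L y := by
  have h1 : ∀ j, (jet M f L w y).U j * Nc j y = gam w / rL L y / ‖y‖ * (y j * y j) := by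
    intro j
    rw [A.U_eq hy j]
    unfold Nc
    field_simp
  simp only [h1, ← Finset.mul_sum]
  rw [← norm_sq_sum]
  have h2 := (norm_pos_iff.mpr hy).ne'
  have := (rL_pos (L := L) hy).ne'
  field_simp

theorem dens_a (A : Asy M f L D q U w) {tE : E n → ℝ} {tP : Fin n → E n → ℝ}
    (h1 : O (q + q + 1) (fun y => tE y - ∑ i, (jet M f L w y).eb i * Nc i y))
    (h2 : ∀ i, O (q + q + 1) (fun y => tP i y - ∑ j, (jet M f L w y).pb i j * Nc j y)) :
    O (q + q + 1) (fun y => (gam w * tE y - ∑ i, w i * tP i y) -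
      ((n : ℝ) - 1) * (gam w * (muL M (pL f L y) * ‖y‖ / rL L y ^ 2))) := by
  have h3 : O (q + q + 1) (fun y => gam w * (tE y - ∑ i, (jet M f L w y).eb i * Nc i y) -
      ∑ i, w i * (tP i y - ∑ j, (jet M f L w y).pb i j * Nc j y)) :=
    (h1.const_mul _).sub (O.sum fun i _ => (h2 i).const_mul _)
  refine h3.congr ?_
  filter_upwards [far_gt 0] with y h0
  have hy : y ≠ 0 := norm_pos_iff.mp h0
  have hmu : (jet M f L w y).mu = muL M (pL f L y) := by
    unfold Jet.mu jet muL; rw [rho_pL]; simp only; ring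
  have e1 : gam w * ∑ i, (jet M f L w y).eb i * Nc i y -
      ∑ i, w i * ∑ j, (jet M f L w y).pb i j * Nc j y =
      ((n : ℝ) - 1) * (gam w * (muL M (pL f L y) * ‖y‖ / rL L y ^ 2)) := by
    have e2 : ∑ i, w i * ∑ j, (jet M f L w y).pb i j * Nc j y =
        ∑ j, (∑ i, w i * (jet M f L w y).pb i j) * Nc j y := by
      simp only [Finset.mul_sum, Finset.sum_mul]
      rw [Finset.sum_comm]
      exact Finset.sum_congr rfl fun i _ => Finset.sum_congr rfl fun j _ => by ring
    rw [e2, Finset.mul_sum, ← Finset.sum_sub_distrib]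
    have e3 : ∀ j, gam w * ((jet M f L w y).eb j * Nc j y) -
        (∑ i, w i * (jet M f L w y).pb i j) * Nc j y =
        ((n : ℝ) - 1) * (muL M (pL f L y) / rL L y) * ((jet M f L w y).U j * Nc j y) := by
      intro j
      have h5 := Jet.alg_a (A.ok hy) j
      have e4 : (jet M f L w y).γ = gam w := rfl
      have e5 : (jet M f L w y).w = w := rfl
      have e6 : (jet M f L w y).ρ = rL L y := rfl
      rw [e4, e5, e6, hmu] at h5
      linear_combination (Nc j y) * h5
    rw [Finset.sum_congr rfl fun j _ => e3 j, ← Finset.mul_sum, A.sum_U hy]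
    have h2 := h0.ne'
    have := (rL_pos (L := L) hy).ne'
    field_simp
  rw [← e1]
  simp only [mul_sub, Finset.sum_sub_distrib]
  ring

end Asy

end Vale.Agent.P366.T1.Boost
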