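import Vale.Agent.P366.T1.Boost.Setup

/-! Boosted slices: the limit of the gradient of the slice function. -/

set_option linter.all false

open MeasureTheory Metric Filter Topology Set Asymptotics
open scoped ContDiff ENNReal RealInnerProductSpace Matrix

noncomputable section
namespace Vale.Agent.P366.T1.Boost

open Vale.Agent.P366.T1.A919

variable {n : ℕ}

theorem ray_lim {φ φ' : ℝ → ℝ} {ρ B q : ℝ} (hρ : 0 < ρ) (hq : 0 < q)
    (hd : ∀ s, ρ ≤ s → HasDerivAt φ (φ' s) s) (hb : ∀ s, ρ ≤ s → |φ' s| ≤ B * s ^ (-(q + 1))) :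
    ∃ l : ℝ, Tendsto φ atTop (𝓝 l) := by
  have hB : 0 ≤ B := by
    have h1 := (abs_nonneg _).trans (hb ρ le_rfl)
    have h2 : 0 < ρ ^ (-(q + 1)) := Real.rpow_pos_of_pos hρ _
    exact nonneg_of_mul_nonneg_left h1 h2
  set ψ : ℝ → ℝ := fun s => B / q * s ^ (-q) with hψ
  have hψd : ∀ s, ρ ≤ s → HasDerivAt ψ (-(B * s ^ (-(q + 1)))) s := by
    intro s hs
    have hs0 : 0 < s := lt_of_lt_of_le hρ hs
    have h1 := (Real.hasDerivAt_rpow_const (x := s) (p := -q) (Or.inl hs0.ne')).const_mul (B / q)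
    have e : -(B * s ^ (-(q + 1))) = B / q * (-q * s ^ (-q - 1)) := by
      rw [show -q - 1 = -(q + 1) by ring]
      field_simp
    rw [e]
    exact h1
  have hψ0 : ∀ s, ρ ≤ s → 0 ≤ ψ s := fun s hs => by
    have hs0 : 0 < s := lt_of_lt_of_le hρ hs
    rw [hψ]; positivity
  have hψl : Tendsto ψ atTop (𝓝 0) := by
    have := (tendsto_rpow_neg_atTop hq).const_mul (B / q)
    rwa [mul_zero] at this
  have key : ∀ ε : ℝ, |ε| = 1 → AntitoneOn (fun s => ε * φ s + ψ s) (Ici ρ) := by
    intro ε hε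
    have hder : ∀ s, ρ ≤ s → HasDerivAt (fun s => ε * φ s + ψ s)
        (ε * φ' s + -(B * s ^ (-(q + 1)))) s := fun s hs =>
      ((hd s hs).const_mul ε).add (hψd s hs)
    refine antitoneOn_of_deriv_nonpos (convex_Ici ρ) ?_ ?_ ?_
    · exact fun s hs => (hder s hs).continuousAt.continuousWithinAt
    · intro s hs
      rw [interior_Ici] at hs
      exact (hder s (le_of_lt hs)).differentiableAt.differentiableWithinAt
    · intro s hs
      rw [interior_Ici] at hs
      rw [(hder s (le_of_lt hs)).deriv]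
      have h1 := hb s (le_of_lt hs)
      have h2 : ε * φ' s ≤ |φ' s| := by
        calc ε * φ' s ≤ |ε * φ' s| := le_abs_self _
          _ = |φ' s| := by rw [abs_mul, hε, one_mul]
      linarith
  have hA := key 1 (by simp)
  have hB' := key (-1) (by simp)
  set A : ℝ → ℝ := fun s => 1 * φ (max s ρ) + ψ (max s ρ) with hAdef
  have hAanti : Antitone A := by
    intro a b hab
    exact hA (mem_Ici.mpr (le_max_right a ρ)) (mem_Ici.mpr (le_max_right b ρ))
      (max_le_max hab le_rfl)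
  have hbdd : BddBelow (range A) := by
    refine ⟨φ ρ - ψ ρ, ?_⟩
    rintro _ ⟨s, rfl⟩
    have h1 := hB' (mem_Ici.mpr le_rfl) (mem_Ici.mpr (le_max_right s ρ)) (le_max_right s ρ)
    simp only at h1
    have h2 := hψ0 (max s ρ) (le_max_right s ρ)
    rw [hAdef]; simp only
    linarith
  have hlim := tendsto_atTop_ciInf hAanti hbdd
  refine ⟨⨅ i, A i, ?_⟩
  have h3 := hlim.sub hψl
  rw [sub_zero] at h3
  refine h3.congr' ?_
  filter_upwards [eventually_ge_atTop ρ] with s hs
  rw [hAdef]; simp only [max_eq_left hs]; ring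

/-- the gradient has a limit at infinity if the Hessian decays -/
theorem grad_lim (hn : 2 ≤ n) {h : E n → ℝ} (hh : ContDiff ℝ ∞ h) {q : ℝ} (hq : 0 < q)
    (h2 : ∀ i j, O (q + 1) (pd i (pd j h))) :
    ∃ c : Fin n → ℝ, ∀ i, O q (fun y => pd i h y - c i) := by
  -- limits along rays
  have hbase : ∀ i, ∃ C R : ℝ, 0 ≤ C ∧ 1 ≤ R ∧ ∀ y v : E n, R < ‖y‖ → ‖v‖ ≤ 1 →
      |fderiv ℝ (pd i h) y v| ≤ C * ‖y‖ ^ (-(q + 1)) := by
    intro i
    have hS : O (q + 1) (fun x => ∑ j, |pd j (pd i h) x|) := O.sum fun j _ => (h2 j i).abs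
    obtain ⟨C, R, hC, hR, hb⟩ := O_iff.mp hS
    refine ⟨C, R, hC, hR, fun y v hy hv => ?_⟩
    rw [fderiv_eq_sum_pd]
    refine le_trans ?_ ((le_abs_self _).trans (hb y hy))
    refine (Finset.abs_sum_le_sum_abs _ _).trans (Finset.sum_le_sum fun j _ => ?_)
    rw [abs_mul]
    have h3 : |v j| ≤ 1 := by
      rw [← Real.norm_eq_abs]; exact (PiLp.norm_apply_le _ j).trans hv
    calc |v j| * |pd j (pd i h) y| ≤ 1 * |pd j (pd i h) y| :=
          mul_le_mul_of_nonneg_right h3 (abs_nonneg _)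
      _ = _ := one_mul _
  have hsm : ∀ i, Differentiable ℝ (pd i h) := fun i => (smooth_pd hh i).differentiable (by simp)
  have hray : ∀ i, ∀ u : E n, ‖u‖ = 1 → ∀ s : ℝ, HasDerivAt (fun s : ℝ => pd i h (s • u))
      (fderiv ℝ (pd i h) (s • u) u) s := by
    intro i u hu s
    have h1 : HasDerivAt (fun s : ℝ => s • u) u s := by
      simpa using (hasDerivAt_id s).smul_const u
    exact (hsm i (s • u)).hasFDerivAt.comp_hasDerivAt s h1
  have hsn : ∀ u : E n, ‖u‖ = 1 → ∀ s : ℝ, 0 ≤ s → ‖s • u‖ = s := fun u hu s hs => by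
    rw [norm_smul, hu, mul_one, Real.norm_of_nonneg hs]
  have hex : ∀ i, ∀ u : E n, ‖u‖ = 1 → ∃ l : ℝ, Tendsto (fun s : ℝ => pd i h (s • u)) atTop (𝓝 l) := by
    intro i u hu
    obtain ⟨C, R, hC, hR, hb⟩ := hbase i
    refine ray_lim (ρ := R + 1) (B := C) (q := q) (by linarith) hq (fun s _ => hray i u hu s) ?_
    intro s hs
    have := hb (s • u) u (by rw [hsn u hu s (by linarith)]; linarith) hu.le
    rwa [hsn u hu s (by linarith)] at this
  have huniq : ∀ i, ∀ u v : E n, ‖u‖ = 1 → ‖v‖ = 1 → ∀ l l' : ℝ,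
      Tendsto (fun s : ℝ => pd i h (s • u)) atTop (𝓝 l) →
      Tendsto (fun s : ℝ => pd i h (s • v)) atTop (𝓝 l') → l = l' := by
    intro i u v hu hv l l' hl hl'
    obtain ⟨C, R, hC, hR, hb⟩ := hbase i
    have h3 := (hl.sub hl').abs
    have h4 : Tendsto (fun s : ℝ => |pd i h (s • u) - pd i h (s • v)|) atTop (𝓝 0) := by
      have h5 : Tendsto (fun s : ℝ => Real.pi * C * s ^ (-q)) atTop (𝓝 0) := by
        have := (tendsto_rpow_neg_atTop hq).const_mul (Real.pi * C)
        rwa [mul_zero] at this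
      refine squeeze_zero_norm' ?_ h5
      filter_upwards [eventually_gt_atTop R] with s hs
      have hs0 : 0 < s := by linarith
      rw [Real.norm_eq_abs, _root_.abs_abs]
      have := osc_sphere hn hs0 (H := pd i h) (L := C * s ^ (-(q + 1)))
        (fun x _ => hsm i x) (fun x v' hx hv' _ => by
          have := hb x v' (by rw [hx]; exact hs) hv'.le
          rwa [hx] at this) (hsn u hu s hs0.le) (hsn v hv s hs0.le)
      refine this.trans (le_of_eq ?_)
      have e : s ^ (-q) = s * s ^ (-(q + 1)) := by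
        have := Real.rpow_add hs0 1 (-(q + 1))
        rw [Real.rpow_one] at this
        rw [← this]; congr 1; ring
      rw [e]; ring
    have h6 := tendsto_nhds_unique h3 h4
    have := abs_eq_zero.mp h6
    linarith
  -- the common limit
  haveI : Nonempty (Fin n) := ⟨⟨0, by omega⟩⟩
  haveI : Nontrivial (E n) := inferInstance
  obtain ⟨u0, hu0⟩ : ∃ u : E n, ‖u‖ = 1 := exists_norm_eq (E n) zero_le_one
  choose c hc using fun i => hex i u0 hu0
  have hall : ∀ i, ∀ u : E n, ‖u‖ = 1 → Tendsto (fun s : ℝ => pd i h (s • u)) atTop (𝓝 (c i)) := by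
    intro i u hu
    obtain ⟨l, hl⟩ := hex i u hu
    rwa [huniq i u u0 hu hu0 l (c i) hl (hc i)] at hl
  refine ⟨c, fun i => ?_⟩
  -- the rate
  obtain ⟨C, R, hC, hR, hb⟩ := hbase i
  refine O.of_bound (C := C / q) (far_of R fun x hx => ?_)
  have hx0 : 0 < ‖x‖ := by linarith
  set u : E n := ‖x‖⁻¹ • x with hu
  have hun : ‖u‖ = 1 := by
    rw [hu, norm_smul, norm_inv, norm_norm, inv_mul_cancel₀ hx0.ne']
  have hxu : ‖x‖ • u = x := by rw [hu, smul_smul, mul_inv_cancel₀ hx0.ne', one_smul]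
  have := tail_bound (φ := fun s : ℝ => pd i h (s • u) - c i)
    (φ' := fun s : ℝ => fderiv ℝ (pd i h) (s • u) u) hx0 hq
    (fun s _ => (hray i u hun s).sub_const (c i))
    (fun s hs => by
      have hs0 : 0 ≤ s := hx0.le.trans hs
      have := hb (s • u) u (by rw [hsn u hun s hs0]; linarith) hun.le
      rwa [hsn u hun s hs0] at this)
    (by
      have := (hall i u hun).sub_const (c i)
      rwa [sub_self] at this)
  simp only [hxu] at this
  exact this

end Vale.Agent.P366.T1.Boost
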