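import Vale.Agent.P366.T1.Boost.Dec765
import Vale.Agent.P366.T1.BStmt

/-! Boosted slices: auxiliary facts. -/

open MeasureTheory Metric Filter Topology Set Asymptotics
open scoped ContDiff ENNReal

noncomputable section
namespace Vale.Agent.P366.T1.Boost


variable {n : ℕ}

/-- A bounded function cannot have a derivative of order `1 / R`. -/
theorem no_log {g g' : ℝ → ℝ} {R0 K B ε : ℝ} (hε : 0 < ε)
    (hg : ∀ R, R0 < R → HasDerivAt g (g' R) R) (hB : ∀ R, R0 < R → g R ≤ B)
    (h : ∀ R, R0 < R → ε ≤ K * (R * g' R)) (hK : 0 ≤ K) : False := by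
  set R1 := max R0 0 + 1 with hR1
  have h1 : R0 < R1 := by have := le_max_left R0 0; linarith
  have h2 : 0 < R1 := by have := le_max_right R0 0; linarith
  have hKpos : 0 < K := by
    rcases hK.eq_or_lt with h0 | h0
    · have := h R1 h1
      rw [← h0, zero_mul] at this
      exact absurd this (not_le.2 hε)
    · exact h0
  have hd : ∀ R, R1 ≤ R → HasDerivAt (fun R => g R - ε / K * Real.log R)
      (g' R - ε / K * R⁻¹) R := by
    intro R hR
    exact (hg R (by linarith)).sub ((Real.hasDerivAt_log (by linarith : R ≠ 0)).const_mul _)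
  have hmono : MonotoneOn (fun R => g R - ε / K * Real.log R) (Ici R1) := by
    refine monotoneOn_of_deriv_nonneg (convex_Ici R1)
      (fun R hR => (hd R hR).continuousAt.continuousWithinAt)
      (fun R hR => (hd R (interior_subset hR)).differentiableAt.differentiableWithinAt)
      fun R hR => ?_
    have hR' : R1 ≤ R := interior_subset hR
    have hRpos : 0 < R := by linarith
    rw [(hd R hR').deriv]
    have h3 := h R (by linarith)
    have h4 : ε / K * R⁻¹ = ε / (K * R) := by field_simp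
    rw [h4, sub_nonneg, div_le_iff₀ (mul_pos hKpos hRpos)]
    linarith
  have hlim : Tendsto (fun R => ε / K * Real.log R) atTop atTop :=
    Real.tendsto_log_atTop.const_mul_atTop (div_pos hε hKpos)
  obtain ⟨R, hR, hR2⟩ := ((hlim.eventually_gt_atTop (B - (g R1 - ε / K * Real.log R1))).and
    (eventually_ge_atTop R1)).exists
  have h5 := hmono (mem_Ici.2 le_rfl) (mem_Ici.2 hR2) hR2
  have h6 := hB R (by linarith)
  simp only at h5
  linarith

/-- The signs of the derivatives of `r` in the asymptotically flat wedge. -/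
theorem wedge_signs {M : Spacetime} {c : ℝ} (hM : M.IsAFIn n c) (hn : 3 ≤ n) :
    ∃ R0 : ℝ, 0 ≤ R0 ∧ ∀ p : ℝ × ℝ, ∀ ρ, ρ = (p.2 - p.1) / 2 → R0 < ρ →
      |(p.2 + p.1) / 2| ≤ c * ρ → p ∈ M.Q ∧ du M.r p < 0 ∧ 0 < dv M.r p := by
  obtain ⟨q, C, R, hq, H⟩ := hM
  have hn' : (3 : ℝ) ≤ n := by exact_mod_cast hn
  have hq0 : 0 < q := by linarith
  have hlim : Tendsto (fun ρ : ℝ => C * ρ ^ (-q)) atTop (𝓝 0) := by
    have := (tendsto_rpow_neg_atTop hq0).const_mul C
    rwa [mul_zero] at this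
  obtain ⟨R1, hR1⟩ := eventually_atTop.1 (hlim.eventually_lt_const (show (0 : ℝ) < 1 / 8 by norm_num))
  refine ⟨max (max R R1) 0, le_max_right _ _, ?_⟩
  intro p ρ hρ hR0 ht
  have h1 : R < ρ := lt_of_le_of_lt ((le_max_left _ _).trans (le_max_left _ _)) hR0
  have h2 : R1 < ρ := lt_of_le_of_lt ((le_max_right _ _).trans (le_max_left _ _)) hR0
  have h3 : 0 < ρ := lt_of_le_of_lt (le_max_right _ _) hR0
  obtain ⟨hQ, -, -, -, hs, hsu, hsv, -⟩ := H p ρ hρ h1 ht
  have h4 := hR1 ρ h2.le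
  have hρ' : A919.rho p = ρ := hρ.symm
  have hp : p ∈ Qp M := ⟨hQ, by show 0 < A919.rho p; rw [hρ']; exact h3⟩
  have h5 : ρ * (C * ρ ^ (-(q + 1))) = C * ρ ^ (-q) := by
    rw [show -(q + 1) = -q - 1 by ring, Real.rpow_sub_one h3.ne']
    field_simp
  have h6 : ρ * |du M.ratio p| ≤ C * ρ ^ (-q) := by
    rw [← h5]; exact mul_le_mul_of_nonneg_left hsu h3.le
  have h7 : ρ * |dv M.ratio p| ≤ C * ρ ^ (-q) := by
    rw [← h5]; exact mul_le_mul_of_nonneg_left hsv h3.le
  have h8 := abs_le.1 hs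
  refine ⟨hQ, ?_, ?_⟩
  · rw [du_r hp, hρ']
    have h9 := mul_le_mul_of_nonneg_left (le_abs_self (du M.ratio p)) h3.le
    linarith [h8.1]
  · rw [dv_r hp, hρ']
    have h9 := mul_le_mul_of_nonneg_left (neg_abs_le (dv M.ratio p)) h3.le
    linarith [h8.1]

end Vale.Agent.P366.T1.Boost
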