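import Vale.Agent.P366.T1.Boost.Expand2

/-! Boosted slices: the slope of the slice and the mass function. -/

open MeasureTheory Metric Filter Topology Set Asymptotics
open scoped ContDiff ENNReal

noncomputable section
namespace Vale.Agent.P366.T1.Boost

open Vale.Agent.P366.T1.A919

variable {n : ℕ}

/-- A function with decaying gradient is sublinear. -/
theorem small_of_grad {e : E n → ℝ} (he : ContDiff ℝ ∞ e) {q : ℝ} (hq : 0 < q)
    (hd : ∀ i, O q (pd i e)) {ε : ℝ} (hε : 0 < ε) : ∀ᶠ y in far n, |e y| ≤ ε * ‖y‖ := by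
  have hS : O q (fun y => ∑ i, |pd i e y|) := O.sum fun i _ => (hd i).abs
  obtain ⟨R1, hR1⟩ := far_iff.mp (hS.small hq (show (0 : ℝ) < ε / 2 by linarith))
  set R := max R1 0 + 1 with hR
  have hRR : R1 < R := by have := le_max_left R1 0; linarith
  have hR0 : 0 < R := by have := le_max_right R1 0; linarith
  obtain ⟨C, hC⟩ := (isCompact_closedBall (0 : E n) R).exists_bound_of_continuousOn
    he.continuous.continuousOn
  refine far_of (max R (2 * C / ε)) fun y hy => ?_
  have hyR : R < ‖y‖ := lt_of_le_of_lt (le_max_left _ _) hy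
  have hyC : 2 * C / ε < ‖y‖ := lt_of_le_of_lt (le_max_right _ _) hy
  have hy0 : 0 < ‖y‖ := by linarith
  set u : E n := ‖y‖⁻¹ • y with hu
  have hun : ‖u‖ = 1 := by
    rw [hu, norm_smul, norm_inv, norm_norm, inv_mul_cancel₀ hy0.ne']
  have hyu : ‖y‖ • u = y := by rw [hu, smul_smul, mul_inv_cancel₀ hy0.ne', one_smul]
  have hsn : ∀ s : ℝ, 0 ≤ s → ‖s • u‖ = s := fun s hs => by
    rw [norm_smul, hun, mul_one, Real.norm_of_nonneg hs]
  have hder : ∀ s : ℝ, HasDerivAt (fun s : ℝ => e (s • u)) (fderiv ℝ e (s • u) u) s := by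
    intro s
    have h1 : HasDerivAt (fun s : ℝ => s • u) u s := by
      simpa using (hasDerivAt_id s).smul_const u
    exact ((he.differentiable (by simp) (s • u)).hasFDerivAt).comp_hasDerivAt s h1
  have hbd : ∀ s : ℝ, R ≤ s → ‖fderiv ℝ e (s • u) u‖ ≤ ε / 2 := by
    intro s hs
    have h1 : fderiv ℝ e (s • u) u = ∑ i, u i * pd i e (s • u) := by
      have h2 : u = ∑ i, u i • (EuclideanSpace.single i (1 : ℝ) : E n) := by
        ext j
        simp [Finset.sum_apply, Pi.single_apply]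
      conv_lhs => rw [h2]
      rw [map_sum]
      refine Finset.sum_congr rfl fun i _ => ?_
      rw [map_smul, smul_eq_mul]
      congr 1
      conv_lhs => rw [← h2]
      rfl
    rw [h1, Real.norm_eq_abs]
    have h3 : ∀ i, |u i| ≤ 1 := fun i => by
      have := EuclideanSpace.norm_eq u
      have h4 := PiLp.norm_apply_le u i
      rw [Real.norm_eq_abs, hun] at h4
      exact h4
    have h5 := hR1 (s • u) (by rw [hsn s (by linarith)]; linarith)
    have h6 : (0 : ℝ) ≤ ∑ i, |pd i e (s • u)| := Finset.sum_nonneg fun i _ => abs_nonneg _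
    rw [abs_of_nonneg h6] at h5
    calc |∑ i, u i * pd i e (s • u)| ≤ ∑ i, |u i * pd i e (s • u)| := Finset.abs_sum_le_sum_abs _ _
      _ ≤ ∑ i, |pd i e (s • u)| := Finset.sum_le_sum fun i _ => by
          rw [abs_mul]
          exact mul_le_of_le_one_left (abs_nonneg _) (h3 i)
      _ ≤ ε / 2 := h5
  have h7 := (convex_Icc R ‖y‖).norm_image_sub_le_of_norm_hasDerivWithin_le
    (f := fun s : ℝ => e (s • u)) (f' := fun s => fderiv ℝ e (s • u) u) (C := ε / 2)
    (fun s _ => (hder s).hasDerivWithinAt) (fun s hs => hbd s hs.1)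
    (left_mem_Icc.2 hyR.le) (right_mem_Icc.2 hyR.le)
  simp only [hyu] at h7
  rw [Real.norm_eq_abs, Real.norm_eq_abs, abs_of_pos (sub_pos.2 hyR)] at h7
  have h8 : |e (R • u)| ≤ C := by
    have := hC (R • u) (by rw [mem_closedBall_zero_iff, hsn R hR0.le])
    rwa [Real.norm_eq_abs] at this
  have h9 : C < ε / 2 * ‖y‖ := by
    rw [div_lt_iff₀ hε] at hyC
    linarith
  have h10 : |e y| ≤ |e y - e (R • u)| + |e (R • u)| := by
    have := abs_add_le (e y - e (R • u)) (e (R • u))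
    rwa [sub_add_cancel] at this
  nlinarith

theorem tau_sq_le (w : Fin n → ℝ) (y : E n) : tauL w y ^ 2 ≤ (gam w ^ 2 - 1) * ‖y‖ ^ 2 := by
  rw [gam_sq, norm_sq_sum]
  unfold tauL
  have h := Finset.sum_mul_sq_le_sq_mul_sq Finset.univ w (fun i => y i)
  have e1 : ∑ i, w i * w i = ∑ i, w i ^ 2 := Finset.sum_congr rfl fun i _ => by ring
  have e2 : ∑ i, y i * y i = ∑ i, y i ^ 2 := Finset.sum_congr rfl fun i _ => by ring
  rw [e1, e2]
  linarith

namespace Asy

variable {M : Spacetime} {f : E n → ℝ} {L : E n ≃L[ℝ] E n} {D : Stmt.Exterior n} {q : ℝ}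
  {U : Set (ℝ × ℝ)} {w : Fin n → ℝ}

theorem slope (A : Asy M f L D q U w) : ∃ b : ℝ, 0 ≤ b ∧ b < 1 ∧ ∃ R, ∀ x : E n,
    R < ‖x‖ → |f x| ≤ b * ‖x‖ := by
  have hγ := gam_sq w
  have hγ0 := gam_pos w
  have hγ1 : 1 ≤ gam w ^ 2 := by
    rw [hγ]
    have : 0 ≤ ∑ i, w i * w i := Finset.sum_nonneg fun i _ => mul_self_nonneg _
    linarith
  set β := √(1 - 1 / gam w ^ 2) with hβ
  have hβ0 : 0 ≤ β := Real.sqrt_nonneg _
  have h1 : 0 ≤ 1 - 1 / gam w ^ 2 := by
    rw [sub_nonneg, div_le_one (by positivity)]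
    exact hγ1
  have hβ1 : β < 1 := by
    rw [hβ, Real.sqrt_lt' one_pos]
    have : 0 < 1 / gam w ^ 2 := by positivity
    linarith
  have hβ2 : β ^ 2 = 1 - 1 / gam w ^ 2 := Real.sq_sqrt h1
  -- the difference with the linear function
  have hsm : ContDiff ℝ ∞ (fun y => hL f L y - tauL w y) := by
    refine A.smh.sub ?_
    unfold tauL
    exact ContDiff.sum fun i _ => contDiff_const.mul
      (EuclideanSpace.proj (𝕜 := ℝ) i).contDiff
  have hpd : ∀ i, O q (pd i (fun y => hL f L y - tauL w y)) := by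
    intro i
    refine (A.hw i).congr (Eventually.of_forall fun y => ?_)
    rw [pd_sub (A.smh.differentiable (by simp) y) (diff_tau w y), pd_tau]
  have hsmall := small_of_grad hsm A.q0 hpd (show (0 : ℝ) < (1 - β) / 2 by linarith)
  have hfin : ∀ᶠ y in far n, |f (L y)| ≤ (1 + β) / 2 * ‖L y‖ := by
    filter_upwards [hsmall, far_gt 0] with y hy hy0
    have h2 := rL_sq A.hG y
    have h3 := tau_sq_le w y
    have h4 : tauL w y ^ 2 ≤ (β * rL L y) ^ 2 := by
      rw [mul_pow, hβ2, h2]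
      have h5 : tauL w y ^ 2 ≤ (gam w ^ 2 - 1) * ‖y‖ ^ 2 := h3
      have h6 : 0 < gam w ^ 2 := by positivity
      have h7 : (1 - 1 / gam w ^ 2) * (‖y‖ ^ 2 + tauL w y ^ 2) - tauL w y ^ 2 =
          ((gam w ^ 2 - 1) * ‖y‖ ^ 2 - tauL w y ^ 2) / gam w ^ 2 := by
        field_simp
        ring
      have h8 : 0 ≤ ((gam w ^ 2 - 1) * ‖y‖ ^ 2 - tauL w y ^ 2) / gam w ^ 2 :=
        div_nonneg (by linarith) h6.le
      linarith
    have hr0 : 0 ≤ rL L y := norm_nonneg _
    have h5 : |tauL w y| ≤ β * rL L y := abs_le_of_sq_le_sq h4 (mul_nonneg hβ0 hr0)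
    have h6 : ‖y‖ ≤ rL L y := by
      refine le_of_sq_le_sq ?_ hr0
      rw [h2]
      nlinarith [sq_nonneg (tauL w y)]
    have h7 : |hL f L y| ≤ |hL f L y - tauL w y| + |tauL w y| := by
      have := abs_add_le (hL f L y - tauL w y) (tauL w y)
      rwa [sub_add_cancel] at this
    show |hL f L y| ≤ (1 + β) / 2 * rL L y
    have h8 : (1 - β) / 2 * ‖y‖ ≤ (1 - β) / 2 * rL L y :=
      mul_le_mul_of_nonneg_left h6 (by linarith)
    linarith
  have h9 := (far_L L.symm).eventually hfin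
  simp only [ContinuousLinearEquiv.apply_symm_apply] at h9
  obtain ⟨R, hR⟩ := far_iff.mp h9
  exact ⟨(1 + β) / 2, by linarith, by linarith, R, hR⟩

end Asy

end Vale.Agent.P366.T1.Boost
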