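import Vale.Agent.P366.T1.Boost.Expand2

/-! Boosted slices: the mass function to first order. -/

open MeasureTheory Metric Filter Topology Set Asymptotics
open scoped ContDiff ENNReal

noncomputable section
namespace Vale.Agent.P366.T1.Boost

open Vale.Agent.P366.T1.A919

variable {n : ℕ}

theorem rho_ratio_near {M : Spacetime} {p : ℝ × ℝ} (hp : 0 < rho p) :
    M.r =ᶠ[𝓝 p] fun q => rho q * M.ratio q := by
  have h1 : ∀ᶠ q : ℝ × ℝ in 𝓝 p, 0 < rho q :=
    (isOpen_lt continuous_const smooth_rho.continuous).mem_nhds hp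
  filter_upwards [h1] with q hq
  have e : M.ratio q = M.r q / rho q := rfl
  rw [e]
  field_simp

namespace Asy

variable {M : Spacetime} {f : E n → ℝ} {L : E n ≃L[ℝ] E n} {D : Stmt.Exterior n} {q : ℝ}
  {U : Set (ℝ × ℝ)} {w : Fin n → ℝ}

theorem dr (A : Asy M f L D q U w) : ∀ᶠ y : E n in far n,
    M.r (pL f L y) = rL L y * M.ratio (pL f L y) ∧
    du M.r (pL f L y) = (rL L y * dT M.ratio (pL f L y) - rL L y * dX M.ratio (pL f L y)
      - M.ratio (pL f L y)) / 2 ∧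
    dv M.r (pL f L y) = (rL L y * dT M.ratio (pL f L y) + rL L y * dX M.ratio (pL f L y)
      + M.ratio (pL f L y)) / 2 := by
  filter_upwards [A.mem, far_gt 0] with y hx h0
  have hρ : 0 < rho (pL f L y) := by
    rw [rho_pL]
    exact rL_pos (norm_pos_iff.mp h0)
  have hn := rho_ratio_near (M := M) hρ
  have hs := diff_of A.openU A.sms hx
  have hprod : DifferentiableAt ℝ (fun p : ℝ × ℝ => rho p * M.ratio p) (pL f L y) :=
    (diff_rho _).mul hs
  have hrd : DifferentiableAt ℝ M.r (pL f L y) := hprod.congr_of_eventuallyEq hn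
  have hT : dT M.r (pL f L y) = rL L y * dT M.ratio (pL f L y) := by
    rw [dT_congr hn, dT_mul (diff_rho _) hs, dT_rho, rho_pL]; ring
  have hX : dX M.r (pL f L y) = rL L y * dX M.ratio (pL f L y) + M.ratio (pL f L y) := by
    rw [dX_congr hn, dX_mul (diff_rho _) hs, dX_rho, rho_pL]; ring
  rw [dT_eq hrd] at hT
  rw [dX_eq hrd] at hX
  refine ⟨?_, by linarith, by linarith⟩
  rw [hn.eq_of_nhds, rho_pL]

theorem mass_near (A : Asy M f L D q U w) : ∃ C R : ℝ, 0 ≤ C ∧ 1 ≤ R ∧ ∀ y : E n, R < ‖y‖ →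
    |M.mass n (pL f L y) - rL L y ^ (n - 2) * muL M (pL f L y)| ≤
      C * (‖y‖ ^ (n - 2) * ‖y‖ ^ (-(q + q))) := by
  obtain ⟨C0, hC0, hmn⟩ := A919.mass_near (n - 2)
  obtain ⟨a0, b0, ha0, hb0, hab⟩ := norm_bounds L
  have hq := A.q0
  have hrX : O q (fun y => rL L y * dX M.ratio (pL f L y)) :=
    (O_rL L).mul' A.sX (by linarith)
  have hrT : O q (fun y => rL L y * dT M.ratio (pL f L y)) :=
    (O_rL L).mul' A.sT (by linarith)
  have hO : O q (fun y : E n => |M.ratio (pL f L y) - 1| + |M.F (pL f L y) - 1| +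
      |rL L y * dX M.ratio (pL f L y)| + |rL L y * dT M.ratio (pL f L y)|) :=
    ((A.s1.abs.add A.F1.abs).add hrX.abs).add hrT.abs
  obtain ⟨C1, R1, hC1, hR1, hb⟩ := O_iff.mp hO
  obtain ⟨R2, hsm⟩ := far_iff.mp (hO.small hq (show (0 : ℝ) < 1 / 2 by norm_num))
  obtain ⟨R3, hR3⟩ := far_iff.mp A.dr
  obtain ⟨R4, hR4⟩ := far_iff.mp A.mem
  refine ⟨1 / 2 * b0 ^ (n - 2) * ((C0 + 3) * C1 ^ 2), max (max R1 R2) (max R3 R4), by positivity,
    le_trans hR1 ((le_max_left _ _).trans (le_max_left _ _)), ?_⟩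
  intro x hx
  have hx1 : R1 < ‖x‖ := lt_of_le_of_lt ((le_max_left _ _).trans (le_max_left _ _)) hx
  have hx2 : R2 < ‖x‖ := lt_of_le_of_lt ((le_max_right _ _).trans (le_max_left _ _)) hx
  have hx3 : R3 < ‖x‖ := lt_of_le_of_lt ((le_max_left _ _).trans (le_max_right _ _)) hx
  have hx4 : R4 < ‖x‖ := lt_of_le_of_lt ((le_max_right _ _).trans (le_max_right _ _)) hx
  have h0 : 0 < ‖x‖ := by linarith
  have hρ0 : 0 < rL L x := rL_pos (norm_pos_iff.mp h0)
  have hb1 := hb x hx1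
  have hs1 := hsm x hx2
  obtain ⟨hr, hu, hv⟩ := hR3 x hx3
  have hF : M.F (pL f L x) ≠ 0 := (M.pos _ (A.subU (hR4 x hx4))).1.ne'
  set δ := |M.ratio (pL f L x) - 1| + |M.F (pL f L x) - 1| +
      |rL L x * dX M.ratio (pL f L x)| + |rL L x * dT M.ratio (pL f L x)| with hδ
  have n1 := abs_nonneg (M.ratio (pL f L x) - 1)
  have n2 := abs_nonneg (M.F (pL f L x) - 1)
  have n3 := abs_nonneg (rL L x * dX M.ratio (pL f L x))
  have n4 := abs_nonneg (rL L x * dT M.ratio (pL f L x))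
  have hδ0 : 0 ≤ δ := by rw [hδ]; positivity
  rw [abs_of_nonneg hδ0] at hb1 hs1
  have key := hmn δ (M.ratio (pL f L x)) (M.F (pL f L x)) (rL L x * dX M.ratio (pL f L x))
    (rL L x * dT M.ratio (pL f L x)) hδ0 hs1 (by rw [hδ]; linarith) (by rw [hδ]; linarith)
    (by rw [hδ]; linarith) (by rw [hδ]; linarith)
  have hρ : rho (pL f L x) = rL L x := rho_pL f L x
  have e1 : M.mass n (pL f L x) - rL L x ^ (n - 2) * muL M (pL f L x) =
      1 / 2 * rL L x ^ (n - 2) * ((M.ratio (pL f L x) ^ (n - 2) *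
        (1 - ((M.ratio (pL f L x) + rL L x * dX M.ratio (pL f L x)) ^ 2 -
          (rL L x * dT M.ratio (pL f L x)) ^ 2) / M.F (pL f L x)) -
        (M.F (pL f L x) - M.ratio (pL f L x) ^ 2 - 2 * M.ratio (pL f L x) *
          (rL L x * dX M.ratio (pL f L x)))) -
        ((M.ratio (pL f L x) - 1) ^ 2 + 2 * (M.ratio (pL f L x) - 1) *
          (rL L x * dX M.ratio (pL f L x)))) := by
    unfold Spacetime.mass muL
    rw [hu, hv, hr, hρ, mul_pow]
    field_simp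
    ring
  have hkey2 : |(M.ratio (pL f L x) - 1) ^ 2 + 2 * (M.ratio (pL f L x) - 1) *
      (rL L x * dX M.ratio (pL f L x))| ≤ 3 * δ ^ 2 := by
    have k1 : |M.ratio (pL f L x) - 1| ≤ δ := by rw [hδ]; linarith
    have k2 : |rL L x * dX M.ratio (pL f L x)| ≤ δ := by rw [hδ]; linarith
    have k3 : |(M.ratio (pL f L x) - 1) ^ 2| ≤ δ ^ 2 := by
      rw [abs_pow]; exact pow_le_pow_left₀ n1 k1 2
    have k4 : |2 * (M.ratio (pL f L x) - 1) * (rL L x * dX M.ratio (pL f L x))| ≤ 2 * δ ^ 2 := by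
      rw [abs_mul, abs_mul, abs_two]
      have := mul_le_mul k1 k2 n3 hδ0
      nlinarith
    refine (abs_add_le _ _).trans ?_
    linarith
  rw [e1, abs_mul, abs_of_pos (by positivity : (0 : ℝ) < 1 / 2 * rL L x ^ (n - 2))]
  have h2 : δ ^ 2 ≤ C1 ^ 2 * ‖x‖ ^ (-(q + q)) := by
    have h3 : δ ^ 2 ≤ (C1 * ‖x‖ ^ (-q)) ^ 2 := pow_le_pow_left₀ hδ0 hb1 2
    rw [mul_pow] at h3
    have h4 : (‖x‖ ^ (-q)) ^ 2 = ‖x‖ ^ (-(q + q)) := by
      rw [sq, ← Real.rpow_add h0]; congr 1; ring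
    rwa [h4] at h3
  have h5 : rL L x ^ (n - 2) ≤ b0 ^ (n - 2) * ‖x‖ ^ (n - 2) := by
    rw [← mul_pow]
    exact pow_le_pow_left₀ hρ0.le (hab x).1 _
  calc 1 / 2 * rL L x ^ (n - 2) * _ ≤ 1 / 2 * rL L x ^ (n - 2) * (C0 * δ ^ 2 + 3 * δ ^ 2) :=
        mul_le_mul_of_nonneg_left ((abs_sub _ _).trans (add_le_add key hkey2)) (by positivity)
    _ = 1 / 2 * rL L x ^ (n - 2) * ((C0 + 3) * δ ^ 2) := by ring
    _ ≤ 1 / 2 * (b0 ^ (n - 2) * ‖x‖ ^ (n - 2)) * ((C0 + 3) * (C1 ^ 2 * ‖x‖ ^ (-(q + q)))) := by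
        refine mul_le_mul ?_ (mul_le_mul_of_nonneg_left h2 (by positivity)) (by positivity)
          (by positivity)
        exact mul_le_mul_of_nonneg_left h5 (by norm_num)
    _ = _ := by ring

end Asy

end Vale.Agent.P366.T1.Boost
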