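import Vale.Agent.P366.T1.A919g

/-! Boosted slices: linear changes of coordinates. -/

set_option linter.all false

open MeasureTheory Metric Filter Topology Set Asymptotics
open scoped ContDiff ENNReal RealInnerProductSpace Matrix

noncomputable section
namespace Vale.Agent.P366.T1.Boost

open Vale.Agent.P366.T1.A919

variable {n : ℕ}

/-- the matrix entries `L_ki` of `L` -/
def Lc (L : E n ≃L[ℝ] E n) (k i : Fin n) : ℝ := (L (EuclideanSpace.single i (1 : ℝ))) k

/-- the matrix of `L` -/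
def Lm (L : E n ≃L[ℝ] E n) : Matrix (Fin n) (Fin n) ℝ := Matrix.of (Lc L)

/-- the pull back of a field of bilinear forms -/
def pull (L : E n ≃L[ℝ] E n) (G : Stmt.Field n) : Stmt.Field n := fun y i j =>
  ∑ k, ∑ l, Lc L k i * Lc L l j * G (L y) k l

variable (L : E n ≃L[ℝ] E n)

theorem L_apply (y : E n) (k : Fin n) : (L y) k = ∑ i, Lc L k i * y i := by
  have hy : y = ∑ i, y i • (EuclideanSpace.single i (1 : ℝ) : E n) := by
    ext j
    simp only [WithLp.ofLp_sum, WithLp.ofLp_smul, PiLp.ofLp_single, Finset.sum_apply,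
      Pi.smul_apply, Pi.single_apply, smul_eq_mul, mul_ite, mul_one, mul_zero, Finset.sum_ite_eq,
      Finset.mem_univ, ↓reduceIte]
  conv_lhs => rw [hy]
  rw [map_sum]
  simp only [map_smul, WithLp.ofLp_sum, WithLp.ofLp_smul, Finset.sum_apply, Pi.smul_apply,
    smul_eq_mul]
  exact Finset.sum_congr rfl fun i _ => by unfold Lc; ring

theorem Lm_mul_symm : Lm L * Lm L.symm = 1 := by
  ext i j
  rw [Matrix.mul_apply, Matrix.one_apply]
  have h := L_apply L (L.symm (EuclideanSpace.single j (1 : ℝ))) i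
  rw [ContinuousLinearEquiv.apply_symm_apply] at h
  have h2 : (EuclideanSpace.single j (1 : ℝ) : E n) i = if i = j then 1 else 0 := by
    simp [Pi.single_apply]
  rw [h2] at h
  rw [h]; rfl

theorem Lm_symm_mul : Lm L.symm * Lm L = 1 := by
  have := Lm_mul_symm L.symm
  rwa [ContinuousLinearEquiv.symm_symm] at this

theorem pd_comp {u : E n → ℝ} {y : E n} (hu : DifferentiableAt ℝ u (L y)) (i : Fin n) :
    pd i (fun z => u (L z)) y = ∑ k, Lc L k i * pd k u (L y) := by
  unfold pd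
  have h1 : HasFDerivAt (fun z => u (L z)) ((fderiv ℝ u (L y)).comp (L : E n →L[ℝ] E n)) y :=
    hu.hasFDerivAt.comp y L.hasFDerivAt
  rw [h1.fderiv]
  have h2 := fderiv_eq_sum_pd u (L y) (L (EuclideanSpace.single i (1 : ℝ)))
  exact h2

theorem diff_comp {u : E n → ℝ} {y : E n} (hu : DifferentiableAt ℝ u (L y)) :
    DifferentiableAt ℝ (fun z => u (L z)) y :=
  (hu.hasFDerivAt.comp y L.hasFDerivAt).differentiableAt

theorem Spd_comp {u : E n → ℝ} {y : E n} (hu : DifferentiableAt ℝ u (L y)) (i : Fin n) :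
    Stmt.pd i (fun z => u (L z)) y = ∑ k, Lc L k i * Stmt.pd k u (L y) := by
  rw [pd_eq (diff_comp L hu), pd_comp L hu]
  exact Finset.sum_congr rfl fun k _ => by rw [pd_eq hu]

theorem mat_pull (G : Stmt.Field n) (y : E n) :
    Stmt.mat (pull L G) y = (Lm L)ᵀ * Stmt.mat G (L y) * Lm L := by
  ext i j
  rw [Matrix.mul_apply]
  simp only [Matrix.mul_apply, Matrix.transpose_apply, Finset.sum_mul]
  rw [Finset.sum_comm]
  show ∑ k, ∑ l, Lc L k i * Lc L l j * G (L y) k l = _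
  refine Finset.sum_congr rfl fun k _ => Finset.sum_congr rfl fun l _ => ?_
  show _ = Lc L k i * G (L y) k l * Lc L l j
  ring

theorem det_pull (G : Stmt.Field n) (y : E n) :
    (Stmt.mat (pull L G) y).det = (Lm L).det * (Stmt.mat G (L y)).det * (Lm L).det := by
  rw [mat_pull, Matrix.det_mul, Matrix.det_mul, Matrix.det_transpose]

theorem det_Lm_ne : (Lm L).det ≠ 0 := by
  intro h
  have h1 := congrArg Matrix.det (Lm_mul_symm L)
  rw [Matrix.det_mul, h, zero_mul, Matrix.det_one] at h1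
  exact zero_ne_one h1

theorem inv_pull {G : Stmt.Field n} {y : E n} (h : (Stmt.mat (pull L G) y).det ≠ 0) :
    (Stmt.mat G (L y))⁻¹ = Lm L * (Stmt.mat (pull L G) y)⁻¹ * (Lm L)ᵀ := by
  have hu : IsUnit (Stmt.mat (pull L G) y).det := isUnit_iff_ne_zero.mpr h
  have e1 : Stmt.mat G (L y) = (Lm L.symm)ᵀ * Stmt.mat (pull L G) y * Lm L.symm := by
    rw [mat_pull]
    have a1 : (Lm L.symm)ᵀ * (Lm L)ᵀ = 1 := by
      rw [← Matrix.transpose_mul, Lm_mul_symm, Matrix.transpose_one]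
    calc Stmt.mat G (L y) = 1 * Stmt.mat G (L y) * 1 := by rw [one_mul, mul_one]
      _ = ((Lm L.symm)ᵀ * (Lm L)ᵀ) * Stmt.mat G (L y) * (Lm L * Lm L.symm) := by
          rw [a1, Lm_mul_symm]
      _ = _ := by simp only [Matrix.mul_assoc]
  apply Matrix.inv_eq_right_inv
  rw [e1]
  have a2 : Lm L.symm * Lm L = 1 := Lm_symm_mul L
  have a3 : (Lm L.symm)ᵀ * (Lm L)ᵀ = 1 := by
    rw [← Matrix.transpose_mul, Lm_mul_symm, Matrix.transpose_one]
  calc (Lm L.symm)ᵀ * Stmt.mat (pull L G) y * Lm L.symm *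
        (Lm L * (Stmt.mat (pull L G) y)⁻¹ * (Lm L)ᵀ) =
        (Lm L.symm)ᵀ * (Stmt.mat (pull L G) y * ((Lm L.symm * Lm L) *
          (Stmt.mat (pull L G) y)⁻¹)) * (Lm L)ᵀ := by simp only [Matrix.mul_assoc]
    _ = 1 := by rw [a2, one_mul, Matrix.mul_nonsing_inv _ hu, mul_one, a3]

theorem Spd_pull {G : Stmt.Field n} {y : E n}
    (hG : ∀ k l, DifferentiableAt ℝ (fun x => G x k l) (L y)) (m i j : Fin n) :
    Stmt.pd m (fun z => pull L G z i j) y =
      ∑ k, ∑ l, ∑ p, Lc L k i * Lc L l j * Lc L p m * Stmt.pd p (fun x => G x k l) (L y) := by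
  have hd : ∀ k l, DifferentiableAt ℝ (fun z => G (L z) k l) y := fun k l => diff_comp L (hG k l)
  have hd1 : ∀ k l, DifferentiableAt ℝ (fun z => Lc L k i * Lc L l j * G (L z) k l) y :=
    fun k l => (hd k l).const_mul _
  have hd2 : ∀ k, DifferentiableAt ℝ (fun z => ∑ l, Lc L k i * Lc L l j * G (L z) k l) y :=
    fun k => DifferentiableAt.fun_sum fun l _ => hd1 k l
  have hdd : DifferentiableAt ℝ (fun z => pull L G z i j) y :=
    DifferentiableAt.fun_sum fun k _ => hd2 k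
  rw [pd_eq hdd]
  unfold pull
  rw [pd_sum _ (fun k _ => hd2 k)]
  refine Finset.sum_congr rfl fun k _ => ?_
  rw [pd_sum _ (fun l _ => hd1 k l)]
  refine Finset.sum_congr rfl fun l _ => ?_
  have e : (fun z => Lc L k i * Lc L l j * G (L z) k l) =
      fun z => (fun z => G (L z) k l) z * (Lc L k i * Lc L l j) := by funext z; ring
  rw [e, pd_mul_const (hd k l), pd_comp L (hG k l), Finset.sum_mul]
  refine Finset.sum_congr rfl fun p _ => ?_
  rw [pd_eq (hG k l)]
  ring

/-- contraction of the Christoffel symbols with a covector -/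
theorem chr_contr (G : Stmt.Field n) (x : E n) (k l : Fin n) (w : Fin n → ℝ) :
    ∑ m, Stmt.chr G m k l x * w m = 1 / 2 * (w ⬝ᵥ ((Stmt.mat G x)⁻¹ *ᵥ fun p =>
      Stmt.pd k (fun y => G y l p) x + Stmt.pd l (fun y => G y k p) x -
        Stmt.pd p (fun y => G y k l) x)) := by
  unfold Stmt.chr Stmt.up
  simp only [dotProduct, Matrix.mulVec, Finset.mul_sum]
  refine Finset.sum_congr rfl fun m _ => ?_
  rw [div_mul_eq_mul_div, Finset.sum_mul, Finset.sum_div]
  refine Finset.sum_congr rfl fun p _ => ?_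
  ring

theorem chr_pull {G : Stmt.Field n} {y : E n}
    (hG : ∀ k l, DifferentiableAt ℝ (fun x => G x k l) (L y))
    (h : (Stmt.mat (pull L G) y).det ≠ 0) (w : Fin n → ℝ) (i j : Fin n) :
    ∑ k, ∑ l, Lc L k i * Lc L l j * ∑ m, Stmt.chr G m k l (L y) * w m =
      ∑ m, Stmt.chr (pull L G) m i j y * ∑ k, Lc L k m * w k := by
  rw [chr_contr]
  simp only [chr_contr]
  rw [inv_pull L h]
  set W : Fin n → ℝ := fun m => ∑ k, Lc L k m * w k with hW
  have hWv : w ᵥ* Lm L = W := by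
    funext m
    rw [hW]
    simp only [Matrix.vecMul, dotProduct]
    exact Finset.sum_congr rfl fun k _ => mul_comm _ _
  set g' := (Stmt.mat (pull L G) y)⁻¹ with hg'
  have e1 : ∀ c : Fin n → ℝ, w ⬝ᵥ ((Lm L * g' * (Lm L)ᵀ) *ᵥ c) = (W ᵥ* g') ⬝ᵥ ((Lm L)ᵀ *ᵥ c) := by
    intro c
    rw [← Matrix.mulVec_mulVec, ← Matrix.mulVec_mulVec, Matrix.dotProduct_mulVec,
      Matrix.dotProduct_mulVec, hWv]
  have e2 : ∀ c : Fin n → ℝ, W ⬝ᵥ (g' *ᵥ c) = (W ᵥ* g') ⬝ᵥ c := fun c =>
    Matrix.dotProduct_mulVec _ _ _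
  simp only [e1, e2]
  set v := W ᵥ* g' with hv
  -- both sides are sums against `v`
  have e3 : ∀ k l, Lc L k i * Lc L l j * (1 / 2 * (v ⬝ᵥ ((Lm L)ᵀ *ᵥ fun p =>
      Stmt.pd k (fun y => G y l p) (L y) + Stmt.pd l (fun y => G y k p) (L y) -
        Stmt.pd p (fun y => G y k l) (L y)))) = ∑ b, v b * (1 / 2 * ∑ p, Lc L k i * Lc L l j *
        Lc L p b * (Stmt.pd k (fun y => G y l p) (L y) + Stmt.pd l (fun y => G y k p) (L y) -
        Stmt.pd p (fun y => G y k l) (L y))) := by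
    intro k l
    simp only [dotProduct, Matrix.mulVec, Matrix.transpose_apply, Finset.mul_sum]
    refine Finset.sum_congr rfl fun b _ => Finset.sum_congr rfl fun p _ => ?_
    show Lc L k i * Lc L l j * (1 / 2 * (v b * (Lc L p b * _))) = _
    ring
  simp only [e3]
  have e4 : ∀ F : Fin n → Fin n → Fin n → ℝ, ∑ k, ∑ l, ∑ b, F k l b = ∑ b, ∑ k, ∑ l, F k l b := by
    intro F
    rw [Finset.sum_congr rfl fun k _ => Finset.sum_comm, Finset.sum_comm]
  rw [e4]
  simp only [dotProduct]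
  rw [Finset.mul_sum]
  refine Finset.sum_congr rfl fun b _ => ?_
  simp only [← Finset.mul_sum]
  rw [Spd_pull L hG, Spd_pull L hG, Spd_pull L hG]
  simp only [mul_add, mul_sub, Finset.sum_add_distrib, Finset.sum_sub_distrib]
  -- first term
  have t1 : ∑ k, ∑ l, ∑ p, Lc L k i * Lc L l j * Lc L p b * Stmt.pd k (fun y => G y l p) (L y) =
      ∑ k, ∑ l, ∑ p, Lc L k j * Lc L l b * Lc L p i * Stmt.pd p (fun x => G x k l) (L y) := by
    rw [Finset.sum_comm]
    refine Finset.sum_congr rfl fun l _ => ?_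
    rw [Finset.sum_comm]
    refine Finset.sum_congr rfl fun p _ => Finset.sum_congr rfl fun k _ => ?_
    ring
  have t2 : ∑ k, ∑ l, ∑ p, Lc L k i * Lc L l j * Lc L p b * Stmt.pd l (fun y => G y k p) (L y) =
      ∑ k, ∑ l, ∑ p, Lc L k i * Lc L l b * Lc L p j * Stmt.pd p (fun x => G x k l) (L y) := by
    refine Finset.sum_congr rfl fun k _ => ?_
    rw [Finset.sum_comm]
    refine Finset.sum_congr rfl fun p _ => Finset.sum_congr rfl fun l _ => ?_
    ring
  rw [t1, t2]
  ring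

end Vale.Agent.P366.T1.Boost
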