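import Vale.Agent.P366.T1.Boost.FluxA

/-! Boosted slices: the component of the energy-momentum vector along the boost. -/

set_option linter.all false

open MeasureTheory Metric Filter Topology Set Asymptotics
open scoped ContDiff ENNReal RealInnerProductSpace Matrix

noncomputable section
namespace Vale.Agent.P366.T1.Boost

open Vale.Agent.P366.T1.A919

variable {n : ℕ}

theorem cont_Wt (L : E n ≃L[ℝ] E n) {b : ℝ} (hb : 0 ≤ b) :
    ContinuousOn (Wt L) {x : E n | b < ‖x‖} := by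
  intro x hx
  have hx0 : x ≠ 0 := norm_pos_iff.mp (lt_of_le_of_lt hb hx)
  refine ContinuousAt.continuousWithinAt ?_
  unfold Wt
  exact (continuous_norm.continuousAt.div (smooth_rL L hx0).continuousAt
    (rL_pos hx0).ne').pow n

theorem Wt_bounds {L : E n ≃L[ℝ] E n} {w : Fin n → ℝ}
    (hG : ∀ i j, G0 L i j = (if i = j then 1 else 0) + w i * w j) {y : E n} (hy : y ≠ 0) :
    0 ≤ Wt L y ∧ Wt L y ≤ 1 := by
  have h1 := rL_ge hG y
  have h2 := rL_pos (L := L) hy
  have h3 : 0 ≤ ‖y‖ / rL L y := by positivity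
  exact ⟨pow_nonneg h3 n, pow_le_one₀ h3 (div_le_one_of_le₀ h1 h2.le)⟩

namespace Asy

variable {M : Spacetime} {f : E n → ℝ} {L : E n ≃L[ℝ] E n} {D : Stmt.Exterior n} {q : ℝ}
  {U : Set (ℝ × ℝ)} {w : Fin n → ℝ}

theorem dens_mass (hn : 3 ≤ n) (A : Asy M f L D q U w) {T : E n → ℝ}
    (hT : O (q + q + 1) (fun y => T y -
      ((n : ℝ) - 1) * (gam w * (muL M (pL f L y) * ‖y‖ / rL L y ^ 2))))
    (hmass : ∃ C R : ℝ, 0 ≤ C ∧ 1 ≤ R ∧ ∀ y : E n, R < ‖y‖ →
      |M.mass n (pL f L y) - rL L y ^ (n - 2) * muL M (pL f L y)| ≤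
        C * (‖y‖ ^ (n - 2) * ‖y‖ ^ (-(q + q)))) :
    ∃ C R : ℝ, 0 ≤ C ∧ 1 ≤ R ∧ ∀ y : E n, R < ‖y‖ →
      |‖y‖ ^ (n - 1) * T y - ((n : ℝ) - 1) * gam w * (M.mass n (pL f L y) * Wt L y)| ≤
        C * (‖y‖ ^ (n - 2) * ‖y‖ ^ (-(q + q))) := by
  obtain ⟨C1, R1, hC1, hR1, h1⟩ := O_iff.mp hT
  obtain ⟨C2, R2, hC2, hR2, h2⟩ := hmass
  have hn1 : (0 : ℝ) ≤ (n : ℝ) - 1 := by
    have : (3 : ℝ) ≤ n := by exact_mod_cast hn
    linarith
  have hγ := gam_pos w
  refine ⟨C1 + ((n : ℝ) - 1) * gam w * C2, max R1 R2, by positivity,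
    le_max_of_le_left hR1, ?_⟩
  intro y hy
  have hy1 : R1 < ‖y‖ := lt_of_le_of_lt (le_max_left _ _) hy
  have hy2 : R2 < ‖y‖ := lt_of_le_of_lt (le_max_right _ _) hy
  have h0 : 0 < ‖y‖ := by linarith
  have hy0 : y ≠ 0 := norm_pos_iff.mp h0
  have hρ := rL_pos (L := L) hy0
  have k1 := h1 y hy1
  have k2 := h2 y hy2
  obtain ⟨hW0, hW1⟩ := Wt_bounds A.hG hy0
  have e1 : ‖y‖ ^ (n - 1) = ‖y‖ ^ (n - 2) * ‖y‖ := by
    rw [← pow_succ]; congr 1; omega
  have e2 : ‖y‖ ^ (-(q + q + 1)) * ‖y‖ = ‖y‖ ^ (-(q + q)) := by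
    have := Real.rpow_add h0 (-(q + q + 1)) 1
    rw [Real.rpow_one] at this
    rw [← this]; congr 1; ring
  have e4 : ‖y‖ ^ (n - 1) * (‖y‖ / rL L y ^ 2) = Wt L y * rL L y ^ (n - 2) := by
    unfold Wt
    obtain ⟨k, rfl⟩ : ∃ k, n = k + 3 := ⟨n - 3, by omega⟩
    have a1 : k + 3 - 1 = k + 2 := rfl
    have a2 : k + 3 - 2 = k + 1 := rfl
    rw [a1, a2, div_pow]
    field_simp
    ring
  set N := ‖y‖ ^ (n - 2) with hN
  have hN0 : 0 < N := by rw [hN]; positivity
  set S := ‖y‖ ^ (-(q + q)) with hS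
  have hS0 : 0 ≤ S := Real.rpow_nonneg h0.le _
  set mu := muL M (pL f L y) with hmu
  have e3 : ‖y‖ ^ (n - 1) * T y - ((n : ℝ) - 1) * gam w * (M.mass n (pL f L y) * Wt L y) =
      N * ‖y‖ * (T y - ((n : ℝ) - 1) * (gam w * (mu * ‖y‖ / rL L y ^ 2))) -
      ((n : ℝ) - 1) * gam w * (Wt L y * (M.mass n (pL f L y) - rL L y ^ (n - 2) * mu)) := by
    have e5 : ‖y‖ ^ (n - 1) * (((n : ℝ) - 1) * (gam w * (mu * ‖y‖ / rL L y ^ 2))) =
        ((n : ℝ) - 1) * gam w * mu * (Wt L y * rL L y ^ (n - 2)) := by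
      rw [← e4]; ring
    rw [← e1, mul_sub, e5]
    ring
  rw [e3]
  have b1 : |N * ‖y‖ * (T y - ((n : ℝ) - 1) * (gam w * (mu * ‖y‖ / rL L y ^ 2)))| ≤
      C1 * (N * S) := by
    rw [abs_mul, abs_of_pos (by positivity : 0 < N * ‖y‖)]
    calc N * ‖y‖ * _ ≤ N * ‖y‖ * (C1 * ‖y‖ ^ (-(q + q + 1))) :=
          mul_le_mul_of_nonneg_left k1 (by positivity)
      _ = C1 * (N * (‖y‖ ^ (-(q + q + 1)) * ‖y‖)) := by ring
      _ = C1 * (N * S) := by rw [e2]
  have b2 : |((n : ℝ) - 1) * gam w * (Wt L y * (M.mass n (pL f L y) - rL L y ^ (n - 2) * mu))| ≤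
      ((n : ℝ) - 1) * gam w * C2 * (N * S) := by
    rw [abs_mul, abs_of_nonneg (by positivity : 0 ≤ ((n : ℝ) - 1) * gam w), abs_mul,
      abs_of_nonneg hW0]
    calc ((n : ℝ) - 1) * gam w * (Wt L y * _) ≤ ((n : ℝ) - 1) * gam w * (1 * (C2 * (N * S))) :=
          mul_le_mul_of_nonneg_left (mul_le_mul hW1 k2 (abs_nonneg _) (by norm_num))
            (by positivity)
      _ = _ := by ring
  calc _ ≤ C1 * (N * S) + ((n : ℝ) - 1) * gam w * C2 * (N * S) :=
        (abs_sub _ _).trans (add_le_add b1 b2)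
    _ = _ := by ring

/-- the combination of the energy and the momentum along the boost is the limit of the mass -/
theorem part_a (hn : 3 ≤ n) (hE : M.DEC n) (A : Asy M f L D q U w) (hq : (n : ℝ) / 2 - 1 < q)
    (hmass : ∃ C R : ℝ, 0 ≤ C ∧ 1 ≤ R ∧ ∀ y : E n, R < ‖y‖ →
      |M.mass n (pL f L y) - rL L y ^ (n - 2) * muL M (pL f L y)| ≤
        C * (‖y‖ ^ (n - 2) * ‖y‖ ^ (-(q + q))))
    {c R0 b : ℝ} (hbc : b < c) (hb0 : 0 ≤ b) (hb1 : b < 1)
    (hW : ∀ p : ℝ × ℝ, ∀ ρ, ρ = (p.2 - p.1) / 2 → R0 < ρ → |(p.2 + p.1) / 2| ≤ c * ρ →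
      p ∈ M.Q ∧ du M.r p < 0 ∧ 0 < dv M.r p)
    (hf : ∃ R, ∀ x : E n, R < ‖x‖ → |f x| ≤ b * ‖x‖)
    {m : ℝ} {P : Fin n → ℝ} (hm : D.IsEnergy m) (hP : D.IsMomentum P) :
    Tendsto (fun x : E n => M.mass n (uv f x)) (far n) (𝓝 (gam w * m - ∑ i, w i * P i)) ∧
      ∀ᶠ x in far n, M.mass n (uv f x) ≤ gam w * m - ∑ i, w i * P i := by
  haveI : Nonempty (Fin n) := ⟨⟨0, by omega⟩⟩
  haveI : Nontrivial (E n) := inferInstance
  have hn1 : (0 : ℝ) < (n : ℝ) - 1 := by
    have : (3 : ℝ) ≤ n := by exact_mod_cast hn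
    linarith
  have hω : 0 < omega n := omega_pos'
  have hγ := gam_pos w
  obtain ⟨R1, tE, tP, hR1, hcE, hcP, hI, hdE, hdP⟩ := A.fluxes hn
  set m1 := gam w * m - ∑ i, w i * P i with hm1
  set T : E n → ℝ := fun y => gam w * tE y - ∑ i, w i * tP i y with hT
  have hcT1 : ContinuousOn (fun y => gam w * tE y) {x : E n | R1 < ‖x‖} :=
    continuousOn_const.mul hcE
  have hcT2 : ∀ i ∈ Finset.univ, ContinuousOn (fun y => w i * tP i y) {x : E n | R1 < ‖x‖} :=
    fun i _ => continuousOn_const.mul (hcP i)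
  have hcT3 : ContinuousOn (fun y => ∑ i, w i * tP i y) {x : E n | R1 < ‖x‖} :=
    continuousOn_finsetSum _ hcT2
  have hcT : ContinuousOn T {x : E n | R1 < ‖x‖} := hcT1.sub hcT3
  have hlimT : Tendsto (fun R : ℝ => R ^ (n - 1) * sphI T R) atTop
      (𝓝 (((n : ℝ) - 1) * omega n * m1)) := by
    have h1 := ((lim_E hn hm).const_mul (gam w)).sub
      (tendsto_finsetSum Finset.univ fun i _ => (lim_P hn hP i).const_mul (w i))
    have e : gam w * (((n : ℝ) - 1) * omega n * m) -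
        ∑ i, w i * (((n : ℝ) - 1) * omega n * P i) = ((n : ℝ) - 1) * omega n * m1 := by
      rw [hm1, mul_sub, Finset.mul_sum]
      congr 1
      · ring
      · exact Finset.sum_congr rfl fun i _ => by ring
    rw [e] at h1
    refine h1.congr' ?_
    filter_upwards [eventually_gt_atTop R1] with R hR
    rw [hT, sphI_sub hR1 hR hcT1 hcT3, sphI_sum hR1 hR _ hcT2, sphI_const_mul, (hI R hR).1,
      mul_sub, Finset.mul_sum]
    congr 1
    · ring
    · refine Finset.sum_congr rfl fun i _ => ?_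
      rw [sphI_const_mul, (hI R hR).2 i]
      ring
  obtain ⟨C, R2, hC0, hR2, hdm⟩ := A.dens_mass hn (A.dens_a hdE hdP) hmass
  have herr : Tendsto (fun R : ℝ => C * (R ^ (n - 2) * R ^ (-(q + q)))) atTop (𝓝 0) := by
    have := (An.tend_pow hn hq).const_mul C
    rwa [mul_zero] at this
  have hWI : ∀ R, 0 < R → sphI (Wt L) R = omega n / gam w := fun R hR =>
    sphI_Wt (by omega) A.hG hR
  -- a bound of the mass at some points
  have hC : ∀ R : ℝ, ∃ x : E n, R < ‖x‖ ∧ M.mass n (uv f x) ≤ m1 + 1 := by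
    by_contra hcon
    push Not at hcon
    obtain ⟨R3, hR3⟩ := hcon
    have hle : ((n : ℝ) - 1) * omega n * (m1 + 1) - 0 * omega n ≤ ((n : ℝ) - 1) * omega n * m1 := by
      refine le_of_tendsto_of_tendsto (tendsto_const_nhds.sub (herr.mul_const (omega n))) hlimT ?_
      filter_upwards [eventually_gt_atTop (max (max R1 R2) R3)] with R hR
      have hRR1 : R1 < R := lt_of_le_of_lt ((le_max_left _ _).trans (le_max_left _ _)) hR
      have hRR2 : R2 < R := lt_of_le_of_lt ((le_max_right _ _).trans (le_max_left _ _)) hR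
      have hRR3 : R3 < R := lt_of_le_of_lt (le_max_right _ _) hR
      have hR0 : 0 < R := by linarith
      have h1 := sphI_mono hR1 hRR1
        (u := fun y => ((n : ℝ) - 1) * gam w * (m1 + 1) * Wt L y -
          C * (R ^ (n - 2) * R ^ (-(q + q)))) (v := fun y => R ^ (n - 1) * T y)
        ((continuousOn_const.mul (cont_Wt L hR1)).sub continuousOn_const)
        (continuousOn_const.mul hcT) (fun y hy => by
          have hy0 : y ≠ 0 := norm_pos_iff.mp (by rw [hy]; exact hR0)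
          have k1 := hdm y (by rw [hy]; exact hRR2)
          have k2 := hR3 (L y) (lt_of_lt_of_le (by rw [hy]; exact hRR3) (rL_ge A.hG y))
          have k3 : M.mass n (pL f L y) = M.mass n (uv f (L y)) := rfl
          rw [← k3] at k2
          rw [hy] at k1
          have k4 := (abs_le.mp k1).1
          obtain ⟨hW0, hW1⟩ := Wt_bounds A.hG hy0
          have k5 : ((n : ℝ) - 1) * gam w * ((m1 + 1) * Wt L y) ≤
              ((n : ℝ) - 1) * gam w * (M.mass n (pL f L y) * Wt L y) :=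
            mul_le_mul_of_nonneg_left (mul_le_mul_of_nonneg_right k2.le hW0) (by positivity)
          linarith)
      have hcW : ContinuousOn (fun y => ((n : ℝ) - 1) * gam w * (m1 + 1) * Wt L y)
        {x : E n | R1 < ‖x‖} := continuousOn_const.mul (cont_Wt L hR1)
      have hcC : ContinuousOn (fun _ : E n => C * (R ^ (n - 2) * R ^ (-(q + q))))
        {x : E n | R1 < ‖x‖} := continuousOn_const
      have e2 : sphI (fun y => R ^ (n - 1) * T y) R = R ^ (n - 1) * sphI T R :=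
        sphI_const_mul _ _
      rw [sphI_sub hR1 hRR1 hcW hcC, e2, sphI_const_mul, sphI_const, hWI R hR0] at h1
      have e : ((n : ℝ) - 1) * gam w * (m1 + 1) * (omega n / gam w) =
          ((n : ℝ) - 1) * omega n * (m1 + 1) := by field_simp
      rw [e] at h1
      exact h1
    have : 0 < ((n : ℝ) - 1) * omega n := by positivity
    nlinarith
  obtain ⟨M0, -, hlim, hle⟩ := mass_unif hn hE hbc hb0 hb1 hW hf hC
  -- the limit
  have hlimL : Tendsto (fun y : E n => M.mass n (pL f L y)) (far n) (𝓝 M0) := hlim.comp (far_L L)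
  have hkey : ∀ ε : ℝ, 0 < ε → |((n : ℝ) - 1) * omega n * m1 - ((n : ℝ) - 1) * omega n * M0| ≤
      (0 + ((n : ℝ) - 1) * gam w * ε) * omega n := by
    intro ε hε
    have h1 : ∀ᶠ y in far n, |M.mass n (pL f L y) - M0| ≤ ε := by
      have := hlimL.eventually (Metric.closedBall_mem_nhds M0 hε)
      filter_upwards [this] with y hy
      rw [← Real.norm_eq_abs, ← dist_eq_norm]
      exact hy
    obtain ⟨R3, hR3⟩ := far_iff.mp h1
    refine le_of_tendsto_of_tendsto (hlimT.sub tendsto_const_nhds).abs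
      ((herr.add_const _).mul_const (omega n)) ?_
    filter_upwards [eventually_gt_atTop (max (max R1 R2) R3)] with R hR
    have hRR1 : R1 < R := lt_of_le_of_lt ((le_max_left _ _).trans (le_max_left _ _)) hR
    have hRR2 : R2 < R := lt_of_le_of_lt ((le_max_right _ _).trans (le_max_left _ _)) hR
    have hRR3 : R3 < R := lt_of_le_of_lt (le_max_right _ _) hR
    have hR0 : 0 < R := by linarith
    have h2 := sphI_close hR1 hRR1 (u := fun y => R ^ (n - 1) * T y)
      (v := fun y => ((n : ℝ) - 1) * gam w * M0 * Wt L y)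
      (B := C * (R ^ (n - 2) * R ^ (-(q + q))) + ((n : ℝ) - 1) * gam w * ε)
      (continuousOn_const.mul hcT) (continuousOn_const.mul (cont_Wt L hR1)) (fun y hy => by
        have hy0 : y ≠ 0 := norm_pos_iff.mp (by rw [hy]; exact hR0)
        have k1 := hdm y (by rw [hy]; exact hRR2)
        have k2 := hR3 y (by rw [hy]; exact hRR3)
        rw [hy] at k1
        obtain ⟨hW0, hW1⟩ := Wt_bounds A.hG hy0
        have e : R ^ (n - 1) * T y - ((n : ℝ) - 1) * gam w * M0 * Wt L y =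
          (R ^ (n - 1) * T y - ((n : ℝ) - 1) * gam w * (M.mass n (pL f L y) * Wt L y)) +
          ((n : ℝ) - 1) * gam w * ((M.mass n (pL f L y) - M0) * Wt L y) := by ring
        rw [e]
        refine (abs_add_le _ _).trans (add_le_add k1 ?_)
        rw [abs_mul, abs_of_nonneg (by positivity : 0 ≤ ((n : ℝ) - 1) * gam w), abs_mul,
          abs_of_nonneg hW0]
        refine mul_le_mul_of_nonneg_left ?_ (by positivity)
        calc _ ≤ ε * 1 := mul_le_mul k2 hW1 hW0 hε.le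
          _ = ε := mul_one ε)
    rw [sphI_const_mul, sphI_const_mul, hWI R hR0] at h2
    have e : ((n : ℝ) - 1) * gam w * M0 * (omega n / gam w) =
        ((n : ℝ) - 1) * omega n * M0 := by field_simp
    rw [e] at h2
    exact h2
  have heq : m1 = M0 := by
    have h1 : |((n : ℝ) - 1) * omega n * m1 - ((n : ℝ) - 1) * omega n * M0| ≤ 0 := by
      refine le_of_forall_pos_le_add fun ε hε => ?_
      have hpos : 0 < ((n : ℝ) - 1) * gam w * omega n := by positivity
      have h2 := hkey (ε / (((n : ℝ) - 1) * gam w * omega n)) (by positivity)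
      refine h2.trans (le_of_eq ?_)
      field_simp
      ring
    have h2 := abs_nonpos_iff.mp h1
    have h3 : ((n : ℝ) - 1) * omega n * (m1 - M0) = 0 := by rw [mul_sub]; exact h2
    rcases mul_eq_zero.mp h3 with h | h
    · exact absurd h (by positivity)
    · linarith
  rw [heq]
  exact ⟨hlim, hle⟩

end Asy

end Vale.Agent.P366.T1.Boost
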