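import Vale.Agent.P366.T1.Boost.PartA
import Vale.Agent.P366.T1.Boost.Help370

/-! Boosted slices: the components of the energy-momentum vector orthogonal to the boost. -/

set_option linter.all false

open MeasureTheory Metric Filter Topology Set Asymptotics
open scoped ContDiff ENNReal RealInnerProductSpace Matrix

noncomputable section
namespace Vale.Agent.P366.T1.Boost

open Vale.Agent.P366.T1.A919

variable {n : ℕ}

theorem integrable_fderiv_sph {b r : ℝ} (hb : 0 ≤ b) (hr : b < r) {h : E n → ℝ}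
    (hh : ContDiffOn ℝ 1 h {x | b < ‖x‖}) :
    Integrable (fun θ : sphere (0 : E n) 1 => fderiv ℝ h (r • (θ : E n)) (θ : E n)) (sphM n) := by
  have hfd : ContinuousOn (fderiv ℝ h) {x | b < ‖x‖} :=
    hh.continuousOn_fderiv_of_isOpen (isOpen_outside b) le_rfl
  have h1 : Continuous (fun θ : sphere (0 : E n) 1 => fderiv ℝ h (r • (θ : E n)) (θ : E n)) := by
    have h2 : Continuous (fun θ : sphere (0 : E n) 1 => fderiv ℝ h (r • (θ : E n))) := by
      rw [← continuousOn_univ]
      refine hfd.comp (cont_smul_sph1 r).continuousOn ?_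
      intro θ _
      have h0 : 0 ≤ r := le_trans hb hr.le
      simp only [mem_ofPred_eq, norm_smul_sph h0]
      exact hr
    exact h2.clm_apply continuous_subtype_val
  exact h1.integrable_of_hasCompactSupport (HasCompactSupport.of_compactSpace _)

namespace Asy

variable {M : Spacetime} {f : E n → ℝ} {L : E n ≃L[ℝ] E n} {D : Stmt.Exterior n} {q : ℝ}
  {U : Set (ℝ × ℝ)} {w : Fin n → ℝ}

theorem smooth_mL (A : Asy M f L D q U w) : ∃ R : ℝ, 0 ≤ R ∧
    ContDiffOn ℝ 1 (fun z => M.mass n (pL f L z)) {x : E n | R < ‖x‖} := by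
  obtain ⟨R1, hR1⟩ := far_iff.mp A.mem
  refine ⟨max R1 0, le_max_right _ _, fun x hx => ?_⟩
  have hx1 : R1 < ‖x‖ := lt_of_le_of_lt (le_max_left _ _) hx
  have hx0 : x ≠ 0 := norm_pos_iff.mp (lt_of_le_of_lt (le_max_right _ _) hx)
  have h1 : ContDiffOn ℝ ∞ (M.mass n) U := (M.smooth_mass (n := n)).mono A.subU
  exact ((A.smooth_comp h1 hx0 (hR1 x hx1)).of_le (by exact_mod_cast le_top)).contDiffWithinAt

/-- the energy-momentum vector is parallel to the boost -/
theorem part_b (hn : 3 ≤ n) (A : Asy M f L D q U w) (hq : (n : ℝ) / 2 - 1 < q)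
    {B0 : ℝ} (hle : ∀ᶠ x in far n, M.mass n (uv f x) ≤ B0)
    {R1 : ℝ} {tE : E n → ℝ} {tP : Fin n → E n → ℝ} (hR1 : 0 ≤ R1)
    (hcE : ContinuousOn tE {x : E n | R1 < ‖x‖})
    (hcP : ∀ i, ContinuousOn (tP i) {x : E n | R1 < ‖x‖})
    (hI : ∀ R, R1 < R → sphI tE R = sphI (hE D) R ∧ ∀ i, sphI (tP i) R = sphI (An.hP D i) R)
    (i : Fin n) (hb : ∃ C R : ℝ, 0 ≤ C ∧ 1 ≤ R ∧ ∀ y : E n, R < ‖y‖ →
      ‖y‖ ^ (n - 1) * |w i * tE y - gam w * tP i y| ≤
        C * (‖y‖ * fderiv ℝ (fun z => M.mass n (pL f L z)) y (‖y‖⁻¹ • y) +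
          ‖y‖ ^ (n - 2) * ‖y‖ ^ (-(q + q))))
    {m : ℝ} {P : Fin n → ℝ} (hm : D.IsEnergy m) (hP : D.IsMomentum P) :
    w i * m = gam w * P i := by
  haveI : Nonempty (Fin n) := ⟨⟨0, by omega⟩⟩
  haveI : Nontrivial (E n) := inferInstance
  have hn1 : (0 : ℝ) < (n : ℝ) - 1 := by
    have : (3 : ℝ) ≤ n := by exact_mod_cast hn
    linarith
  have hω : 0 < omega n := omega_pos'
  have hγ := gam_pos w
  obtain ⟨C, R2, hC0, hR2, hb⟩ := hb
  obtain ⟨R3, hR3, hsm⟩ := A.smooth_mL
  have hleL : ∀ᶠ y in far n, M.mass n (pL f L y) ≤ B0 := (far_L L).eventually hle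
  obtain ⟨R4, hR4⟩ := far_iff.mp hleL
  set ℓ : ℝ := ((n : ℝ) - 1) * omega n * (w i * m - gam w * P i) with hℓ
  set N : ℝ → ℝ := fun R => R ^ (n - 1) * sphI (fun y => w i * tE y - gam w * tP i y) R with hN
  have hc1 : ContinuousOn (fun y => w i * tE y) {x : E n | R1 < ‖x‖} :=
    continuousOn_const.mul hcE
  have hc2 : ContinuousOn (fun y => gam w * tP i y) {x : E n | R1 < ‖x‖} :=
    continuousOn_const.mul (hcP i)
  have hlimN : Tendsto N atTop (𝓝 ℓ) := by
    have h1 := ((lim_E hn hm).const_mul (w i)).sub ((lim_P hn hP i).const_mul (gam w))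
    have e : w i * (((n : ℝ) - 1) * omega n * m) - gam w * (((n : ℝ) - 1) * omega n * P i) = ℓ := by
      rw [hℓ]; ring
    rw [e] at h1
    refine h1.congr' ?_
    filter_upwards [eventually_gt_atTop R1] with R hR
    rw [hN]
    simp only
    rw [sphI_sub hR1 hR hc1 hc2, sphI_const_mul, sphI_const_mul, (hI R hR).1, (hI R hR).2 i]
    ring
  have herr : Tendsto (fun R : ℝ => C * (R ^ (n - 2) * R ^ (-(q + q))) * omega n) atTop
      (𝓝 0) := by
    have := ((An.tend_pow hn hq).const_mul C).mul_const (omega n)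
    simpa using this
  have hℓ0 : ℓ = 0 := by
    by_contra hne
    have hpos : 0 < |ℓ| := abs_pos.mpr hne
    have h1 : ∀ᶠ R in atTop, |ℓ| / 2 < |N R| :=
      hlimN.abs.eventually (lt_mem_nhds (by linarith))
    have h2 : ∀ᶠ R : ℝ in atTop, C * (R ^ (n - 2) * R ^ (-(q + q))) * omega n < |ℓ| / 4 :=
      herr.eventually (gt_mem_nhds (by linarith))
    obtain ⟨R5, hR5⟩ := eventually_atTop.mp (h1.and h2)
    set R0 := max (max (max R1 R2) (max R3 R4)) R5 with hR0
    have hall : ∀ R, R0 < R → R1 < R ∧ R2 < R ∧ R3 < R ∧ R4 < R ∧ R5 < R := by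
      intro R hR
      simp only [hR0, max_lt_iff] at hR
      exact ⟨hR.1.1.1, hR.1.1.2, hR.1.2.1, hR.1.2.2, hR.2⟩
    refine no_log (g := sphI (fun z => M.mass n (pL f L z)))
      (g' := fun R => ∫ θ : sphere (0 : E n) 1,
        fderiv ℝ (fun z => M.mass n (pL f L z)) (R • (θ : E n)) (θ : E n) ∂(sphM n))
      (R0 := R0) (K := C) (B := B0 * omega n) (ε := |ℓ| / 4) (by linarith)
      (fun R hR => sphI_hasDerivAt hR3 hsm (hall R hR).2.2.1) (fun R hR => ?_)
      (fun R hR => ?_) hC0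
    · obtain ⟨k1, k2, k3, k4, k5⟩ := hall R hR
      have hRpos : 0 ≤ R := by linarith
      rw [← sphI_const (n := n) (R := R) B0]
      exact integral_mono (integrable_sph hR3 k3 hsm.continuousOn)
        (integrable_sph hR3 k3 continuousOn_const)
        (fun θ => hR4 _ (by rw [norm_smul_sph hRpos]; exact k4))
    · obtain ⟨k1, k2, k3, k4, k5⟩ := hall R hR
      have hRpos : 0 < R := by linarith
      obtain ⟨j1, j2⟩ := hR5 R k5.le
      have hint := integrable_fderiv_sph hR3 k3 hsm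
      have h3 : |N R| ≤ C * (R * ∫ θ : sphere (0 : E n) 1,
          fderiv ℝ (fun z => M.mass n (pL f L z)) (R • (θ : E n)) (θ : E n) ∂(sphM n)) +
          C * (R ^ (n - 2) * R ^ (-(q + q))) * omega n := by
        have e1 : N R = ∫ θ : sphere (0 : E n) 1, R ^ (n - 1) *
            (w i * tE (R • (θ : E n)) - gam w * tP i (R • (θ : E n))) ∂(sphM n) := by
          rw [hN, integral_const_mul]; rfl
        have e2 : C * (R * ∫ θ : sphere (0 : E n) 1,
            fderiv ℝ (fun z => M.mass n (pL f L z)) (R • (θ : E n)) (θ : E n) ∂(sphM n)) +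
            C * (R ^ (n - 2) * R ^ (-(q + q))) * omega n =
            ∫ θ : sphere (0 : E n) 1, (C * (R *
              fderiv ℝ (fun z => M.mass n (pL f L z)) (R • (θ : E n)) (θ : E n)) +
              C * (R ^ (n - 2) * R ^ (-(q + q)))) ∂(sphM n) := by
          rw [integral_add ((hint.const_mul R).const_mul C) (integrable_const _),
            integral_const_mul, integral_const_mul, integral_const, measureReal_def, smul_eq_mul]
          unfold omega
          ring
        rw [e1, e2, ← Real.norm_eq_abs]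
        refine norm_integral_le_of_norm_le
          (((hint.const_mul R).const_mul C).add (integrable_const _))
          (Eventually.of_forall fun θ => ?_)
        have hnθ := norm_smul_sph hRpos.le θ
        have h4 := hb (R • (θ : E n)) (by rw [hnθ]; exact k2)
        rw [hnθ, inv_smul_smul₀ hRpos.ne'] at h4
        rw [Real.norm_eq_abs, abs_mul, abs_of_pos (pow_pos hRpos _)]
        linarith
      linarith
  have h6 : ((n : ℝ) - 1) * omega n ≠ 0 := by positivity
  rw [hℓ] at hℓ0
  rcases mul_eq_zero.mp hℓ0 with h | h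
  · exact absurd h h6
  · linarith

end Asy

end Vale.Agent.P366.T1.Boost
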