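import Vale.Agent.P366.T1.Boost.FluxA

/-! Boosted slices: the derivative of the mass along the rays. -/

set_option linter.all false

open MeasureTheory Metric Filter Topology Set Asymptotics
open scoped ContDiff ENNReal RealInnerProductSpace Matrix

noncomputable section
namespace Vale.Agent.P366.T1.Boost

open Vale.Agent.P366.T1.A919

variable {n : ℕ}

theorem fderiv_ray {u : E n → ℝ} {y : E n} (v : E n) :
    fderiv ℝ u y v = ∑ i, v i * pd i u y := by
  have h1 : v = ∑ i, v i • EuclideanSpace.single i (1 : ℝ) := by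
    ext j
    simp [Pi.single_apply]
  conv_lhs => rw [h1]
  rw [map_sum]
  refine Finset.sum_congr rfl fun i _ => ?_
  rw [map_smul, smul_eq_mul]
  rfl

theorem tau_sq_le (w : Fin n → ℝ) (y : E n) : tauL w y ^ 2 ≤ (gam w ^ 2 - 1) * ‖y‖ ^ 2 := by
  have h1 := Finset.sum_mul_sq_le_sq_mul_sq Finset.univ w (fun i => y i)
  have h2 := gam_sq w
  rw [norm_sq_sum]
  unfold tauL
  have h3 : ∑ i, w i ^ 2 = gam w ^ 2 - 1 := by
    rw [h2]
    have : ∑ i, w i ^ 2 = ∑ i, w i * w i := Finset.sum_congr rfl fun i _ => sq _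
    linarith
  have h4 : ∑ i, y i ^ 2 = ∑ i, y i * y i := Finset.sum_congr rfl fun i _ => sq _
  rw [h3, h4] at h1
  exact h1

/-- `√(1 + s²) - |s|` is bounded below -/
theorem gap {s g k : ℝ} (hk : 0 ≤ k) (hs : s ^ 2 ≤ g ^ 2 - 1) (hg : 0 < g) (hks : k ^ 2 = 1 + s ^ 2) :
    1 / (2 * g) ≤ k - |s| := by
  have h1 : |s| ^ 2 = s ^ 2 := sq_abs s
  have h2 : |s| ≤ g := by
    nlinarith [abs_nonneg s]
  have h3 : k ≤ g := by
    nlinarith
  have h4 : (k - |s|) * (k + |s|) = 1 := by nlinarith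
  have h5 : 0 < k + |s| := by
    have := abs_nonneg s
    by_contra h
    have h6 : k + |s| ≤ 0 := not_lt.mp h
    have h7 : k = 0 := by linarith
    nlinarith
  have h6 : k - |s| = 1 / (k + |s|) := by field_simp; exact h4
  rw [h6]
  exact one_div_le_one_div_of_le h5 (by linarith)

theorem Asy.ray (hn : 3 ≤ n) {M : Spacetime} {f : E n → ℝ} {L : E n ≃L[ℝ] E n}
    {D : Stmt.Exterior n} {q : ℝ} {U : Set (ℝ × ℝ)} {w : Fin n → ℝ} (A : Asy M f L D q U w) :
    ∃ c R : ℝ, 0 < c ∧ 1 ≤ R ∧ ∀ y : E n, R < ‖y‖ →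
      |dT (M.mass n) (pL f L y)| ≤ dX (M.mass n) (pL f L y) →
      c * dX (M.mass n) (pL f L y) ≤
        fderiv ℝ (fun z => M.mass n (pL f L z)) y (‖y‖⁻¹ • y) := by
  have hγ := gam_pos w
  have hq := A.q0
  set κ := 1 / (4 * gam w) with hκ
  have hκ0 : 0 < κ := by positivity
  have hO : O q (fun y => ∑ i, |pd i (hL f L) y - w i|) := by
    refine O.sum fun i _ => (A.hw i).abs
  have hsm := hO.small hq hκ0
  have hsmass : ContDiffOn ℝ ∞ (M.mass n) U := (M.smooth_mass (n := n)).mono A.subU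
  obtain ⟨R1, hR1⟩ := far_iff.mp (hsm.and (A.pdG hsmass))
  refine ⟨κ, max R1 1, hκ0, le_max_right _ _, fun y hy hle => ?_⟩
  obtain ⟨h1, h2⟩ := hR1 y (lt_of_le_of_lt (le_max_left _ _) hy)
  have hy1 : 1 < ‖y‖ := lt_of_le_of_lt (le_max_right _ _) hy
  have h0 : 0 < ‖y‖ := by linarith
  have hy0 : y ≠ 0 := norm_pos_iff.mp h0
  rw [fderiv_ray]
  set a := dT (M.mass n) (pL f L y) with ha
  set x := dX (M.mass n) (pL f L y) with hx
  have hx0 : 0 ≤ x := (abs_nonneg a).trans hle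
  have e1 : ∀ i, (‖y‖⁻¹ • y) i * pd i (fun z => M.mass n (pL f L z)) y =
      a * ((y i / ‖y‖) * pd i (hL f L) y) + x * ((y i / ‖y‖) * pd i (rL L) y) := by
    intro i
    rw [h2 i]
    simp only [PiLp.smul_apply, smul_eq_mul]
    ring
  simp only [e1, Finset.sum_add_distrib, ← Finset.mul_sum]
  have hρ := rL_pos (L := L) hy0
  have e2 : ∑ i, y i / ‖y‖ * pd i (rL L) y = rL L y / ‖y‖ := by
    have e3 : ∀ i, y i / ‖y‖ * pd i (rL L) y =
        1 / (‖y‖ * rL L y) * (y i * y i) + tauL w y / (‖y‖ * rL L y) * (w i * y i) := by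
      intro i
      rw [rL_pd A.hG hy0 i]
      field_simp
    simp only [e3, Finset.sum_add_distrib, ← Finset.mul_sum]
    rw [← norm_sq_sum]
    have e4 : ∑ i, w i * y i = tauL w y := rfl
    rw [e4]
    have e5 := rL_sq A.hG y
    have e6 : 1 / (‖y‖ * rL L y) * ‖y‖ ^ 2 + tauL w y / (‖y‖ * rL L y) * tauL w y =
      (‖y‖ ^ 2 + tauL w y ^ 2) / (‖y‖ * rL L y) := by ring
    rw [e6, ← e5]
    field_simp
  rw [e2]
  set k := rL L y / ‖y‖ with hk
  set s := tauL w y / ‖y‖ with hs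
  have hk0 : 0 ≤ k := by positivity
  have hks : k ^ 2 = 1 + s ^ 2 := by
    rw [hk, hs, div_pow, div_pow, rL_sq A.hG y]
    field_simp
  have hs2 : s ^ 2 ≤ gam w ^ 2 - 1 := by
    rw [hs, div_pow, div_le_iff₀ (by positivity)]
    exact tau_sq_le w y
  have hgap := gap hk0 hs2 hγ hks
  -- the derivative of `h`
  have e7 : |∑ i, y i / ‖y‖ * pd i (hL f L) y - s| ≤ κ := by
    have e8 : ∑ i, y i / ‖y‖ * pd i (hL f L) y - s =
        ∑ i, y i / ‖y‖ * (pd i (hL f L) y - w i) := by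
      have e9 : s = ∑ i, y i / ‖y‖ * w i := by
        rw [hs]; unfold tauL; rw [Finset.sum_div]
        exact Finset.sum_congr rfl fun i _ => by ring
      rw [e9, ← Finset.sum_sub_distrib]
      exact Finset.sum_congr rfl fun i _ => by ring
    rw [e8]
    refine (Finset.abs_sum_le_sum_abs _ _).trans ?_
    have h3 : ∑ i, |pd i (hL f L) y - w i| ≤ κ := (le_abs_self _).trans h1
    refine le_trans (Finset.sum_le_sum fun i _ => ?_) h3
    rw [abs_mul]
    have h4 : |y i / ‖y‖| ≤ 1 := by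
      rw [abs_div, abs_norm]
      refine div_le_one_of_le₀ ?_ (norm_nonneg _)
      rw [← Real.norm_eq_abs]
      exact PiLp.norm_apply_le _ i
    calc _ ≤ 1 * |pd i (hL f L) y - w i| := mul_le_mul_of_nonneg_right h4 (abs_nonneg _)
      _ = _ := one_mul _
  set t := ∑ i, y i / ‖y‖ * pd i (hL f L) y with ht
  have h5 : |t| ≤ |s| + κ := by
    have := abs_sub_abs_le_abs_sub t s
    linarith
  have h6 : -(x * (|s| + κ)) ≤ a * t := by
    have h7 : |a * t| ≤ x * (|s| + κ) := by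
      rw [abs_mul]; exact mul_le_mul hle h5 (abs_nonneg _) hx0
    linarith [neg_abs_le (a * t)]
  have h8 : κ ≤ k - (|s| + κ) := by
    have : 1 / (2 * gam w) = 2 * κ := by rw [hκ]; field_simp; ring
    linarith
  have h9 := mul_le_mul_of_nonneg_left h8 hx0
  linarith

end Vale.Agent.P366.T1.Boost
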