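import Vale.Agent.P366.T1.Boost.Lin

/-! Boosted slices: the formulas for the metric and the second fundamental form in the
asymptotically flat coordinates `y`, `x = L y`. -/

set_option linter.all false

open MeasureTheory Metric Filter Topology Set Asymptotics
open scoped ContDiff ENNReal RealInnerProductSpace Matrix

noncomputable section
namespace Vale.Agent.P366.T1.Boost

open Vale.Agent.P366.T1.A919

variable {n : ℕ}

/-- the slice function in the coordinates `y` -/
def hL (f : E n → ℝ) (L : E n ≃L[ℝ] E n) (y : E n) : ℝ := f (L y)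

/-- `ρ` in the coordinates `y` -/
def rL (L : E n ≃L[ℝ] E n) (y : E n) : ℝ := ‖L y‖

/-- the Euclidean metric of `x` in the coordinates `y` -/
def G0 (L : E n ≃L[ℝ] E n) (i j : Fin n) : ℝ := ∑ k, Lc L k i * Lc L k j

/-- the null coordinates of the point `y` -/
def pL (f : E n → ℝ) (L : E n ≃L[ℝ] E n) (y : E n) : ℝ × ℝ := uv f (L y)

theorem L_ne {L : E n ≃L[ℝ] E n} {y : E n} (hy : y ≠ 0) : L y ≠ 0 := by
  intro h
  exact hy ((map_eq_zero_iff L L.injective).mp h)

theorem pd_hL {f : E n → ℝ} (hf : Differentiable ℝ f) (L : E n ≃L[ℝ] E n) (y : E n) (i : Fin n) :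
    pd i (hL f L) y = ∑ k, Lc L k i * pd k f (L y) := pd_comp L (hf (L y)) i

theorem diff_norm' {x : E n} (hx : x ≠ 0) : DifferentiableAt ℝ (fun z : E n => ‖z‖) x :=
  (contDiffAt_norm ℝ hx (n := 1)).differentiableAt (by norm_num)

theorem pd_rL (L : E n ≃L[ℝ] E n) {y : E n} (hy : y ≠ 0) (i : Fin n) :
    pd i (rL L) y = ∑ k, Lc L k i * Nc k (L y) := by
  have h := pd_comp L (u := fun z : E n => ‖z‖) (y := y) (diff_norm' (L_ne hy)) i
  simp only [pd_norm (L_ne hy)] at h
  exact h

theorem smooth_hL {f : E n → ℝ} (hf : ContDiff ℝ ∞ f) (L : E n ≃L[ℝ] E n) :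
    ContDiff ℝ ∞ (hL f L) := hf.comp L.contDiff

theorem smooth_rL (L : E n ≃L[ℝ] E n) {y : E n} (hy : y ≠ 0) : ContDiffAt ℝ ∞ (rL L) y :=
  (contDiffAt_norm ℝ (L_ne hy)).comp y L.contDiff.contDiffAt

theorem diff_rL (L : E n ≃L[ℝ] E n) {y : E n} (hy : y ≠ 0) : DifferentiableAt ℝ (rL L) y :=
  (smooth_rL L hy).differentiableAt (by simp)

/-- the chain rule in the coordinates `y` -/
theorem pd_pL {G : ℝ × ℝ → ℝ} {f : E n → ℝ} (L : E n ≃L[ℝ] E n) {y : E n} (hy : y ≠ 0)
    (hf : Differentiable ℝ f) (hG : DifferentiableAt ℝ G (pL f L y)) (k : Fin n) :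
    pd k (fun z => G (pL f L z)) y =
      dT G (pL f L y) * pd k (hL f L) y + dX G (pL f L y) * pd k (rL L) y := by
  have h1 := pd_comp L (u := fun x => G (uv f x)) (y := y)
    (diff_uv (L_ne hy) (hf (L y)) hG) k
  have h2 : (fun z => G (pL f L z)) = fun z => (fun x => G (uv f x)) (L z) := rfl
  rw [h2, h1, pd_hL hf, pd_rL L hy]
  simp only [pd_uv (L_ne hy) (hf (L y)) hG]
  rw [Finset.mul_sum, Finset.mul_sum, ← Finset.sum_add_distrib]
  refine Finset.sum_congr rfl fun i _ => ?_
  unfold pL; ring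

theorem diff_pL {G : ℝ × ℝ → ℝ} {f : E n → ℝ} (L : E n ≃L[ℝ] E n) {y : E n} (hy : y ≠ 0)
    (hf : Differentiable ℝ f) (hG : DifferentiableAt ℝ G (pL f L y)) :
    DifferentiableAt ℝ (fun z => G (pL f L z)) y :=
  diff_comp L (u := fun x => G (uv f x)) (diff_uv (L_ne hy) (hf (L y)) hG)

theorem pull_mul (L : E n ≃L[ℝ] E n) (y : E n) (a b : Fin n → ℝ) (c : ℝ) (i j : Fin n) :
    ∑ k, ∑ l, Lc L k i * Lc L l j * (c * (a k * b l)) =
      c * ((∑ k, Lc L k i * a k) * ∑ l, Lc L l j * b l) := by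
  rw [Finset.sum_mul_sum, Finset.mul_sum]
  refine Finset.sum_congr rfl fun k _ => ?_
  rw [Finset.mul_sum]
  exact Finset.sum_congr rfl fun l _ => by ring

theorem pull_delta (L : E n ≃L[ℝ] E n) (c : ℝ) (i j : Fin n) :
    ∑ k, ∑ l, Lc L k i * Lc L l j * (c * (if k = l then 1 else 0)) = c * G0 L i j := by
  unfold G0
  rw [Finset.mul_sum]
  refine Finset.sum_congr rfl fun k _ => ?_
  simp only [mul_ite, mul_one, mul_zero, Finset.sum_ite_eq, Finset.mem_univ, if_true]
  ring

/-- the induced metric in the coordinates `y` -/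
theorem pull_sliceG (M : Spacetime) {f : E n → ℝ} (hf : Stmt.Smooth f) (L : E n ≃L[ℝ] E n)
    {y : E n} (hy : y ≠ 0) (i j : Fin n) : pull L (sliceG M f) y i j =
      M.F (pL f L y) * (pd i (rL L) y * pd j (rL L) y) +
      M.ratio (pL f L y) ^ 2 * (G0 L i j - pd i (rL L) y * pd j (rL L) y) -
      M.F (pL f L y) * (pd i (hL f L) y * pd j (hL f L) y) := by
  have hfd : Differentiable ℝ f := hf.differentiable (by simp)
  have h1 : M.ratio (pL f L y) = M.r (pL f L y) / Stmt.len (L y) := by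
    unfold Spacetime.ratio pL
    rw [uv_rho]; rfl
  have e : ∀ k l, Lc L k i * Lc L l j * sliceG M f (L y) k l =
      Lc L k i * Lc L l j * ((M.F (pL f L y) - M.ratio (pL f L y) ^ 2) *
        (Nc k (L y) * Nc l (L y))) +
      Lc L k i * Lc L l j * (M.ratio (pL f L y) ^ 2 * (if k = l then 1 else 0)) +
      Lc L k i * Lc L l j * (-M.F (pL f L y) * (pd k f (L y) * pd l f (L y))) := by
    intro k l
    unfold sliceG
    rw [pd_eq_of_smooth hf, pd_eq_of_smooth hf, h1]
    unfold Nc Stmt.len pL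
    ring
  unfold pull
  simp only [e, Finset.sum_add_distrib]
  rw [pull_mul L y, pull_mul L y, pull_delta, pd_hL hfd, pd_hL hfd, pd_rL L hy, pd_rL L hy]
  ring

/-- the derivative of the induced metric in `t`, at a point -/
theorem Gt_at (M : Spacetime) {f : E n → ℝ} (hf : Stmt.Smooth f) {x : E n} (hx : x ≠ 0)
    (dF : DifferentiableAt ℝ M.F (uv f x)) (ds : DifferentiableAt ℝ M.ratio (uv f x))
    (i j : Fin n) :
    sliceGt M f x i j = dT M.F (uv f x) * (Nc i x * Nc j x - pd i f x * pd j f x) +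
      2 * M.ratio (uv f x) * dT M.ratio (uv f x) * ((if i = j then 1 else 0) - Nc i x * Nc j x) := by
  have h0 : 0 < ‖x‖ := norm_pos_iff.mpr hx
  have hF := dT_eq dF
  have hr : M.r =ᶠ[𝓝 (uv f x)] fun p => rho p * M.ratio p := by
    have h1 : ∀ᶠ p : ℝ × ℝ in 𝓝 (uv f x), p.1 < p.2 := by
      refine (isOpen_lt continuous_fst continuous_snd).mem_nhds ?_
      show f x - Stmt.len x < f x + Stmt.len x
      unfold Stmt.len; linarith
    filter_upwards [h1] with p hp
    unfold Spacetime.ratio rho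
    have : p.2 - p.1 ≠ 0 := by
      have : 0 < p.2 - p.1 := by linarith
      exact this.ne'
    field_simp
  have hprod : DifferentiableAt ℝ (fun p : ℝ × ℝ => rho p * M.ratio p) (uv f x) :=
    (diff_rho _).mul ds
  have hrd : DifferentiableAt ℝ M.r (uv f x) := hprod.congr_of_eventuallyEq hr
  have hrT : du M.r (uv f x) + dv M.r (uv f x) = ‖x‖ * dT M.ratio (uv f x) := by
    rw [← dT_eq hrd, dT_congr hr, dT_mul (diff_rho _) ds, dT_rho, rho_uv]; ring
  have h1 : M.ratio (uv f x) = M.r (uv f x) / ‖x‖ := by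
    unfold Spacetime.ratio
    rw [uv_rho]
  unfold sliceGt
  rw [hrT, ← hF, pd_eq_of_smooth hf, pd_eq_of_smooth hf, h1]
  unfold Nc Stmt.len
  have : ‖x‖ ≠ 0 := h0.ne'
  field_simp

/-- the derivative of the metric in `t`, in the coordinates `y` -/
def GtL (M : Spacetime) (f : E n → ℝ) (L : E n ≃L[ℝ] E n) (i j : Fin n) (y : E n) : ℝ :=
  dT M.F (pL f L y) * (pd i (rL L) y * pd j (rL L) y - pd i (hL f L) y * pd j (hL f L) y) +
    2 * M.ratio (pL f L y) * dT M.ratio (pL f L y) *
      (G0 L i j - pd i (rL L) y * pd j (rL L) y)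

theorem pull_sliceGt (M : Spacetime) {f : E n → ℝ} (hf : Stmt.Smooth f) (L : E n ≃L[ℝ] E n)
    {y : E n} (hy : y ≠ 0) (dF : DifferentiableAt ℝ M.F (pL f L y))
    (ds : DifferentiableAt ℝ M.ratio (pL f L y)) (i j : Fin n) :
    pull L (sliceGt M f) y i j = GtL M f L i j y := by
  have hfd : Differentiable ℝ f := hf.differentiable (by simp)
  have e : ∀ k l, Lc L k i * Lc L l j * sliceGt M f (L y) k l =
      Lc L k i * Lc L l j * ((dT M.F (pL f L y) - 2 * M.ratio (pL f L y) * dT M.ratio (pL f L y)) *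
        (Nc k (L y) * Nc l (L y))) +
      Lc L k i * Lc L l j * (2 * M.ratio (pL f L y) * dT M.ratio (pL f L y) *
        (if k = l then 1 else 0)) +
      Lc L k i * Lc L l j * (-dT M.F (pL f L y) * (pd k f (L y) * pd l f (L y))) := by
    intro k l
    rw [Gt_at M hf (L_ne hy) dF ds]
    unfold pL
    ring
  unfold pull
  simp only [e, Finset.sum_add_distrib]
  rw [pull_mul L y, pull_mul L y, pull_delta]
  unfold GtL
  rw [pd_hL hfd, pd_hL hfd, pd_rL L hy, pd_rL L hy]
  ring

/-- the Christoffel symbols of fields that agree near a point -/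
theorem chr_congr {g g' : Stmt.Field n} {x : E n} (h : ∀ᶠ y in 𝓝 x, ∀ i j, g y i j = g' y i j)
    (k i j : Fin n) : Stmt.chr g k i j x = Stmt.chr g' k i j x := by
  have h3 : Stmt.mat g x = Stmt.mat g' x := by
    ext i j; exact h.self_of_nhds i j
  have h5 : ∀ k i j, Stmt.pd k (fun y => g y i j) x = Stmt.pd k (fun y => g' y i j) x := by
    intro k i j
    unfold Stmt.pd
    refine Filter.EventuallyEq.lineDeriv_eq ?_
    filter_upwards [h] with y hy using hy i j
  unfold Stmt.chr Stmt.up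
  simp only [h3, h5]

/-- the lapse in the coordinates `y` -/
theorem lapse_pull (M : Spacetime) {f : E n → ℝ} (hf : Stmt.Smooth f) (L : E n ≃L[ℝ] E n)
    {y : E n} (hdet : (Stmt.mat (pull L (sliceG M f)) y).det ≠ 0) :
    lapse M f (L y) = √(M.F (pL f L y) + ∑ i, ∑ j, Stmt.up (pull L (sliceG M f)) i j y *
      (M.F (pL f L y) * pd i (hL f L) y) * (M.F (pL f L y) * pd j (hL f L) y)) := by
  have hfd : Differentiable ℝ f := hf.differentiable (by simp)
  unfold lapse
  congr 1
  congr 1
  set s : Fin n → ℝ := fun k => shift M f k (L y) with hs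
  set g' := (Stmt.mat (pull L (sliceG M f)) y)⁻¹ with hg'
  have e1 : ∑ i, ∑ j, Stmt.up (sliceG M f) i j (L y) * shift M f i (L y) * shift M f j (L y) =
      s ⬝ᵥ ((Stmt.mat (sliceG M f) (L y))⁻¹ *ᵥ s) := by
    simp only [dotProduct, Matrix.mulVec, Finset.mul_sum]
    refine Finset.sum_congr rfl fun i _ => Finset.sum_congr rfl fun j _ => ?_
    rw [hs]; unfold Stmt.up; ring
  have hW : s ᵥ* Lm L = fun i => -(M.F (pL f L y) * pd i (hL f L) y) := by
    funext i
    rw [pd_hL hfd]
    simp only [Matrix.vecMul, dotProduct, hs, shift, pd_eq_of_smooth hf]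
    rw [Finset.mul_sum, ← Finset.sum_neg_distrib]
    refine Finset.sum_congr rfl fun k _ => ?_
    show -(M.F (uv f (L y)) * pd k f (L y)) * Lc L k i = _
    unfold pL; ring
  rw [e1, inv_pull L hdet, ← Matrix.mulVec_mulVec, ← Matrix.mulVec_mulVec,
    Matrix.dotProduct_mulVec, Matrix.mulVec_transpose, hW]
  simp only [dotProduct, Matrix.mulVec, Finset.mul_sum]
  refine Finset.sum_congr rfl fun i _ => Finset.sum_congr rfl fun j _ => ?_
  unfold Stmt.up
  ring

/-- the second fundamental form in the coordinates `y` -/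
theorem K_pull (M : Spacetime) {f : E n → ℝ} (hf : Stmt.Smooth f) (L : E n ≃L[ℝ] E n)
    {y : E n} (hy : y ≠ 0) (dF : DifferentiableAt ℝ M.F (pL f L y))
    (ds : DifferentiableAt ℝ M.ratio (pL f L y))
    (hG : ∀ k l, DifferentiableAt ℝ (fun x => sliceG M f x k l) (L y))
    (hdet : (Stmt.mat (pull L (sliceG M f)) y).det ≠ 0) (hl : lapse M f (L y) ≠ 0)
    (i j : Fin n) :
    2 * lapse M f (L y) * pull L (sliceK M f) y i j = GtL M f L i j y +
      (pd i (fun z => M.F (pL f L z)) y * pd j (hL f L) y +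
        pd j (fun z => M.F (pL f L z)) y * pd i (hL f L) y) +
      2 * M.F (pL f L y) * pd i (pd j (hL f L)) y -
      ∑ k, (Stmt.chr (pull L (sliceG M f)) k i j y + Stmt.chr (pull L (sliceG M f)) k j i y) *
        (M.F (pL f L y) * pd k (hL f L) y) := by
  have hfd : Differentiable ℝ f := hf.differentiable (by simp)
  have hxy := L_ne (L := L) hy
  have hFd : DifferentiableAt ℝ (fun x => M.F (uv f x)) (L y) := diff_uv hxy (hfd _) dF
  have hpds : ∀ k, ContDiff ℝ ∞ (pd k f) := fun k => smooth_pd hf k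
  have hpdd : ∀ k, DifferentiableAt ℝ (pd k f) (L y) := fun k => (hpds k).differentiable (by simp) _
  -- the derivatives of the shift
  have hs : ∀ k l, Stmt.pd k (shift M f l) (L y) =
      -(pd k (fun x => M.F (uv f x)) (L y) * pd l f (L y) +
      M.F (uv f (L y)) * pd k (pd l f) (L y)) := by
    intro k l
    have e : shift M f l = fun x => (fun x => M.F (uv f x)) x * pd l f x * (-1) := by
      funext x; unfold shift; rw [pd_eq_of_smooth hf]; ring
    have hm : DifferentiableAt ℝ (fun x => (fun x => M.F (uv f x)) x * pd l f x) (L y) :=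
      hFd.mul (hpdd l)
    rw [e, pd_eq (hm.mul_const _), pd_mul_const hm, pd_mul hFd (hpdd l)]
    ring
  -- the pulled back first derivatives
  have hFi : ∀ i, pd i (fun z => M.F (pL f L z)) y =
      ∑ k, Lc L k i * pd k (fun x => M.F (uv f x)) (L y) := fun i =>
    pd_comp L (u := fun x => M.F (uv f x)) hFd i
  have hhij : ∀ i j, pd i (pd j (hL f L)) y =
      ∑ k, ∑ l, Lc L k i * Lc L l j * pd k (pd l f) (L y) := by
    intro i j
    have e : pd j (hL f L) = fun z => ∑ l, (fun z => pd l f (L z)) z * Lc L l j := by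
      funext z
      rw [pd_hL hfd]
      exact Finset.sum_congr rfl fun l _ => mul_comm _ _
    have hd : ∀ l, DifferentiableAt ℝ (fun z => pd l f (L z)) y := fun l => diff_comp L (hpdd l)
    rw [e, pd_sum _ (fun l _ => (hd l).mul_const _)]
    rw [Finset.sum_comm]
    refine Finset.sum_congr rfl fun l _ => ?_
    rw [pd_mul_const (hd l), pd_comp L (hpdd l), Finset.sum_mul]
    exact Finset.sum_congr rfl fun k _ => by ring
  have hw : ∀ m, ∑ k, Lc L k m * shift M f k (L y) = -(M.F (pL f L y) * pd m (hL f L) y) := by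
    intro m
    rw [pd_hL hfd, Finset.mul_sum, ← Finset.sum_neg_distrib]
    refine Finset.sum_congr rfl fun k _ => ?_
    unfold shift pL
    rw [pd_eq_of_smooth hf]; ring
  have hD : ∀ i j, ∑ k, ∑ l, Lc L k i * Lc L l j * dShift M f (L y) k l =
      -(pd i (fun z => M.F (pL f L z)) y * pd j (hL f L) y +
        M.F (pL f L y) * pd i (pd j (hL f L)) y) +
      ∑ k, Stmt.chr (pull L (sliceG M f)) k i j y * (M.F (pL f L y) * pd k (hL f L) y) := by
    intro i j
    have e1 : ∀ k l, Lc L k i * Lc L l j * dShift M f (L y) k l =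
        Lc L k i * Lc L l j * (-1 * (pd k (fun x => M.F (uv f x)) (L y) * pd l f (L y))) +
        -M.F (pL f L y) * (Lc L k i * Lc L l j * pd k (pd l f) (L y)) -
        Lc L k i * Lc L l j * ∑ m, Stmt.chr (sliceG M f) m k l (L y) * shift M f m (L y) := by
      intro k l
      unfold dShift
      rw [hs]
      unfold pL; ring
    simp only [e1, Finset.sum_add_distrib, Finset.sum_sub_distrib]
    have e2 : ∑ k, ∑ l, -M.F (pL f L y) * (Lc L k i * Lc L l j * pd k (pd l f) (L y)) =
        -M.F (pL f L y) * pd i (pd j (hL f L)) y := by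
      rw [hhij, Finset.mul_sum]
      exact Finset.sum_congr rfl fun k _ => by rw [Finset.mul_sum]
    have e3 := chr_pull L hG hdet (fun m => shift M f m (L y)) i j
    rw [pull_mul L y, e2, e3, ← hFi, ← pd_hL hfd]
    simp only [hw]
    simp only [mul_neg, Finset.sum_neg_distrib]
    ring
  have e3 : ∀ k l, Lc L k i * Lc L l j * sliceK M f (L y) k l * (2 * lapse M f (L y)) =
      Lc L k i * Lc L l j * sliceGt M f (L y) k l - Lc L k i * Lc L l j * dShift M f (L y) k l -
      Lc L l j * Lc L k i * dShift M f (L y) l k := by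
    intro k l
    unfold sliceK
    field_simp
  have e4 : 2 * lapse M f (L y) * pull L (sliceK M f) y i j =
      pull L (sliceGt M f) y i j - ∑ k, ∑ l, Lc L k i * Lc L l j * dShift M f (L y) k l -
      ∑ l, ∑ k, Lc L l j * Lc L k i * dShift M f (L y) l k := by
    unfold pull
    rw [mul_comm, Finset.sum_mul]
    simp only [Finset.sum_mul, e3, Finset.sum_sub_distrib]
    rw [Finset.sum_comm (f := fun k l => Lc L l j * Lc L k i * dShift M f (L y) l k)]
  rw [e4, pull_sliceGt M hf L hy dF ds, hD, hD, symm_pd (smooth_hL hf L) j i]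
  simp only [add_mul, Finset.sum_add_distrib]
  ring

end Vale.Agent.P366.T1.Boost
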